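import Vale.Agent.P046.Limit.Defs

/-! P046, the limit constant: the exact equations of the block process. -/

open Finset

namespace Vale.Agent.P046.Limit

variable {ι : Type*} [DecidableEq ι] [Fintype ι] {V : Finset ι} {H : Finset (Finset ι)}

theorem mean_zero (F : Finset ι → ℝ) : mean V H 0 F = F V := congrFun (flow_zero F) V

theorem mean_nonneg {t : ℝ} (ht : 0 ≤ t) {F : Finset ι → ℝ} (h : ∀ A, 0 ≤ F A) :
    0 ≤ mean V H t F := by
  have := flow_mono (H := H) (step := stepA) ht (F := fun _ => (0 : ℝ)) (G := F) h V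
  rwa [flow_const] at this

theorem mean_sum {κ : Type*} (S : Finset κ) (t : ℝ) (F : κ → Finset ι → ℝ) :
    mean V H t (fun A => ∑ i ∈ S, F i A) = ∑ i ∈ S, mean V H t (F i) := by
  rw [mean, show (fun A => ∑ i ∈ S, F i A) = ∑ i ∈ S, F i from
    funext fun A => (Finset.sum_apply A S F).symm, flow_sum, Finset.sum_apply]
  rfl

theorem mean_neg (t : ℝ) (F : Finset ι → ℝ) : mean V H t (fun A => -F A) = -mean V H t F :=
  congrFun (map_neg (NormedSpace.exp (t • genL H (stepA (ι := ι)))) F) V

/-- A positive quantity stays positive. -/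
theorem mean_pos {t : ℝ} (ht : 0 ≤ t) {F : Finset ι → ℝ} (h : ∀ A, 0 ≤ F A) (hV : 0 < F V) :
    0 < mean V H t F := by
  set g : ℝ → ℝ := fun u => Real.exp ((H.card : ℝ) * u) * mean V H u F with hg
  have hd : ∀ u, HasDerivAt g
      (Real.exp ((H.card : ℝ) * u) * (mean V H u (gen H stepA F) + H.card * mean V H u F)) u := by
    intro u
    have e1 : HasDerivAt (fun v => Real.exp ((H.card : ℝ) * v))
        (Real.exp ((H.card : ℝ) * u) * H.card) u := by
      simpa using ((hasDerivAt_id u).const_mul (H.card : ℝ)).exp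
    exact (e1.mul (flow_deriv u F V)).congr_deriv (by simp only [mean]; ring)
  have hmono : MonotoneOn g (Set.Ici 0) := by
    refine monotoneOn_of_deriv_nonneg (convex_Ici 0)
      (fun u _ => (hd u).continuousAt.continuousWithinAt)
      (fun u _ => (hd u).differentiableAt.differentiableWithinAt) fun u hu => ?_
    rw [interior_Ici, Set.mem_Ioi] at hu
    rw [(hd u).deriv]
    refine mul_nonneg (Real.exp_nonneg _) ?_
    have h1 := flow_mono (H := H) (step := stepA) hu.le (F := fun _ => (0 : ℝ))
      (G := gen H stepA F + (H.card : ℝ) • F) (fun A => by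
        simp only [Pi.add_apply, Pi.smul_apply, smul_eq_mul, gen, sum_sub_distrib, sum_const,
          nsmul_eq_mul, sub_add_cancel]
        exact sum_nonneg fun k _ => h _) V
    simpa [flow_const, flow_add, flow_smul, mean] using h1
  have h1 : 0 < g t := lt_of_lt_of_le (by simpa [hg, mean_zero] using hV)
    (hmono Set.self_mem_Ici (Set.mem_Ici.2 ht) ht)
  exact pos_of_mul_pos_right h1 (Real.exp_nonneg _)

omit [Fintype ι] in
theorem sub_stepA {k X A : Finset ι} (hX : X ⊆ A) (hd : ¬(k ⊆ A ∧ ¬Disjoint k X)) :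
    X ⊆ stepA k A := by
  unfold stepA
  split_ifs with hk
  · refine subset_sdiff.2 ⟨hX, ?_⟩
    by_contra h
    exact hd ⟨hk, fun hdis => h hdis.symm⟩
  · exact hX

omit [Fintype ι] in
/-- The rate at which `X` stops being alive. -/
theorem gen_alive (X A : Finset ι) :
    gen H stepA (fun A => if X ⊆ A then (1 : ℝ) else 0) A
      = -∑ k ∈ H, if ¬Disjoint k X then (if X ⊆ A ∧ k ⊆ A then (1 : ℝ) else 0) else 0 := by
  rw [gen, ← sum_neg_distrib]
  refine sum_congr rfl fun k _ => ?_
  by_cases hX : X ⊆ A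
  · by_cases hd : k ⊆ A ∧ ¬Disjoint k X
    · have hno : ¬X ⊆ stepA k A := by
        rw [stepA, if_pos hd.1, subset_sdiff]
        exact fun h => hd.2 h.2.symm
      rw [if_neg hno, if_pos hX, if_pos hd.2, if_pos ⟨hX, hd.1⟩]
      norm_num
    · rw [if_pos (sub_stepA hX hd), if_pos hX, sub_self]
      by_cases h1 : ¬Disjoint k X
      · rw [if_pos h1, if_neg fun h2 => hd ⟨h2.2, h1⟩, neg_zero]
      · rw [if_neg h1, neg_zero]
  · have hno : ¬X ⊆ stepA k A := fun h => hX (h.trans (by
      unfold stepA; split_ifs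
      · exact sdiff_subset
      · exact subset_rfl))
    rw [if_neg hno, if_neg hX]
    simp [hX]

omit [Fintype ι] in
/-- The blocks meeting a given block are itself and the other blocks at one of its points. -/
theorem sum_meeting (hL : Lin V H) {k : Finset ι} (hk : k ∈ H) (f : Finset ι → ℝ) :
    (∑ a ∈ H, if ¬Disjoint a k then f a else 0)
      = f k + ∑ i ∈ k, ∑ j ∈ (blocksAt H i).erase k, f j := by
  rw [← sum_filter]
  have hmem : k ∈ H.filter (¬Disjoint · k) := mem_filter.2 ⟨hk, fun h => by
    have := hL.card3 k hk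
    rw [disjoint_self, bot_eq_empty] at h
    simp [h] at this⟩
  rw [← add_sum_erase _ _ hmem]
  congr 1
  rw [show (H.filter (¬Disjoint · k)).erase k = k.biUnion fun i => (blocksAt H i).erase k by
    ext a
    simp only [mem_erase, mem_filter, mem_biUnion, blocksAt, not_disjoint_iff]
    tauto]
  refine sum_biUnion fun i hi i' hi' hne => disjoint_left.2 fun a ha ha' => ?_
  simp only [mem_erase, blocksAt, mem_filter] at ha ha'
  have h2 : 1 < (a ∩ k).card :=
    one_lt_card.2 ⟨i, mem_inter.2 ⟨ha.2.2, hi⟩, i', mem_inter.2 ⟨ha'.2.2, hi'⟩, hne⟩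
  exact absurd (hL.lin a ha.2.1 k hk ha.1) (not_le.2 h2)

theorem rates : RatesStmt := by
  intro ι _ _ V H hL
  have hmem : ∀ (i : ι) (A : Finset ι), (if i ∈ A then (1 : ℝ) else 0)
      = if ({i} : Finset ι) ⊆ A then 1 else 0 := fun i A => by simp [singleton_subset_iff]
  have hqpos : ∀ t, 0 ≤ t → ∀ i ∈ V, 0 < qf V H t i := fun t ht i hi =>
    mean_pos ht (fun A => by positivity) (by simp [hi])
  refine ⟨fun i hi => ?_, fun k hk => ?_, hqpos, fun t ht i _ => ?_, fun t ht k hk => ?_,
    fun t ht k _ i hi => ?_, fun t _ i _ => ?_, fun t ht k hk => ?_⟩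
  · rw [qf, mean_zero, if_pos hi]
  · rw [cf, mean_zero, if_pos (hL.sub k hk)]
  · refine (flow_mono ht (G := fun _ => (1 : ℝ)) (fun A => ?_) V).trans_eq ?_
    · split_ifs <;> norm_num
    · rw [flow_const]
  · exact mean_pos ht (fun A => by positivity) (by simp [hL.sub k hk])
  · refine flow_mono ht (fun A => ?_) V
    split_ifs with a b <;> first | exact absurd (a hi) b | norm_num
  · have h := flow_deriv (H := H) (step := stepA) t
      (fun A => if ({i} : Finset ι) ⊆ A then (1 : ℝ) else 0) V
    simp only [qf, mean, hmem]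
    refine h.congr_deriv ?_
    rw [show gen H stepA (fun A => if ({i} : Finset ι) ⊆ A then (1 : ℝ) else 0)
        = fun A => -∑ k ∈ blocksAt H i, if k ⊆ A then (1 : ℝ) else 0 from funext fun A => by
      rw [gen_alive, blocksAt, sum_filter]
      congr 1
      refine sum_congr rfl fun k _ => ?_
      by_cases hik : i ∈ k
      · by_cases hkA : k ⊆ A
        · simp [hik, hkA, hkA hik]
        · simp [hik, hkA]
      · simp [hik]]
    exact (mean_neg t _).trans (congrArg Neg.neg (mean_sum _ t _))
  · have h := flow_deriv (H := H) (step := stepA) t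
      (fun A => if k ⊆ A then (1 : ℝ) else 0) V
    refine h.congr_deriv ?_
    rw [show gen H stepA (fun A => if k ⊆ A then (1 : ℝ) else 0)
        = fun A => -((if k ⊆ A then (1 : ℝ) else 0)
            + ∑ i ∈ k, ∑ j ∈ (blocksAt H i).erase k,
              if j ⊆ A ∧ k ⊆ A then (1 : ℝ) else 0) from funext fun A => by
      rw [gen_alive]
      congr 1
      simp only [and_comm (a := k ⊆ A)]
      rw [sum_meeting hL hk (fun a => if a ⊆ A ∧ k ⊆ A then (1 : ℝ) else 0)]
      simp]
    have hp : ∀ i, mean V H t (fun A => ∑ j ∈ (blocksAt H i).erase k,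
        if j ⊆ A ∧ k ⊆ A then (1 : ℝ) else 0)
        = ∑ j ∈ (blocksAt H i).erase k, pf V H t j k := fun i => mean_sum _ t _
    refine (mean_neg t _).trans ?_
    have e1 : mean V H t (fun A => (if k ⊆ A then (1 : ℝ) else 0)
        + ∑ i ∈ k, ∑ j ∈ (blocksAt H i).erase k, if j ⊆ A ∧ k ⊆ A then (1 : ℝ) else 0)
        = cf V H t k + ∑ i ∈ k, ∑ j ∈ (blocksAt H i).erase k, pf V H t j k := by
      rw [← sum_congr rfl fun i _ => hp i, ← mean_sum]
      exact congrFun (flow_add (H := H) (step := stepA) t _ _) V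
    rw [e1]
    simp only [eta, sub_eq_add_neg, neg_add]
    congr 1
    rw [← sum_neg_distrib, ← sum_neg_distrib]
    exact sum_congr rfl fun i _ => by ring

end Vale.Agent.P046.Limit
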