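import Vale.Agent.P046.Limit.Target
import Vale.Agent.P046.Limit.Rates
import Vale.Agent.P046.Lower.Basic

/-!
P046, the limit constant: triangle removal as the block process.  The expected leave is invariant
along the block process, and it is unchanged by stopping at a scale.
-/

open Finset

namespace Vale.Agent.P046.Limit

variable {α : Type*} [DecidableEq α] [Fintype α]

/-- A triangle is determined by its sides. -/
theorem sides_injOn (G : Finset (Finset α)) : Set.InjOn sides (tri G : Set (Finset α)) := by
  intro t ht u hu h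
  obtain ⟨e, he, f, hf, hne⟩ := one_lt_card.1
    (show 1 < (sides t).card by rw [Lower.card_sides ht]; norm_num)
  exact Lower.eq_of_two_sides ht hu he hf (h ▸ he) (h ▸ hf) hne

theorem sum_triBlocks (G : Finset (Finset α)) (f : Finset (Finset α) → ℝ) :
    ∑ k ∈ blocks G, f k = ∑ t ∈ tri G, f (sides t) :=
  sum_image (sides_injOn G)

/-- The triangles of an edge set form a linear family of blocks on it. -/
theorem lin_blocks (G : Finset (Finset α)) : Lin G (blocks G) where
  card3 k hk := by
    obtain ⟨t, ht, rfl⟩ := mem_image.1 hk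
    exact Lower.card_sides ht
  sub k hk := by
    obtain ⟨t, ht, rfl⟩ := mem_image.1 hk
    exact (Lower.mem_tri.1 ht).2
  lin k hk j hj hne := by
    obtain ⟨t, ht, rfl⟩ := mem_image.1 hk
    obtain ⟨u, hu, rfl⟩ := mem_image.1 hj
    refine card_le_one.2 fun e he f hf => by_contra fun hef => hne ?_
    rw [Lower.eq_of_two_sides ht hu (mem_inter.1 he).1 (mem_inter.1 hf).1 (mem_inter.1 he).2
      (mem_inter.1 hf).2 hef]

theorem filter_tri_eq {G A : Finset (Finset α)} (h : A ⊆ G) :
    (tri G).filter (fun t => sides t ⊆ A) = tri A := by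
  ext t
  simp only [mem_filter, Lower.mem_tri]
  exact ⟨fun ht => ⟨ht.1.1, ht.2⟩, fun ht => ⟨⟨ht.1, ht.2.trans h⟩, ht.2⟩⟩

/-- The recursion of `leaveExp`. -/
theorem leaveExp_mul (f : ℕ → ℝ) {G : Finset (Finset α)} (h : (tri G).Nonempty) :
    ((tri G).card : ℝ) * leaveExp f G = ∑ t ∈ tri G, leaveExp f (G \ sides t) := by
  conv_lhs => rw [leaveExp]
  rw [if_pos h, mul_div_cancel₀ _ (Nat.cast_ne_zero.2 h.card_pos.ne'), sum_attach (tri G)
    fun t => leaveExp f (G \ sides t)]

theorem leaveExp_stop (f : ℕ → ℝ) {G : Finset (Finset α)} (h : tri G = ∅) :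
    leaveExp f G = f G.card := by
  rw [leaveExp, if_neg (by simp [h])]

/-- The leave is a harmonic function of the block process. -/
theorem gen_leaveExp (f : ℕ → ℝ) (G A : Finset (Finset α)) :
    gen (blocks G) stepA (fun A => leaveExp f (A ∩ G)) A = 0 := by
  have e : ∀ t ∈ tri G, leaveExp f (stepA (sides t) A ∩ G) - leaveExp f (A ∩ G) =
      if sides t ⊆ A ∩ G then leaveExp f ((A ∩ G) \ sides t) - leaveExp f (A ∩ G) else 0 := by
    intro t ht
    have hG := (Lower.mem_tri.1 ht).2
    simp only [stepA]
    by_cases h : sides t ⊆ A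
    · rw [if_pos h, if_pos (subset_inter h hG),
        show (A \ sides t) ∩ G = (A ∩ G) \ sides t by ext; simp; tauto]
    · rw [if_neg h, if_neg fun h' => h (h'.trans inter_subset_left), sub_self]
  rw [gen, sum_triBlocks, sum_congr rfl e, ← sum_filter, filter_tri_eq inter_subset_right,
    sum_sub_distrib, sum_const, nsmul_eq_mul]
  rcases (tri (A ∩ G)).eq_empty_or_nonempty with h | h
  · simp [h]
  · rw [leaveExp_mul f h, sub_self]

/-- Deleting the remaining triangles moves the distance by at most three for each of them. -/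
theorem leaveExp_dist_le (c : ℝ) : ∀ A : Finset (Finset α),
    leaveExp (fun m : ℕ => |(m : ℝ) - c|) A ≤ |(A.card : ℝ) - c| + 3 * (tri A).card := by
  intro A
  induction h : A.card using Nat.strong_induction_on generalizing A with
  | _ m ih =>
    subst h
    rcases (tri A).eq_empty_or_nonempty with h0 | h0
    · rw [leaveExp_stop _ h0, h0]; simp
    · refine le_of_mul_le_mul_left ?_ (Nat.cast_pos.2 h0.card_pos : (0 : ℝ) < (tri A).card)
      rw [leaveExp_mul _ h0, ← nsmul_eq_mul, ← sum_const]
      refine sum_le_sum fun t ht => (ih _ (card_removed_lt ht) _ rfl).trans ?_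
      have hc : ((A \ sides t).card : ℝ) + 3 = A.card := by
        exact_mod_cast Lower.card_sdiff_sides ht
      have hT : ((tri (A \ sides t)).card : ℝ) + 1 ≤ (tri A).card := by
        have h1 : insert t (tri (A \ sides t)) ⊆ tri A :=
          insert_subset ht fun u hu => (Lower.mem_tri_sdiff.1 hu).1
        have h2 := card_le_card h1
        rw [card_insert_of_notMem (Lower.not_mem_tri_sdiff_self ht)] at h2
        exact_mod_cast h2
      have h3 : |((A \ sides t).card : ℝ) - c| ≤ |(A.card : ℝ) - c| + 3 := by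
        rw [← hc]
        refine abs_le.2 ⟨?_, ?_⟩
        · linarith [neg_abs_le (((A \ sides t).card : ℝ) - c),
            le_abs_self (((A \ sides t).card : ℝ) + 3 - c),
            neg_abs_le (((A \ sides t).card : ℝ) + 3 - c)]
        · linarith [le_abs_self (((A \ sides t).card : ℝ) + 3 - c)]
      linarith

/-- The expected distance of the leave is that of the alive edges up to the alive triangles. -/
theorem leaveExp_le_mean (G : Finset (Finset α)) {t : ℝ} (ht : 0 ≤ t) (c : ℝ) :
    leaveExp (fun m : ℕ => |(m : ℝ) - c|) G ≤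
      mean G (blocks G) t (fun A => |(A.card : ℝ) - c|)
        + 3 * ∑ k ∈ blocks G, cf G (blocks G) t k := by
  classical
  have h := congrFun (flow_eq_of_gen_zero
    (gen_leaveExp (fun m : ℕ => |(m : ℝ) - c|) G) t) G
  simp only [inter_self] at h
  rw [← h]
  refine (flow_le_of_inv (S := fun A => A ⊆ G) (fun k _ A hA => ?_) ht
    (G := (fun A => |(A.card : ℝ) - c|) +
      (3 : ℝ) • ∑ k ∈ blocks G, fun A => if k ⊆ A then (1 : ℝ) else 0)
    (fun A hA => ?_) subset_rfl).trans_eq ?_
  · rw [stepA]; split_ifs
    · exact sdiff_subset.trans hA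
    · exact hA
  · rw [Pi.add_apply, Pi.smul_apply, Finset.sum_apply, sum_triBlocks, sum_boole, filter_tri_eq hA,
      inter_eq_left.2 hA, smul_eq_mul]
    exact leaveExp_dist_le c A
  · rw [flow_add, flow_smul, flow_sum, Pi.add_apply, Pi.smul_apply, Finset.sum_apply]
    rfl

/-- Stopping does not change the expected leave. -/
theorem stopE_leaveExp (D : ℝ) (f : ℕ → ℝ) : ∀ (G B : Finset (Finset α)) (Y : ℝ)
    (w : Finset α → ℝ), stopE D (fun G _ _ _ => leaveExp f G) G B Y w = leaveExp f G := by
  intro G
  induction h : G.card using Nat.strong_induction_on generalizing G with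
  | _ m ih =>
    intro B Y w
    by_cases hg : Go D G Y
    · rw [stopE_go hg, sum_congr rfl fun t ht => ih _ (h ▸ card_removed_lt ht) _ rfl _ _ _,
        ← leaveExp_mul f hg.2.2, Sharp.triNum,
        mul_div_cancel_left₀ _ (Nat.cast_ne_zero.2 hg.2.2.card_pos.ne')]
    · rw [stopE_stop hg]

theorem leaveExp_fromTop (n : ℕ) (D : ℝ) (f : ℕ → ℝ) :
    leaveExp f (complete n) = fromTop n D (fun G _ _ _ => leaveExp f G) :=
  (stopE_leaveExp D f _ _ _ _).symm

end Vale.Agent.P046.Limit
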