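import Vale.Agent.P046.Limit.Defs

/-!
P046, the limit constant: the spread of a set of points through the blocks, and the number of pairs
of points whose balls meet (module Spread).
-/

open Finset

namespace Vale.Agent.P046.Limit

variable {ι : Type*} [DecidableEq ι] {V : Finset ι} {H : Finset (Finset ι)}

/-- The points at distance at most one from `T` through blocks. -/
def grow (V : Finset ι) (H : Finset (Finset ι)) (T : Finset ι) : Finset ι :=
  T ∪ V.filter fun x => ∃ k ∈ H, x ∈ k ∧ ¬Disjoint k T

/-- The points at distance at most `r` from `S` through blocks. -/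
def spread (V : Finset ι) (H : Finset (Finset ι)) : ℕ → Finset ι → Finset ι
  | 0, S => S
  | r + 1, S => grow V H (spread V H r S)

theorem spread_zero (S : Finset ι) : spread V H 0 S = S := rfl

theorem spread_succ (r : ℕ) (S : Finset ι) :
    spread V H (r + 1) S = grow V H (spread V H r S) := rfl

theorem spread_le_succ (r : ℕ) (S : Finset ι) : spread V H r S ⊆ spread V H (r + 1) S :=
  subset_union_left

theorem spread_mono_radius {r r' : ℕ} (h : r ≤ r') (S : Finset ι) :
    spread V H r S ⊆ spread V H r' S :=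
  monotone_nat_of_le_succ (fun m => spread_le_succ (V := V) (H := H) m S) h

theorem subset_spread (r : ℕ) (S : Finset ι) : S ⊆ spread V H r S :=
  spread_mono_radius (Nat.zero_le r) S

theorem spread_mono {S S' : Finset ι} (h : S ⊆ S') : ∀ r, spread V H r S ⊆ spread V H r S'
  | 0 => h
  | r + 1 => by
      intro x hx
      simp only [spread_succ, grow, mem_union, mem_filter] at hx ⊢
      exact hx.imp (fun hx => spread_mono h r hx) fun ⟨hV, k, hk, hxk, hd⟩ =>
        ⟨hV, k, hk, hxk, fun hd' => hd (hd'.mono_right (spread_mono h r))⟩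

theorem spread_add (a b : ℕ) (S : Finset ι) :
    spread V H b (spread V H a S) = spread V H (a + b) S := by
  induction b with
  | zero => rfl
  | succ b ih => rw [spread_succ, ih]; rfl

theorem spread_subset {S : Finset ι} (h : S ⊆ V) : ∀ r, spread V H r S ⊆ V
  | 0 => h
  | r + 1 => union_subset (spread_subset h r) (filter_subset _ _)

/-- Blocks step from one radius to the next. -/
theorem mem_spread_succ (hH : Lin V H) {r : ℕ} {S k : Finset ι} {x f : ι} (hk : k ∈ H)
    (hx : x ∈ k) (hf : f ∈ k) (hfS : f ∈ spread V H r S) : x ∈ spread V H (r + 1) S :=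
  mem_union_right _
    (mem_filter.2 ⟨hH.sub k hk hx, k, hk, hx, fun hd => disjoint_left.1 hd hf hfS⟩)

/-- The distance is symmetric. -/
theorem exists_mem_spread_singleton (hH : Lin V H) {S : Finset ι} :
    ∀ {r : ℕ} {e : ι}, e ∈ spread V H r S → ∃ x ∈ S, x ∈ spread V H r {e}
  | 0, e, h => ⟨e, h, mem_singleton_self e⟩
  | r + 1, e, h => by
      simp only [spread_succ, grow, mem_union, mem_filter] at h
      rcases h with h | ⟨-, k, hk, hek, hd⟩
      · obtain ⟨x, hx, hxe⟩ := exists_mem_spread_singleton hH h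
        exact ⟨x, hx, spread_le_succ r _ hxe⟩
      · obtain ⟨f, hfk, hf⟩ := not_disjoint_iff.1 hd
        obtain ⟨x, hx, hxf⟩ := exists_mem_spread_singleton hH hf
        refine ⟨x, hx, ?_⟩
        rw [show r + 1 = 1 + r from add_comm _ _, ← spread_add]
        exact spread_mono (singleton_subset_iff.2
          (mem_spread_succ (r := 0) (S := {e}) hH hk hfk hek (mem_singleton_self e))) r hxf

theorem mem_spread_symm (hH : Lin V H) {r : ℕ} {x e : ι} (h : e ∈ spread V H r {x}) :
    x ∈ spread V H r {e} := by
  obtain ⟨x', hx', hx''⟩ := exists_mem_spread_singleton hH h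
  rwa [mem_singleton.1 hx'] at hx''

/-- One step multiplies the size by at most `2 deg + 1`. -/
theorem card_grow_le (hH : Lin V H) (T : Finset ι) :
    ((grow V H T).card : ℝ) ≤ (T.card : ℝ) + 2 * ∑ e ∈ T, dg H e := by
  have hsub : grow V H T ⊆ T ∪ T.biUnion fun e => (blocksAt H e).biUnion fun k => k.erase e := by
    intro x hx
    simp only [grow, mem_union, mem_filter] at hx
    rcases hx with hx | ⟨-, k, hk, hxk, hd⟩
    · exact mem_union_left _ hx
    obtain ⟨f, hfk, hf⟩ := not_disjoint_iff.1 hd
    by_cases hxf : x = f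
    · exact mem_union_left _ (hxf ▸ hf)
    · exact mem_union_right _ (mem_biUnion.2 ⟨f, hf,
        mem_biUnion.2 ⟨k, mem_filter.2 ⟨hk, hfk⟩, mem_erase.2 ⟨hxf, hxk⟩⟩⟩)
  have h1 : (grow V H T).card ≤ T.card + ∑ e ∈ T, 2 * (blocksAt H e).card := by
    refine (card_le_card hsub).trans ((card_union_le _ _).trans (Nat.add_le_add_left ?_ _))
    refine card_biUnion_le.trans (sum_le_sum fun e _ => card_biUnion_le.trans ?_)
    rw [mul_comm, ← smul_eq_mul, ← sum_const]
    refine sum_le_sum fun k hk => ?_
    obtain ⟨hk, hek⟩ := mem_filter.1 hk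
    rw [card_erase_of_mem hek, hH.card3 k hk]
  rw [mul_sum]
  simp only [dg]
  exact_mod_cast h1

/-- One step of the spread against a degree threshold. -/
theorem card_spread_succ_le (hH : Lin V H) {K : ℝ} (hK : 0 ≤ K) (r : ℕ) (S : Finset ι) :
    ((spread V H (r + 1) S).card : ℝ) ≤
      (2 * K + 1) * (spread V H r S).card + 2 * ∑ e ∈ V, if K < dg H e then dg H e else 0 := by
  refine (card_grow_le hH _).trans ?_
  set T := spread V H r S
  have h0 : ∀ e ∈ V, (0 : ℝ) ≤ if K < dg H e then dg H e else 0 := fun e _ => by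
    split <;> simp [dg]
  have h1 : ∀ e ∈ T, dg H e ≤ K + if e ∈ V then (if K < dg H e then dg H e else 0) else 0 := by
    intro e _
    by_cases he : e ∈ V
    · rw [if_pos he]; split <;> linarith
    · rw [if_neg he, dg, blocksAt, filter_eq_empty_iff.2 fun k hk hek => he (hH.sub k hk hek)]
      simp [hK]
  have h2 := sum_le_sum h1
  rw [sum_add_distrib, sum_const, nsmul_eq_mul, ← sum_filter] at h2
  have h3 := sum_le_sum_of_subset_of_nonneg (s := T.filter (· ∈ V)) (t := V)
    (fun e he => (mem_filter.1 he).2) (fun e he _ => h0 e he)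
  linarith

/-- The spread against a degree threshold. -/
theorem card_spread_le (hH : Lin V H) {K : ℝ} (hK : 0 ≤ K) (S : Finset ι) :
    ∀ r : ℕ, ((spread V H r S).card : ℝ) ≤ (2 * K + 1) ^ r *
      ((S.card : ℝ) + 2 * r * ∑ e ∈ V, if K < dg H e then dg H e else 0)
  | 0 => by simp [spread]
  | r + 1 => by
      have h := card_spread_succ_le hH hK r S
      have ih := mul_le_mul_of_nonneg_left (card_spread_le hH hK S r)
        (show (0 : ℝ) ≤ 2 * K + 1 by linarith)
      have h0 : (0 : ℝ) ≤ ∑ e ∈ V, if K < dg H e then dg H e else 0 :=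
        sum_nonneg fun e _ => by split <;> simp [dg]
      have h1 : (1 : ℝ) ≤ (2 * K + 1) ^ (r + 1) := one_le_pow₀ (by linarith)
      have h2 := mul_le_mul_of_nonneg_right h1 (mul_nonneg zero_le_two h0)
      push_cast
      rw [pow_succ'] at h2 ⊢
      linarith

/-- A point away from the high degrees has a small neighbourhood. -/
theorem card_spread_singleton_le (hH : Lin V H) {M : ℝ} (hM : 0 ≤ M) {x : ι} :
    ∀ {r : ℕ}, (∀ e ∈ spread V H r {x}, dg H e ≤ M) →
      ((spread V H r {x}).card : ℝ) ≤ (2 * M + 1) ^ r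
  | 0, _ => by simp [spread]
  | r + 1, h => by
      have ih := card_spread_singleton_le hH hM (r := r) fun e he => h e (spread_le_succ r _ he)
      have hs := sum_le_sum fun e (he : e ∈ spread V H r {x}) => h e (spread_le_succ r _ he)
      rw [sum_const, nsmul_eq_mul] at hs
      have hg : ((spread V H (r + 1) {x}).card : ℝ) ≤ _ := card_grow_le hH (spread V H r {x})
      have := mul_le_mul_of_nonneg_left ih (show (0 : ℝ) ≤ 2 * M + 1 by linarith)
      rw [pow_succ']
      linarith

/-- The blocks of a ball lie in the spread of its centre. -/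
theorem ball_subset_spread (hH : Lin V H) {i : ι} :
    ∀ {r : ℕ} {a : Finset ι}, a ∈ ball H i r → a ⊆ spread V H (r + 1) {i}
  | 0, a, ha => fun x hx => by
      obtain ⟨ha, hia⟩ := mem_filter.1 ha
      exact mem_spread_succ hH ha hx hia (mem_singleton_self i)
  | r + 1, a, ha => by
      rw [ball] at ha
      rcases mem_union.1 ha with ha | ha
      · exact (ball_subset_spread hH ha).trans (spread_le_succ _ _)
      · obtain ⟨ha, k, hk, hd⟩ := mem_filter.1 ha
        obtain ⟨f, hfa, hfk⟩ := not_disjoint_iff.1 hd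
        exact fun x hx => mem_spread_succ hH ha hx hfa (ball_subset_spread hH hk hfk)

private theorem ball_subset_blocks {i : ι} : ∀ r, ball H i r ⊆ H
  | 0 => filter_subset _ _
  | r + 1 => union_subset (ball_subset_blocks r) (filter_subset _ _)

/-- The pairs with meeting balls, against the neighbourhood of the high degrees. -/
theorem card_closePairs_le (hH : Lin V H) (L : ℕ) {M : ℝ} (hM : 0 ≤ M) :
    ((closePairs V H L).card : ℝ) ≤ (V.card : ℝ) * (2 * M + 1) ^ (2 * L + 3) +
      (V.card : ℝ) * (spread V H (2 * L + 3) (V.filter fun e => M < dg H e)).card := by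
  classical
  set R := 2 * L + 3 with hR
  set Bad := V.filter fun e => M < dg H e
  set W := spread V H R Bad with hW
  clear_value R
  have hsub : closePairs V H L ⊆
      (V ∩ W) ×ˢ V ∪ (V \ W).biUnion fun x => {x} ×ˢ spread V H R {x} := by
    intro p hp
    obtain ⟨hpV, hmeet⟩ := mem_filter.1 hp
    obtain ⟨hxV, hyV⟩ := mem_product.1 hpV
    by_cases hxW : p.1 ∈ W
    · exact mem_union_left _ (mem_product.2 ⟨mem_inter.2 ⟨hxV, hxW⟩, hyV⟩)
    refine mem_union_right _ (mem_biUnion.2 ⟨p.1, mem_sdiff.2 ⟨hxV, hxW⟩,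
      mem_product.2 ⟨mem_singleton_self _, ?_⟩⟩)
    obtain ⟨a, hax, hay⟩ := not_disjoint_iff.1 hmeet
    obtain ⟨f, hf⟩ := card_pos.1 (show 0 < a.card by
      rw [hH.card3 a (ball_subset_blocks L hax)]; norm_num)
    have h1 := ball_subset_spread hH hax hf
    have h2 := mem_spread_symm hH (ball_subset_spread hH hay hf)
    have h3 : p.2 ∈ spread V H (L + 1 + (L + 1)) {p.1} := by
      rw [← spread_add]
      exact spread_mono (singleton_subset_iff.2 h1) _ h2
    exact spread_mono_radius (by omega) _ h3
  have hsmall : ∀ x ∈ V \ W, ((({x} : Finset ι) ×ˢ spread V H R {x}).card : ℝ) ≤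
      (2 * M + 1) ^ R := by
    intro x hx
    obtain ⟨hxV, hxW⟩ := mem_sdiff.1 hx
    rw [card_product, card_singleton, one_mul]
    refine card_spread_singleton_le hH hM fun e he => ?_
    by_contra hlt
    have heV : e ∈ V := spread_subset (singleton_subset_iff.2 hxV) R he
    have heB : ({e} : Finset ι) ⊆ Bad :=
      singleton_subset_iff.2 (mem_filter.2 ⟨heV, lt_of_not_ge hlt⟩)
    exact hxW (spread_mono heB R (mem_spread_symm hH he))
  have hp : (0 : ℝ) ≤ (2 * M + 1) ^ R := by positivity
  clear_value W
  calc ((closePairs V H L).card : ℝ)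
      ≤ (((V ∩ W) ×ˢ V).card : ℝ)
          + ∑ x ∈ V \ W, ((({x} : Finset ι) ×ˢ spread V H R {x}).card : ℝ) := by
        exact_mod_cast (card_le_card hsub).trans
          ((card_union_le _ _).trans (Nat.add_le_add_left card_biUnion_le _))
    _ ≤ (W.card : ℝ) * V.card + ∑ _x ∈ V, (2 * M + 1) ^ R := by
        refine add_le_add ?_ ((sum_le_sum hsmall).trans
          (sum_le_sum_of_subset_of_nonneg sdiff_subset fun _ _ _ => hp))
        rw [card_product, Nat.cast_mul]
        gcongr
        exact inter_subset_right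
    _ = _ := by rw [sum_const, nsmul_eq_mul]; ring

end Vale.Agent.P046.Limit
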