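import Vale.Agent.P046.Limit.Stop
import Vale.Agent.P046.Lower.Decay

/-!
P046, the limit constant: the degrees at the scale `D` have a uniform tail.

Between the scales `4 D` and `D` the potential `∑ e, exp (deg e * expo Y)` is a supermartingale:
an edge of degree `d` dies with probability `d / Q` and `1 / Y` grows by `2 / Q`.
-/

open Finset Filter Topology

namespace Vale.Agent.P046.Limit

variable {α : Type*} [DecidableEq α] [Fintype α]

/-- The exponential degree potential. -/
noncomputable def tailPot (A : ℝ) (G : Finset (Finset α)) : ℝ :=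
  ∑ e ∈ G, Real.exp ((deg G e : ℝ) * A)

theorem tailPot_nonneg (A : ℝ) (G : Finset (Finset α)) : 0 ≤ tailPot A G :=
  sum_nonneg fun _ _ => (Real.exp_pos _).le

theorem tailPot_step {G : Finset (Finset α)} (hne : (tri G).Nonempty) {A A' : ℝ}
    (h0 : 0 ≤ A') (h : A' ≤ A + 1 / Sharp.triNum G) :
    ∑ t ∈ tri G, tailPot A' (G \ sides t) ≤ Sharp.triNum G * tailPot A G := by
  have hQ : 0 < Sharp.triNum G := by rw [Sharp.triNum]; exact_mod_cast hne.card_pos
  set g : Finset α → ℝ := fun e => Real.exp ((deg G e : ℝ) * (A + 1 / Sharp.triNum G)) with hg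
  have h1 : ∀ t ∈ tri G, tailPot A' (G \ sides t) ≤
      ∑ e ∈ G, if e ∉ sides t then g e else 0 := by
    intro t _
    rw [tailPot, ← sum_filter, ← sdiff_eq_filter]
    refine sum_le_sum fun e _ => Real.exp_le_exp.2 ?_
    have hd : (deg (G \ sides t) e : ℝ) ≤ deg G e := by
      exact_mod_cast Lower.deg_mono (Lower.tri_mono sdiff_subset) e
    calc (deg (G \ sides t) e : ℝ) * A' ≤ (deg G e : ℝ) * A' := mul_le_mul_of_nonneg_right hd h0
      _ ≤ _ := mul_le_mul_of_nonneg_left h (Nat.cast_nonneg _)
  refine (sum_le_sum h1).trans ?_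
  rw [sum_comm, tailPot, mul_sum]
  refine sum_le_sum fun e _ => ?_
  rw [← sum_filter, sum_const, nsmul_eq_mul, Sharp.card_avoid, hg]
  have hle : (deg G e : ℝ) ≤ Sharp.triNum G := by
    rw [Sharp.triNum, deg]; exact_mod_cast card_filter_le _ _
  set d : ℝ := (deg G e : ℝ) with hd
  set Q : ℝ := Sharp.triNum G with hQe
  have k : 1 - d / Q ≤ Real.exp (-(d / Q)) := by linarith [Real.add_one_le_exp (-(d / Q))]
  have e1 : Q - d = Q * (1 - d / Q) := by field_simp
  simp only
  rw [mul_add, Real.exp_add, e1, mul_one_div, mul_assoc]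
  refine mul_le_mul_of_nonneg_left ?_ hQ.le
  calc (1 - d / Q) * (Real.exp (d * A) * Real.exp (d / Q))
      ≤ Real.exp (-(d / Q)) * (Real.exp (d * A) * Real.exp (d / Q)) := by gcongr
    _ = Real.exp (d * A) := by
        rw [mul_comm (Real.exp (d * A)), ← mul_assoc, ← Real.exp_add, neg_add_cancel,
          Real.exp_zero, one_mul]

/-- The exponent of the potential: `(1/Y - 2/D')⁺ / 2`. -/
noncomputable def expo (D' Y : ℝ) : ℝ := max 0 (1 / Y - 2 / D') / 2

theorem expo_nonneg (D' Y : ℝ) : 0 ≤ expo D' Y :=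
  div_nonneg (le_max_left _ _) (by norm_num)

theorem expo_next {G : Finset (Finset α)} (hne : (tri G).Nonempty) {D' Y : ℝ} (hY : 0 < Y) :
    expo D' (Sharp.nextY G Y) ≤ expo D' Y + 1 / Sharp.triNum G := by
  have hQ : 0 < Sharp.triNum G := by rw [Sharp.triNum]; exact_mod_cast hne.card_pos
  have e : 1 / Sharp.nextY G Y = 1 / Y + 2 / Sharp.triNum G := by
    rw [Sharp.nextY, Sharp.drop]; field_simp
  have h2 : (0 : ℝ) ≤ 2 / Sharp.triNum G := by positivity
  rw [expo, expo, e, show max 0 (1 / Y - 2 / D') / 2 + 1 / Sharp.triNum G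
    = (max 0 (1 / Y - 2 / D') + 2 / Sharp.triNum G) / 2 by ring]
  refine div_le_div_of_nonneg_right (max_le ?_ ?_) (by norm_num)
  · linarith [le_max_left (0 : ℝ) (1 / Y - 2 / D')]
  · linarith [le_max_right (0 : ℝ) (1 / Y - 2 / D')]

theorem Go.of_le {D D' : ℝ} (h : D ≤ D') {G : Finset (Finset α)} {Y : ℝ} (hg : Go D' G Y) :
    Go D G Y :=
  ⟨lt_of_le_of_lt h hg.1, hg.2⟩

/-- Stopping at `D'` first and then at `D`. -/
theorem stopE_nest {D D' : ℝ} (h : D ≤ D')
    (F : Finset (Finset α) → Finset (Finset α) → ℝ → (Finset α → ℝ) → ℝ) :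
    ∀ G B Y (w : Finset α → ℝ),
      stopE D F G B Y w = stopE D' (fun G B Y w => stopE D F G B Y w) G B Y w := by
  intro G
  induction hc : G.card using Nat.strong_induction_on generalizing G with
  | _ m ih =>
    intro B Y w
    by_cases hg : Go D' G Y
    · rw [stopE_go hg, stopE_go (hg.of_le h),
        sum_congr rfl fun t ht => ih _ (hc ▸ card_removed_lt ht) _ rfl _ _ _]
    · rw [stopE_stop (D := D') hg]

theorem seed_nonneg {ι : Type*} [DecidableEq ι] (V : Finset ι) (H : Finset (Finset ι)) {D : ℝ}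
    (hD : 0 < D) (w : ι → ℝ) : 0 ≤ seed V H D w := by
  have hc := Sharp.cap_pos hD
  have h1 : 0 ≤ psi0 V H D w := sum_nonneg fun _ _ => phi_nonneg _
  have h2 : 0 ≤ tq0 V H D w := sum_nonneg fun _ _ => phi_nonneg _
  have h3 : 0 ≤ ∑ i ∈ V, w i ^ 2 := sum_nonneg fun _ _ => sq_nonneg _
  unfold seed
  positivity

theorem dg_blocks_le (G : Finset (Finset α)) (e : Finset α) : dg (blocks G) e ≤ (deg G e : ℝ) := by
  rw [dg, Nat.cast_le, blocksAt, blocks, filter_image, deg]
  exact card_image_le

/-- Step A2, first part, from step A. -/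
theorem stopTail_of (hA : StopMainStmt) : StopTailStmt := by
  obtain ⟨D₁, hD₁⟩ := hA 1 one_pos
  have hcap : ∀ᶠ x : ℝ in atTop, Sharp.cap x ≤ 1 / 1000 := by
    have := tendsto_rpow_neg_atTop (show (0 : ℝ) < 1 / 50 by norm_num)
    exact (this.eventually (ge_mem_nhds (show (0 : ℝ) < 1 / 1000 by norm_num))).mono
      fun x hx => by simpa [Sharp.cap] using hx
  obtain ⟨D₂, hD₂⟩ := eventually_atTop.1 hcap
  refine ⟨max (max D₁ D₂) (10 ^ 9), fun D hD δ hδ => ?_⟩
  have hD9 : (10 : ℝ) ^ 9 ≤ D := le_trans (le_max_right _ _) hD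
  have hDpos : (0 : ℝ) < D := lt_of_lt_of_le (by norm_num) hD9
  have hcD : Sharp.cap D ≤ 1 / 1000 :=
    hD₂ D (le_trans (le_max_right _ _) (le_trans (le_max_left _ _) hD))
  have hD1' : D₁ ≤ D := le_trans (le_max_left _ _) (le_trans (le_max_left _ _) hD)
  set D' : ℝ := 4 * D with hD'
  have hD'pos : 0 < D' := by positivity
  have hcD' : Sharp.cap D' ≤ 1 / 1000 :=
    (Sharp.cap_anti hDpos (by linarith)).trans hcD
  set r : ℝ := Real.sqrt (2 * D') with hr
  have hr1 : 1 ≤ r := Real.one_le_sqrt.2 (by linarith)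
  set ε : ℝ := δ / (2 * r) with hε
  have hεpos : 0 < ε := by positivity
  refine ⟨384 * D ^ 3 / ε, by positivity, ?_⟩
  filter_upwards [hD₁ D' (by linarith), eventually_ge_atTop (⌈D'⌉₊ + 10)] with n hn hbig
  have hn' : D' + 10 ≤ (n : ℝ) := by
    have h1 : ((⌈D'⌉₊ + 10 : ℕ) : ℝ) ≤ n := by exact_mod_cast hbig
    push_cast at h1
    linarith [Nat.le_ceil D']
  have hY0 : (0 : ℝ) < (n : ℝ) - 2 := by linarith
  have hstart : Inv n D' (complete n) ∅ ((n : ℝ) - 2) (fun _ => 0) := by
    refine ⟨⟨fun e he _ => ?_, fun e => ?_⟩, subset_rfl, by linarith, by linarith⟩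
    · have h2 : 2 ≤ n := by exact_mod_cast (show (2 : ℝ) ≤ n by linarith)
      rw [zeta, deg_complete he, Nat.cast_sub h2, Nat.cast_ofNat, div_self hY0.ne',
        sub_self, abs_zero]
      norm_num
    · rw [abs_zero]; exact mul_nonneg (by norm_num) (Sharp.cap_pos hY0).le
  set N : ℝ := (n : ℝ) * Real.sqrt n with hN
  have hN0 : 0 ≤ N := by positivity
  set F1 : Finset (Finset (Fin n)) → Finset (Finset (Fin n)) → ℝ → (Finset (Fin n) → ℝ) → ℝ :=
    fun G B Y w => ε * r * errTop n D' G B Y w + 0 * errTop n D' G B Y w + ε * r * N with hF1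
  have hnext : ∀ X : ℝ, 10 ^ 9 ≤ X → Sharp.cap X ≤ 1 / 1000 →
      ∀ (G B : Finset (Finset (Fin n))) Y w, Inv n X G B Y w → Go X G Y → ∀ t ∈ tri G,
      Inv n X (G \ sides t) (Sharp.nextB G B Y t) (Sharp.nextY G Y) (Sharp.nextW G B Y w t) :=
    fun X hX hc G B Y w h hg t ht => Inv.next hX hc h hg ht
  -- the second stage
  have key : ∀ G B Y w, Inv n D' G B Y w → ¬Go D' G Y →
      stopE D (degTail (384 * D ^ 3 / ε) D) G B Y w ≤ F1 G B Y w := by
    intro G B Y w hI hng
    have hYlow : D' / 2 ≤ Y := hI.2.2.1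
    have hYpos : 0 < Y := by linarith
    by_cases hY : Y ≤ D'
    · have h1 : stopE D (degTail (384 * D ^ 3 / ε) D) G B Y w
          ≤ ε * tailPot (expo D' Y) G := by
        refine stopE_le_of_step (I := Inv n D)
          (S := fun G _ Y _ => ε * tailPot (expo D' Y) G) (hnext D hD9 hcD) ?_ ?_ G B Y w
          ⟨hI.1, hI.2.1, by linarith, hI.2.2.2⟩
        · intro G B Y w _ hg
          rw [← mul_sum, mul_left_comm]
          exact mul_le_mul_of_nonneg_left (tailPot_step hg.2.2 (expo_nonneg _ _)
            (expo_next hg.2.2 (hDpos.trans hg.1))) hεpos.le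
        · intro G B Y w hI _
          simp only [degTail]
          split_ifs with hYD
          · rw [tailPot, mul_sum]
            refine sum_le_sum fun e _ => ?_
            split_ifs with hM
            · have hd := dg_blocks_le G e
              have h0 : 0 ≤ dg (blocks G) e := Nat.cast_nonneg _
              set d : ℝ := (deg G e : ℝ) with hdd
              have hdM : 384 * D ^ 3 / ε ≤ d := (hM.le).trans hd
              have hd0 : 0 ≤ d := Nat.cast_nonneg _
              have hA : 1 / (4 * D) ≤ expo D' Y := by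
                have hYp : 0 < Y := by linarith [hI.2.2.1]
                have : 1 / D ≤ 1 / Y := one_div_le_one_div_of_le hYp hYD
                have h' : 1 / D - 2 / D' = 2 * (1 / (4 * D)) := by rw [hD']; field_simp; ring
                rw [expo, le_div_iff₀ (by norm_num : (0 : ℝ) < 2)]
                refine le_trans ?_ (le_max_right _ _)
                linarith
              have hx : 0 ≤ d * (1 / (4 * D)) := by positivity
              have h3 := Real.pow_div_factorial_le_exp (d * (1 / (4 * D))) hx 3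
              have h4 : Real.exp (d * (1 / (4 * D))) ≤ Real.exp (d * expo D' Y) :=
                Real.exp_le_exp.2 (mul_le_mul_of_nonneg_left hA hd0)
              calc dg (blocks G) e ^ 2 ≤ d ^ 2 := pow_le_pow_left₀ h0 hd 2
                _ ≤ ε * ((d * (1 / (4 * D))) ^ 3 / (Nat.factorial 3 : ℝ)) := by
                    rw [div_le_iff₀ hεpos] at hdM
                    have e3 : (Nat.factorial 3 : ℝ) = 6 := by norm_num [Nat.factorial]
                    rw [e3, show ε * ((d * (1 / (4 * D))) ^ 3 / 6)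
                      = d ^ 2 * (d * ε / (384 * D ^ 3)) by field_simp; ring]
                    refine le_mul_of_one_le_right (sq_nonneg _) ?_
                    rw [le_div_iff₀ (by positivity), one_mul]
                    exact hdM
                _ ≤ _ := mul_le_mul_of_nonneg_left (h3.trans h4) hεpos.le
            · exact mul_nonneg hεpos.le (Real.exp_pos _).le
          · exact mul_nonneg hεpos.le (tailPot_nonneg _ _)
      have h2 : tailPot (expo D' Y) G = (G.card : ℝ) := by
        have : expo D' Y = 0 := by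
          rw [expo, max_eq_left, zero_div]
          have := one_div_le_one_div_of_le (by linarith) hYlow
          rw [one_div_div] at this
          linarith
        simp [tailPot, this]
      have h3 : (G.card : ℝ) ≤ r * (errTop n D' G B Y w + N) := by
        have hs0 : 0 ≤ seed G (blocks G) Y w := seed_nonneg _ _ hYpos w
        have hq : 0 < Real.sqrt (2 * Y) := Real.sqrt_pos.2 (by linarith)
        have hqr : Real.sqrt (2 * Y) ≤ r := Real.sqrt_le_sqrt (by linarith)
        have hN2 : N / (2 * Real.sqrt 2) ≤ N := by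
          refine div_le_self hN0 ?_
          have := Real.one_le_sqrt.2 (show (1 : ℝ) ≤ 2 by norm_num)
          linarith
        have ha := le_abs_self ((G.card : ℝ) / Real.sqrt (2 * Y) - N / (2 * Real.sqrt 2))
        have hab := abs_nonneg ((G.card : ℝ) / Real.sqrt (2 * Y) - N / (2 * Real.sqrt 2))
        have e : (G.card : ℝ) / Real.sqrt (2 * Y) ≤ errTop n D' G B Y w + N := by
          rw [errTop, if_pos hY, ← hN]
          linarith
        rw [div_le_iff₀ hq] at e
        refine e.trans ((mul_comm _ _).trans_le (mul_le_mul_of_nonneg_right hqr ?_))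
        rw [errTop, if_pos hY, ← hN]
        linarith
      simp only [hF1, zero_mul, add_zero]
      calc stopE D (degTail (384 * D ^ 3 / ε) D) G B Y w ≤ ε * tailPot (expo D' Y) G := h1
        _ ≤ ε * (r * (errTop n D' G B Y w + N)) := by rw [h2]; gcongr
        _ = _ := by ring
    · have hng' : ¬Go D G Y := fun hg => hng ⟨not_le.1 hY, hg.2⟩
      rw [stopE_stop hng', degTail, if_neg (by linarith [not_le.1 hY])]
      have : 0 ≤ errTop n D' G B Y w := by
        rw [errTop, if_neg hY]; positivity
      simp only [hF1, zero_mul, add_zero]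
      positivity
  have main := stopE_mono (hnext D' (by linarith) hcD') key _ _ _ _ hstart
  rw [← stopE_nest (show D ≤ D' by linarith)] at main
  refine main.trans ?_
  rw [hF1, stopE_affine, zero_mul, add_zero]
  unfold fromTop at hn
  calc ε * r * stopE D' (errTop n D') (complete n) ∅ ((n : ℝ) - 2) (fun _ => 0) + ε * r * N
      ≤ ε * r * (1 * N) + ε * r * N := by gcongr
    _ = δ * N := by rw [hε]; field_simp; ring

end Vale.Agent.P046.Limit
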