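import Vale.Agent.P046.Limit.Core
import Vale.Agent.P046.Limit.Glue
import Vale.Agent.P046.Limit.Spread
import Vale.Agent.P046.Limit.Tail

/-!
P046, the limit constant: assembly.  At the scale `D` the calculus, the closure and the
concentration bound the expected distance of the leave from the prediction by the errors at the
stopped state, whose expectations are small.
-/

open Finset Filter Topology

namespace Vale.Agent.P046.Limit

section Process

variable {ι : Type*} [DecidableEq ι] [Fintype ι]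

theorem mean_card (V : Finset ι) (H : Finset (Finset ι)) {t : ℝ} (ht : 0 ≤ t) :
    mean V H t (fun A => (A.card : ℝ)) = ∑ i ∈ V, qf V H t i := by
  have hst : ∀ k ∈ H, ∀ A : Finset ι, A ⊆ V → stepA k A ⊆ V := fun k _ A hA => by
    rw [stepA]; split_ifs
    · exact sdiff_subset.trans hA
    · exact hA
  have he : ∀ A : Finset ι, A ⊆ V → (A.card : ℝ) = ∑ i ∈ V, if i ∈ A then (1 : ℝ) else 0 :=
    fun A hA => by
      rw [sum_boole, filter_mem_eq_inter, inter_eq_right.2 hA]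
  refine le_antisymm ?_ ?_
  · refine (flow_le_of_inv (S := fun A => A ⊆ V) hst ht (fun A hA => (he A hA).le)
      subset_rfl).trans_eq ?_
    exact mean_sum V t fun i A => if i ∈ A then (1 : ℝ) else 0
  · refine Eq.trans_le ?_ (flow_le_of_inv (S := fun A => A ⊆ V) hst ht
      (F := fun A => ∑ i ∈ V, if i ∈ A then (1 : ℝ) else 0) (fun A hA => (he A hA).ge) subset_rfl)
    exact (mean_sum V t fun i A => if i ∈ A then (1 : ℝ) else 0).symm

theorem mean_add_const (V : Finset ι) (H : Finset (Finset ι)) (t : ℝ) (F : Finset ι → ℝ) (a : ℝ) :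
    mean V H t (fun A => F A + a) = mean V H t F + a := by
  show flow H stepA t (F + fun _ => a) V = _
  rw [flow_add, flow_const]
  rfl

/-- The distance of the number of alive points from `c`, from the concentration. -/
theorem mean_dist_le (V : Finset ι) (H : Finset (Finset ι)) {t : ℝ} (ht : 0 ≤ t) (c S : ℝ) :
    mean V H t (fun A => |(A.card : ℝ) - c|) ≤
      mean V H t (fun A => |(A.card : ℝ) - S|) + |S - c| := by
  rw [← mean_add_const]
  exact flow_mono ht (fun A => abs_sub_le _ _ _) V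

/-- The distance of the number of alive points from `c`, trivially. -/
theorem mean_dist_le' (V : Finset ι) (H : Finset (Finset ι)) {t : ℝ} (ht : 0 ≤ t) {c : ℝ}
    (hc : 0 ≤ c) :
    mean V H t (fun A => |(A.card : ℝ) - c|) ≤ (∑ i ∈ V, qf V H t i) + c := by
  rw [← mean_card V H ht, ← mean_add_const]
  refine flow_mono ht (fun A => abs_le.2 ⟨?_, ?_⟩) V <;>
    linarith [(Nat.cast_nonneg A.card : (0 : ℝ) ≤ A.card)]

end Process

section Leave

variable {α : Type*} [DecidableEq α] [Fintype α]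

theorem leaveExp_le {f : ℕ → ℝ} {b : ℝ} : ∀ G : Finset (Finset α),
    (∀ m ≤ G.card, f m ≤ b) → leaveExp f G ≤ b := by
  intro G
  induction h : G.card using Nat.strong_induction_on generalizing G with
  | _ m ih =>
    intro hf
    subst h
    rcases (tri G).eq_empty_or_nonempty with h0 | h0
    · rw [leaveExp_stop _ h0]; exact hf _ le_rfl
    · refine le_of_mul_le_mul_left ?_ (Nat.cast_pos.2 h0.card_pos : (0 : ℝ) < (tri G).card)
      rw [leaveExp_mul _ h0, ← nsmul_eq_mul, ← sum_const]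
      exact sum_le_sum fun t ht => ih _ (card_removed_lt ht) _ rfl fun k hk =>
        hf k (hk.trans (card_removed_lt ht).le)

theorem leaveExp_mono {f g : ℕ → ℝ} (h : ∀ m, f m ≤ g m) :
    ∀ G : Finset (Finset α), leaveExp f G ≤ leaveExp g G := by
  intro G
  induction hG : G.card using Nat.strong_induction_on generalizing G with
  | _ m ih =>
    subst hG
    rcases (tri G).eq_empty_or_nonempty with h0 | h0
    · rw [leaveExp_stop _ h0, leaveExp_stop _ h0]; exact h _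
    · refine le_of_mul_le_mul_left ?_ (Nat.cast_pos.2 h0.card_pos : (0 : ℝ) < (tri G).card)
      rw [leaveExp_mul _ h0, leaveExp_mul _ h0]
      exact sum_le_sum fun t ht => ih _ (card_removed_lt ht) _ rfl

theorem leaveExp_affine (f : ℕ → ℝ) (a b : ℝ) : ∀ G : Finset (Finset α),
    leaveExp (fun m => a * f m + b) G = a * leaveExp f G + b := by
  intro G
  induction hG : G.card using Nat.strong_induction_on generalizing G with
  | _ m ih =>
    subst hG
    rcases (tri G).eq_empty_or_nonempty with h0 | h0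
    · rw [leaveExp_stop _ h0, leaveExp_stop _ h0]
    · refine mul_left_cancel₀ (Nat.cast_ne_zero.2 h0.card_pos.ne' : ((tri G).card : ℝ) ≠ 0) ?_
      rw [leaveExp_mul _ h0, sum_congr rfl fun t ht => ih _ (card_removed_lt ht) _ rfl,
        sum_add_distrib, ← mul_sum, ← leaveExp_mul f h0, sum_const, nsmul_eq_mul]
      ring

theorem leaveExp_cast : ∀ G : Finset (Finset α), leaveExp (fun m : ℕ => (m : ℝ)) G = leave G := by
  intro G
  induction hG : G.card using Nat.strong_induction_on generalizing G with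
  | _ m ih =>
    subst hG
    rcases (tri G).eq_empty_or_nonempty with h0 | h0
    · rw [leaveExp_stop _ h0, leave, if_neg (by simp [h0])]
    · conv_rhs => rw [leave, if_pos h0, sum_attach (tri G) fun t => leave (G \ sides t)]
      rw [eq_div_iff (Nat.cast_ne_zero.2 h0.card_pos.ne'), mul_comm, leaveExp_mul _ h0]
      exact sum_congr rfl fun t ht => ih _ (card_removed_lt ht) _ rfl

end Leave

/-! ### The stopped expectation -/

theorem fromTop_affine (n : ℕ) (D a b c : ℝ)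
    (F F' : Finset (Finset (Fin n)) → Finset (Finset (Fin n)) → ℝ → (Finset (Fin n) → ℝ) → ℝ) :
    fromTop n D (fun G B Y w => a * F G B Y w + b * F' G B Y w + c)
      = a * fromTop n D F + b * fromTop n D F' + c :=
  stopE_affine a b c _ _ _ _

theorem inv_start {n : ℕ} {D : ℝ} (h : D + 2 ≤ (n : ℝ)) (hD : 0 < D) :
    Inv n D (complete n) ∅ ((n : ℝ) - 2) (fun _ => 0) := by
  have hY : (0 : ℝ) < (n : ℝ) - 2 := by linarith
  refine ⟨⟨fun e he _ => ?_, fun e => ?_⟩, subset_rfl, by linarith, by linarith⟩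
  · have h2 : 2 ≤ n := by exact_mod_cast (show (2 : ℝ) ≤ n by linarith)
    rw [zeta, deg_complete he, Nat.cast_sub h2, Nat.cast_ofNat, div_self hY.ne', sub_self,
      abs_zero]
    norm_num
  · rw [abs_zero]; exact mul_nonneg (by norm_num) (Sharp.cap_pos hY).le

theorem fromTop_mono {n : ℕ} {D : ℝ} (hD : 10 ^ 9 ≤ D) (hc : Sharp.cap D ≤ 1 / 1000)
    (hn : D + 2 ≤ (n : ℝ))
    {F F' : Finset (Finset (Fin n)) → Finset (Finset (Fin n)) → ℝ → (Finset (Fin n) → ℝ) → ℝ}
    (h : ∀ G B Y w, Inv n D G B Y w → F G B Y w ≤ F' G B Y w) :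
    fromTop n D F ≤ fromTop n D F' :=
  stopE_mono (fun _ _ _ _ hI hg _ ht => Inv.next hD hc hI hg ht)
    (fun G B Y w hI _ => h G B Y w hI) _ _ _ _ (inv_start hn (by linarith))

/-- The number of points near the high degrees at the scale `D`. -/
noncomputable def nearHigh (r M : ℕ) {n : ℕ} (D : ℝ) (G _B : Finset (Finset (Fin n))) (Y : ℝ)
    (_w : Finset (Fin n) → ℝ) : ℝ :=
  if Y ≤ D then
    ((spread G (blocks G) r (G.filter fun e => (M : ℝ) < dg (blocks G) e)).card : ℝ)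
  else 0

theorem tail_nonneg {n : ℕ} (M D : ℝ) (G B : Finset (Finset (Fin n))) (Y : ℝ)
    (w : Finset (Fin n) → ℝ) : 0 ≤ degTail M D G B Y w := by
  rw [degTail]; split_ifs
  · exact sum_nonneg fun e _ => by split_ifs <;> positivity
  · exact le_rfl

theorem degTail_anti {n : ℕ} {M M' D : ℝ} (h : M ≤ M') (G B : Finset (Finset (Fin n))) (Y : ℝ)
    (w : Finset (Fin n) → ℝ) : degTail M' D G B Y w ≤ degTail M D G B Y w := by
  simp only [degTail]; split_ifs
  · refine sum_le_sum fun e _ => ?_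
    split_ifs with h1 h2
    · exact le_rfl
    · exact absurd (h.trans_lt h1) h2
    · exact sq_nonneg _
    · exact le_rfl
  · exact le_rfl

/-- A degree threshold of an integer with a small tail. -/
theorem exists_nat_tail {D : ℝ}
    (hT : ∀ δ : ℝ, 0 < δ → ∃ M : ℝ, 0 ≤ M ∧ ∀ᶠ n : ℕ in atTop,
      fromTop n D (degTail M D) ≤ δ * ((n : ℝ) * Real.sqrt n))
    (hD : 10 ^ 9 ≤ D) (hc : Sharp.cap D ≤ 1 / 1000) {δ : ℝ} (hδ : 0 < δ) :
    ∃ M : ℕ, 1 ≤ M ∧ ∀ᶠ n : ℕ in atTop,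
      fromTop n D (degTail (M : ℝ) D) ≤ δ * ((n : ℝ) * Real.sqrt n) := by
  obtain ⟨M, -, hM⟩ := hT δ hδ
  refine ⟨max ⌈M⌉₊ 1, le_max_right _ _, ?_⟩
  filter_upwards [hM, eventually_ge_atTop (⌈D⌉₊ + 2)] with n hn hbig
  have hn' : D + 2 ≤ (n : ℝ) := by
    have : ((⌈D⌉₊ + 2 : ℕ) : ℝ) ≤ n := by exact_mod_cast hbig
    push_cast at this
    linarith [Nat.le_ceil D]
  refine (fromTop_mono hD hc hn' fun G B Y w _ => degTail_anti ?_ G B Y w).trans hn
  exact (Nat.le_ceil M).trans (by exact_mod_cast le_max_left _ _)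

/-- The points near the high degrees are few. -/
theorem nearHigh_small {D : ℝ}
    (hT : ∀ δ : ℝ, 0 < δ → ∃ M : ℝ, 0 ≤ M ∧ ∀ᶠ n : ℕ in atTop,
      fromTop n D (degTail M D) ≤ δ * ((n : ℝ) * Real.sqrt n))
    (hD : 10 ^ 9 ≤ D) (hc : Sharp.cap D ≤ 1 / 1000) :
    ∀ (r : ℕ) (η : ℝ), 0 < η → ∃ M : ℕ, ∀ᶠ n : ℕ in atTop,
      fromTop n D (nearHigh r M D) ≤ η * ((n : ℝ) * Real.sqrt n) := by
  intro r
  induction r with
  | zero =>
    intro η hη
    obtain ⟨M, hM1, hM⟩ := exists_nat_tail hT hD hc hη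
    refine ⟨M, ?_⟩
    filter_upwards [hM, eventually_ge_atTop (⌈D⌉₊ + 2)] with n hn hbig
    have hn' : D + 2 ≤ (n : ℝ) := by
      have : ((⌈D⌉₊ + 2 : ℕ) : ℝ) ≤ n := by exact_mod_cast hbig
      push_cast at this
      linarith [Nat.le_ceil D]
    refine (fromTop_mono hD hc hn' fun G B Y w _ => ?_).trans hn
    simp only [nearHigh, degTail]
    split_ifs
    · rw [spread_zero, ← sum_filter, card_eq_sum_ones, Nat.cast_sum]
      refine sum_le_sum fun e he => ?_
      rw [Nat.cast_one]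
      have h1 : (1 : ℝ) ≤ M := by exact_mod_cast hM1
      have h2 := (mem_filter.1 he).2
      nlinarith
    · exact le_rfl
  | succ r ih =>
    intro η hη
    obtain ⟨K, hK1, hK⟩ := exists_nat_tail hT hD hc (show 0 < η / 4 by positivity)
    obtain ⟨M, hM⟩ := ih (η / (2 * (2 * (K : ℝ) + 1))) (by positivity)
    refine ⟨M, ?_⟩
    filter_upwards [hM, hK, eventually_ge_atTop (⌈D⌉₊ + 2)] with n hn hk hbig
    have hn' : D + 2 ≤ (n : ℝ) := by
      have : ((⌈D⌉₊ + 2 : ℕ) : ℝ) ≤ n := by exact_mod_cast hbig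
      push_cast at this
      linarith [Nat.le_ceil D]
    refine (fromTop_mono hD hc hn' (F' := fun G B Y w => (2 * (K : ℝ) + 1) * nearHigh r M D G B Y w
      + 2 * degTail (K : ℝ) D G B Y w + 0) fun G B Y w _ => ?_).trans ?_
    · simp only [nearHigh, degTail, add_zero]
      split_ifs
      · refine (card_spread_succ_le (lin_blocks G) (Nat.cast_nonneg K) r _).trans ?_
        refine add_le_add le_rfl (mul_le_mul_of_nonneg_left (sum_le_sum fun e _ => ?_) zero_le_two)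
        split_ifs with h
        · have h1 : (1 : ℝ) ≤ K := by exact_mod_cast hK1
          nlinarith
        · exact le_rfl
      · simp
    rw [fromTop_affine, add_zero]
    calc (2 * (K : ℝ) + 1) * fromTop n D (nearHigh r M D) + 2 * fromTop n D (degTail (K : ℝ) D)
        ≤ (2 * (K : ℝ) + 1) * (η / (2 * (2 * (K : ℝ) + 1)) * ((n : ℝ) * Real.sqrt n))
          + 2 * (η / 4 * ((n : ℝ) * Real.sqrt n)) := by gcongr
      _ = _ := by field_simp; ring

/-- The arithmetic at a stopped state. -/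
theorem combine {C₀ C Cc Cv τ T M L D N P s e sd card tl bc nh x Q R : ℝ} (hC₀ : 0 ≤ C₀)
    (hC : 0 ≤ C) (hCc : 0 ≤ Cc) (hCv : 0 ≤ Cv) (hτ : 0 ≤ τ) (hT : 0 ≤ T) (hL : 0 < L)
    (hsd : 0 ≤ sd) (he : 0 ≤ e) (hcard : card ≤ 2 * D * (e + N)) (hD : 0 ≤ D)
    (hR : R ≤ 2 * e + x + Q)
    (hx : x ≤ C₀ * τ * (2 * (e + N))
      + C * (sd + D ^ 2 * (Cc * (M ^ 2 * bc + tl + M ^ 2 * T * (M ^ 2 * card + tl) / L))))
    (hQ : Q ≤ Cv * (T * (M ^ 2 * card + tl) / L + s + N * D * (P + nh) / s)) :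
    R ≤ (2 + 2 * C₀ * τ + C + (C * D ^ 2 * Cc * M ^ 2 + Cv) * M ^ 2 * T * (2 * D) / L) * (sd + e)
      + (C * D ^ 2 * Cc * (1 + M ^ 2 * T / L) + Cv * T / L) * tl
      + C * D ^ 2 * Cc * M ^ 2 * bc
      + Cv * (N * D) / s * nh
      + ((2 * C₀ * τ + (C * D ^ 2 * Cc * M ^ 2 + Cv) * M ^ 2 * T * (2 * D) / L) * N
          + Cv * s + Cv * (N * D) * P / s) := by
  set A := (C * D ^ 2 * Cc * M ^ 2 + Cv) * M ^ 2 * T / L with hA
  have hA0 : 0 ≤ A := by positivity
  have k2 := mul_le_mul_of_nonneg_left hcard hA0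
  have k3 : 0 ≤ (2 + 2 * C₀ * τ + A * (2 * D)) * sd := by positivity
  have k4 : 0 ≤ C * e := mul_nonneg hC he
  have k5 : C * (sd + D ^ 2 * (Cc * (M ^ 2 * bc + tl + M ^ 2 * T * (M ^ 2 * card + tl) / L)))
      + Cv * (T * (M ^ 2 * card + tl) / L + s + N * D * (P + nh) / s)
      = C * sd + C * D ^ 2 * Cc * M ^ 2 * bc + (C * D ^ 2 * Cc * (1 + M ^ 2 * T / L) + Cv * T / L) * tl
        + A * card + Cv * s + Cv * (N * D) / s * nh + Cv * (N * D) * P / s := by
    rw [hA]; ring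
  have k6 : (C * D ^ 2 * Cc * M ^ 2 + Cv) * M ^ 2 * T * (2 * D) / L = A * (2 * D) := by rw [hA]; ring
  rw [k6]
  clear_value A
  linarith

/-- The two cases of the concentration. -/
theorem dist_le_cases {ι : Type} [DecidableEq ι] [Fintype ι] {V : Finset ι} {H : Finset (Finset ι)}
    {t : ℝ} (ht : 0 ≤ t) {c a cs R big Q : ℝ} (hc : 0 ≤ c)
    (hR : R ≤ mean V H t (fun A => |(A.card : ℝ) - c|) + 3 * cs)
    (hvar : (V.card : ℝ) ≤ big → mean V H t (fun A => |(A.card : ℝ) - ∑ i ∈ V, qf V H t i|) ≤ Q)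
    (hQ : 0 ≤ Q) (ha : big < V.card → 3 * c ≤ a) :
    R ≤ 2 * |a - c| + (|∑ i ∈ V, qf V H t i - a| + 3 * cs) + Q := by
  set S := ∑ i ∈ V, qf V H t i
  rcases le_or_gt (V.card : ℝ) big with h | h
  · have h1 := mean_dist_le V H ht c S
    have h2 := hvar h
    have h3 := abs_sub_le S a c
    have h4 := abs_nonneg (a - c)
    linarith
  · have h1 : mean V H t (fun A => |(A.card : ℝ) - c|) ≤ S + c := mean_dist_le' V H ht hc
    have h2 := ha h
    have h3 := le_abs_self (S - a)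
    have h4 := le_abs_self (a - c)
    linarith

/-- The sum over the bad points. -/
theorem bad_le {ι : Type} (V : Finset ι) (P : ι → Prop) [DecidablePred P] (d : ι → ℝ) {M : ℝ}
    (hd : ∀ i, 0 ≤ d i) [DecidablePred fun i => P i ∧ d i ≤ M] [DecidablePred fun i => ¬P i] :
    (∑ i ∈ V, if P i ∧ d i ≤ M then 0 else d i ^ 2) ≤
      M ^ 2 * ((V.filter fun i => ¬P i).card : ℝ) + ∑ i ∈ V, if M < d i then d i ^ 2 else 0 := by
  rw [card_filter, Nat.cast_sum, mul_sum, ← sum_add_distrib]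
  refine sum_le_sum fun e _ => ?_
  by_cases hM : M < d e
  · rw [if_neg fun h => (not_le.2 hM) h.2, if_pos hM]
    split_ifs <;> simp [sq_nonneg]
  · rw [if_neg hM, add_zero]
    by_cases hg : P e
    · rw [if_pos ⟨hg, not_lt.1 hM⟩]
      positivity
    · rw [if_neg fun h => hg h.1, if_pos hg, Nat.cast_one, mul_one]
      exact pow_le_pow_left₀ (hd e) (not_lt.1 hM) 2

/-- The scale facts at a stopped state. -/
theorem scale_facts {card Y D N c C₀ τ T : ℝ} (hcard : 0 ≤ card) (hD : 18 ≤ D) (hY1 : D / 2 ≤ Y)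
    (hY : Y ≤ D) (hN : 0 ≤ N) (hcN : c ≤ N) (hC₀ : 0 ≤ C₀) (hτ : τ = Real.exp (-T) + 2 / D) :
    card ≤ 2 * D * (|card / Real.sqrt (2 * Y) - c| + N) ∧
    C₀ * (Real.exp (-T) + 1 / Y) * (card / Real.sqrt Y) ≤
      C₀ * τ * (2 * (|card / Real.sqrt (2 * Y) - c| + N)) ∧
    (N * D < card → 3 * c ≤ card / Real.sqrt (2 * Y)) := by
  have hYpos : 0 < Y := by linarith
  have hq : 0 < Real.sqrt (2 * Y) := Real.sqrt_pos.2 (by linarith)
  set a := card / Real.sqrt (2 * Y) with ha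
  have haN : a ≤ |a - c| + N := by linarith [le_abs_self (a - c)]
  have ha0 : 0 ≤ a := by positivity
  refine ⟨?_, ?_, fun hbig => ?_⟩
  · rw [show card = Real.sqrt (2 * Y) * a by rw [ha, mul_div_cancel₀ _ hq.ne']]
    refine mul_le_mul ?_ haN ha0 (by linarith)
    exact Real.sqrt_le_iff.2 ⟨by linarith, by nlinarith⟩
  · refine mul_le_mul (mul_le_mul_of_nonneg_left ?_ hC₀) ?_ (by positivity) ?_
    · rw [hτ]
      refine add_le_add le_rfl ?_
      rw [div_le_div_iff₀ hYpos (by linarith)]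
      linarith
    · rw [show card / Real.sqrt Y = Real.sqrt 2 * a by
        rw [ha, Real.sqrt_mul (by norm_num) Y]; field_simp]
      exact mul_le_mul (Real.sqrt_le_iff.2 ⟨by norm_num, by norm_num⟩) haN ha0 zero_le_two
    · rw [hτ]; positivity
  · rw [ha, le_div_iff₀ hq]
    have h6 : Real.sqrt (2 * Y) * 3 ≤ D := by
      have : Real.sqrt (2 * Y) ≤ D / 3 := Real.sqrt_le_iff.2 ⟨by linarith, by nlinarith⟩
      linarith
    have h7 := mul_le_mul_of_nonneg_left h6 hN
    have h8 := mul_le_mul_of_nonneg_right hcN (show 0 ≤ Real.sqrt (2 * Y) * 3 by positivity)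
    linarith

open Classical in
/-- At a stopped state the distance of the leave is bounded by the errors there. -/
theorem dist_le_errors {C₀ C Cc Cv T D₀ : ℝ} (hC₀ : 0 ≤ C₀) (hC : 0 ≤ C) (hCc : 0 ≤ Cc)
    (hCv : 0 ≤ Cv) (hT : 0 ≤ T)
    (hcalc : ∀ (ι : Type) [DecidableEq ι] (V : Finset ι) (H : Finset (Finset ι)), Lin V H →
      ∀ (D : ℝ), D₀ ≤ D → ∀ w : ι → ℝ, (∀ i, |w i| ≤ 2 * Sharp.cap D) →
      ∀ (q : ℝ → ι → ℝ) (c : ℝ → Finset ι → ℝ) (η : ℝ → Finset ι → ι → ℝ), Ode V H q c η →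
      ∀ Hη : ℝ, (∀ t, 0 ≤ t → t ≤ T → etaSum H (η t) ≤ Hη) →
        |∑ i ∈ V, q T i - (V.card : ℝ) / Real.sqrt (2 * D)| + 3 * ∑ k ∈ H, c T k ≤
          C₀ * (Real.exp (-T) + 1 / D) * ((V.card : ℝ) / Real.sqrt D)
            + C * (seed V H D w + D ^ 2 * Hη))
    (hclo : ∀ (ι : Type) [DecidableEq ι] [Fintype ι] (V : Finset ι) (H : Finset (Finset ι)),
      Lin V H → ∀ (L : ℕ), 1 ≤ L → ∀ M t : ℝ, 0 ≤ M → 0 ≤ t →
        etaSum H (eta H (qf V H t) (cf V H t) (pf V H t)) ≤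
          Cc * ((∑ i ∈ V, if GoodAt H L i ∧ dg H i ≤ M then 0 else dg H i ^ 2)
            + M ^ 2 * t * degSq V H / L))
    (hvar : ∀ (ι : Type) [DecidableEq ι] [Fintype ι] (V : Finset ι) (H : Finset (Finset ι)),
      Lin V H → ∀ (L : ℕ), 1 ≤ L → ∀ t s : ℝ, 0 ≤ t → 0 < s →
        mean V H t (fun A => |(A.card : ℝ) - ∑ i ∈ V, qf V H t i|) ≤
          Cv * (t * degSq V H / L + s + ((closePairs V H L).card : ℝ) / s))
    {n : ℕ} {D : ℝ} (hD : 2 * D₀ ≤ D) (hD18 : 18 ≤ D) {M₁ : ℝ} (hM₁ : 0 ≤ M₁) {M₂ L : ℕ}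
    (hL : 1 ≤ L) {s : ℝ} (hs : 0 < s) {G B : Finset (Finset (Fin n))} {Y : ℝ}
    {w : Finset (Fin n) → ℝ} (hI : Inv n D G B Y w) :
    leaveExp (fun m : ℕ => |(m : ℝ) - target * ((n : ℝ) * Real.sqrt n)|) G ≤
      (2 + 2 * C₀ * (Real.exp (-T) + 2 / D) + C
          + (C * D ^ 2 * Cc * M₁ ^ 2 + Cv) * M₁ ^ 2 * T * (2 * D) / L) * errTop n D G B Y w
      + (C * D ^ 2 * Cc * (1 + M₁ ^ 2 * T / L) + Cv * T / L) * degTail M₁ D G B Y w
      + C * D ^ 2 * Cc * M₁ ^ 2 * badCount L D G B Y w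
      + Cv * ((n : ℝ) * Real.sqrt n * D) / s * nearHigh (2 * L + 3) M₂ D G B Y w
      + ((2 * C₀ * (Real.exp (-T) + 2 / D)
            + (C * D ^ 2 * Cc * M₁ ^ 2 + Cv) * M₁ ^ 2 * T * (2 * D) / L) * ((n : ℝ) * Real.sqrt n)
          + Cv * s
          + Cv * ((n : ℝ) * Real.sqrt n * D) * (2 * (M₂ : ℝ) + 1) ^ (2 * L + 3) / s) := by
  set N : ℝ := (n : ℝ) * Real.sqrt n with hNdef
  have hN : 0 ≤ N := by positivity
  set P : ℝ := (2 * (M₂ : ℝ) + 1) ^ (2 * L + 3) with hP
  set τ : ℝ := Real.exp (-T) + 2 / D with hτ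
  have hτ0 : 0 ≤ τ := by positivity
  have hLp : (0 : ℝ) < L := by exact_mod_cast hL
  have htgt1 : target ≤ 1 := by
    unfold target
    rw [div_le_one (by positivity)]
    have := Real.one_le_sqrt.2 (show (1 : ℝ) ≤ 2 by norm_num)
    linarith
  set c : ℝ := target * N with hc
  have hc0 : 0 ≤ c := by rw [hc]; unfold target; positivity
  have hcN : c ≤ N := mul_le_of_le_one_left hN htgt1
  by_cases hY : Y ≤ D
  swap
  · rw [errTop, if_neg hY, degTail, if_neg hY, badCount, if_neg hY, nearHigh, if_neg hY, ← hNdef,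
      mul_zero, mul_zero, mul_zero, add_zero, add_zero, add_zero]
    refine (leaveExp_le (b := (G.card : ℝ) + N) G fun m hm => ?_).trans ?_
    · have : (m : ℝ) ≤ G.card := by exact_mod_cast hm
      refine abs_le.2 ⟨?_, ?_⟩ <;> linarith [(Nat.cast_nonneg m : (0 : ℝ) ≤ m)]
    · refine le_add_of_le_of_nonneg (le_mul_of_one_le_left (by positivity) ?_) (by positivity)
      have : 0 ≤ C₀ * τ := by positivity
      have : 0 ≤ (C * D ^ 2 * Cc * M₁ ^ 2 + Cv) * M₁ ^ 2 * T * (2 * D) / L := by positivity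
      linarith
  obtain ⟨hgood, -, hYlow, -⟩ := hI
  have hYpos : 0 < Y := by linarith
  have hlin : Lin G (blocks G) := lin_blocks G
  have hd0 : ∀ i, 0 ≤ dg (blocks G) i := fun i => Nat.cast_nonneg _
  have htl : degTail M₁ D G B Y w =
      ∑ e ∈ G, if M₁ < dg (blocks G) e then dg (blocks G) e ^ 2 else 0 := by
    rw [degTail, if_pos hY]
  have hbad : (∑ i ∈ G, if GoodAt (blocks G) L i ∧ dg (blocks G) i ≤ M₁ then 0
      else dg (blocks G) i ^ 2) ≤ M₁ ^ 2 * badCount L D G B Y w + degTail M₁ D G B Y w := by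
    rw [htl, badCount, if_pos hY]
    convert bad_le G (GoodAt (blocks G) L) (dg (blocks G)) (M := M₁) hd0
  have hdeg : degSq G (blocks G) ≤ M₁ ^ 2 * (G.card : ℝ) + degTail M₁ D G B Y w := by
    rw [htl, degSq, card_eq_sum_ones, Nat.cast_sum, mul_sum, ← sum_add_distrib]
    refine sum_le_sum fun e _ => ?_
    rw [Nat.cast_one, mul_one]
    split_ifs with hM
    · linarith [sq_nonneg M₁]
    · linarith [pow_le_pow_left₀ (hd0 e) (not_lt.1 hM) 2]
  obtain ⟨hf1, hf2, hf3⟩ := scale_facts (card := (G.card : ℝ)) (Nat.cast_nonneg _) hD18 hYlow hY hN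
    hcN hC₀ hτ
  have hsd0 : 0 ≤ seed G (blocks G) Y w := seed_nonneg _ _ hYpos w
  have hdeg0 : 0 ≤ degSq G (blocks G) := sum_nonneg fun _ _ => sq_nonneg _
  have hU : ∀ t, 0 ≤ t → t ≤ T →
      etaSum (blocks G) (eta (blocks G) (qf G (blocks G) t) (cf G (blocks G) t) (pf G (blocks G) t)) ≤
        Cc * (M₁ ^ 2 * badCount L D G B Y w + degTail M₁ D G B Y w
          + M₁ ^ 2 * T * (M₁ ^ 2 * (G.card : ℝ) + degTail M₁ D G B Y w) / L) := fun t h0 h1 => by
    refine (hclo _ G (blocks G) hlin L hL M₁ t hM₁ h0).trans ?_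
    gcongr
  have hX := hcalc _ G (blocks G) hlin Y (by linarith) w hgood.small _ _ _
    (rates _ G (blocks G) hlin) _ hU
  have hU0 := le_trans (sum_nonneg fun k _ => sum_nonneg fun i _ => abs_nonneg _) (hU 0 le_rfl hT)
  have hX' := hX.trans (add_le_add hf2 (mul_le_mul_of_nonneg_left
    (add_le_add le_rfl (mul_le_mul_of_nonneg_right (pow_le_pow_left₀ hYpos.le hY 2) hU0)) hC))
  have hnh : nearHigh (2 * L + 3) M₂ D G B Y w = ((spread G (blocks G) (2 * L + 3)
      (G.filter fun e => (M₂ : ℝ) < dg (blocks G) e)).card : ℝ) := by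
    rw [nearHigh, if_pos hY]
  have hnh0 : 0 ≤ nearHigh (2 * L + 3) M₂ D G B Y w := by rw [hnh]; positivity
  have main := dist_le_cases (V := G) (H := blocks G) hT (a := (G.card : ℝ) / Real.sqrt (2 * Y))
    (big := N * D)
    (Q := Cv * (T * degSq G (blocks G) / L + s + N * D * (P + nearHigh (2 * L + 3) M₂ D G B Y w) / s))
    hc0 (leaveExp_le_mean G hT c)
    (fun hb => (hvar _ G (blocks G) hlin L hL T s hT hs).trans (by
      gcongr
      refine (card_closePairs_le hlin L (Nat.cast_nonneg M₂)).trans ?_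
      rw [← mul_add, hnh, hP]
      exact mul_le_mul_of_nonneg_right hb (by positivity)))
    (by positivity) hf3
  have herr : errTop n D G B Y w = seed G (blocks G) Y w + |(G.card : ℝ) / Real.sqrt (2 * Y) - c| := by
    rw [errTop, if_pos hY, hc, target, hNdef]
    congr 3
    ring
  rw [herr]
  exact combine hC₀ hC hCc hCv hτ0 hT hLp hsd0 (abs_nonneg _) hf1 (by linarith) main hX'
    (by gcongr)

/-- The calculus with nonnegative constants. -/
theorem calc_pos (hD : CalcStmt) : ∃ C₀ : ℝ, 0 ≤ C₀ ∧ ∀ T : ℝ, 1 ≤ T → ∃ C D₀ : ℝ, 0 ≤ C ∧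
    ∀ (ι : Type) [DecidableEq ι] (V : Finset ι) (H : Finset (Finset ι)), Lin V H →
    ∀ (D : ℝ), D₀ ≤ D → ∀ w : ι → ℝ, (∀ i, |w i| ≤ 2 * Sharp.cap D) →
    ∀ (q : ℝ → ι → ℝ) (c : ℝ → Finset ι → ℝ) (η : ℝ → Finset ι → ι → ℝ), Ode V H q c η →
    ∀ Hη : ℝ, (∀ t, 0 ≤ t → t ≤ T → etaSum H (η t) ≤ Hη) →
      |∑ i ∈ V, q T i - (V.card : ℝ) / Real.sqrt (2 * D)| + 3 * ∑ k ∈ H, c T k ≤
        C₀ * (Real.exp (-T) + 1 / D) * ((V.card : ℝ) / Real.sqrt D)
          + C * (seed V H D w + D ^ 2 * Hη) := by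
  obtain ⟨C₀, h⟩ := hD
  refine ⟨max C₀ 0, le_max_right _ _, fun T hT => ?_⟩
  obtain ⟨C, D₀, h⟩ := h T hT
  refine ⟨max C 0, max D₀ 1, le_max_right _ _, fun ι _ V H hl D hD w hw q c η ho Hη hH => ?_⟩
  have hDp : 0 < D := lt_of_lt_of_le one_pos ((le_max_right _ _).trans hD)
  have hH0 : 0 ≤ Hη := le_trans (sum_nonneg fun k _ => sum_nonneg fun i _ => abs_nonneg _)
    (hH 0 le_rfl (by linarith))
  have hs0 := seed_nonneg V H hDp w
  refine (h ι V H hl D ((le_max_left _ _).trans hD) w hw q c η ho Hη hH).trans (add_le_add ?_ ?_)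
  · exact mul_le_mul_of_nonneg_right (mul_le_mul_of_nonneg_right (le_max_left _ _) (by positivity))
      (by positivity)
  · exact mul_le_mul_of_nonneg_right (le_max_left _ _) (by positivity)

open Classical in
/-- The closure error with a nonnegative constant. -/
theorem closure_pos : ∃ C : ℝ, 0 ≤ C ∧
    ∀ (ι : Type) [DecidableEq ι] [Fintype ι] (V : Finset ι) (H : Finset (Finset ι)),
    Lin V H → ∀ (L : ℕ), 1 ≤ L → ∀ M t : ℝ, 0 ≤ M → 0 ≤ t →
      etaSum H (eta H (qf V H t) (cf V H t) (pf V H t)) ≤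
        C * ((∑ i ∈ V, if GoodAt H L i ∧ dg H i ≤ M then 0 else dg H i ^ 2)
          + M ^ 2 * t * degSq V H / L) := by
  obtain ⟨C, h⟩ := closure
  refine ⟨max C 0, le_max_right _ _, fun ι _ _ V H hl L hL M t hM ht => ?_⟩
  refine (h ι V H hl L hL M t hM ht).trans (mul_le_mul_of_nonneg_right (le_max_left _ _) ?_)
  exact add_nonneg (sum_nonneg fun i _ => by split_ifs <;> positivity)
    (div_nonneg (mul_nonneg (mul_nonneg (sq_nonneg M) ht) (sum_nonneg fun _ _ => sq_nonneg _))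
      (Nat.cast_nonneg L))

/-- The concentration with a nonnegative constant. -/
theorem var_pos : ∃ C : ℝ, 0 ≤ C ∧
    ∀ (ι : Type) [DecidableEq ι] [Fintype ι] (V : Finset ι) (H : Finset (Finset ι)),
    Lin V H → ∀ (L : ℕ), 1 ≤ L → ∀ t s : ℝ, 0 ≤ t → 0 < s →
      mean V H t (fun A => |(A.card : ℝ) - ∑ i ∈ V, qf V H t i|) ≤
        C * (t * degSq V H / L + s + ((closePairs V H L).card : ℝ) / s) := by
  obtain ⟨C, h⟩ := var
  refine ⟨max C 0, le_max_right _ _, fun ι _ _ V H hl L hL t s ht hs => ?_⟩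
  refine (h ι V H hl L hL t s ht hs).trans (mul_le_mul_of_nonneg_right (le_max_left _ _) ?_)
  exact add_nonneg (add_nonneg (div_nonneg (mul_nonneg ht (sum_nonneg fun _ _ => sq_nonneg _))
    (Nat.cast_nonneg L)) hs.le) (by positivity)

/-- A product with a small factor. -/
theorem mul_small {a A x ε N : ℝ} (ha : 0 ≤ a) (hA : a ≤ A) (hA0 : 0 < A) (hε : 0 ≤ ε) (hN : 0 ≤ N)
    (hx : x ≤ ε / (10 * A) * N) : a * x ≤ ε / 10 * N := by
  refine (mul_le_mul_of_nonneg_left hx ha).trans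
    ((mul_le_mul_of_nonneg_right hA (by positivity)).trans_eq ?_)
  field_simp

/-- The constant part of the bound. -/
theorem const_small {Cv σ D P N z ε x : ℝ} (hCv : 0 ≤ Cv) (hσ : σ = ε / (10 * (Cv + 1))) (hε : 0 < ε)
    (hN : 0 < N) (hz : z ≤ ε / 10) (hx : x ≤ ε / 10) (hn : 10 * (Cv * D * P / σ) / ε ≤ N) :
    (x + z) * N + Cv * (σ * N) + Cv * (N * D) * P / (σ * N) ≤ 4 * (ε / 10) * N := by
  have hσp : 0 < σ := by rw [hσ]; positivity
  have h1 : Cv * (σ * N) ≤ ε / 10 * N :=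
    (mul_le_mul_of_nonneg_right (show Cv ≤ Cv + 1 by linarith) (by positivity)).trans_eq
      (by rw [hσ]; field_simp)
  have h3 : Cv * (N * D) * P / (σ * N) = Cv * D * P / σ := by field_simp
  rw [div_le_iff₀ hε] at hn
  have h4 := mul_le_mul_of_nonneg_right (add_le_add hx hz) hN.le
  rw [h3]
  linarith

theorem limit_of (hA : StopMainStmt) (hT : StopTailStmt) (hS : StopCycleStmt) (hD : CalcStmt) :
    LimitL1Stmt := by
  intro ε hε
  obtain ⟨C₀, hC₀, hcal⟩ := calc_pos hD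
  obtain ⟨Cc, hCc, hclo⟩ := closure_pos
  obtain ⟨Cv, hCv, hvar⟩ := var_pos
  -- T
  obtain ⟨T, hT1, hTe⟩ : ∃ T : ℝ, 1 ≤ T ∧ 2 * C₀ * Real.exp (-T) ≤ ε / 20 := by
    have h : Tendsto (fun T : ℝ => 2 * C₀ * Real.exp (-T)) atTop (𝓝 0) := by
      simpa using Real.tendsto_exp_neg_atTop_nhds_zero.const_mul (2 * C₀)
    exact ((eventually_ge_atTop (1 : ℝ)).and
      (h.eventually (ge_mem_nhds (show (0 : ℝ) < ε / 20 by positivity)))).exists
  obtain ⟨C, D₀, hC, hcalT⟩ := hcal T hT1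
  -- D
  have hA1 : 0 < 4 + 6 * C₀ + C := by positivity
  obtain ⟨DA, hDA⟩ := hA (ε / (10 * (4 + 6 * C₀ + C))) (by positivity)
  obtain ⟨DT, hDT⟩ := hT
  obtain ⟨DS, hDS⟩ := hS
  have hcap : ∀ᶠ x : ℝ in atTop, Sharp.cap x ≤ 1 / 1000 := by
    have := tendsto_rpow_neg_atTop (show (0 : ℝ) < 1 / 50 by norm_num)
    exact (this.eventually (ge_mem_nhds (show (0 : ℝ) < 1 / 1000 by norm_num))).mono
      fun x hx => by simpa [Sharp.cap] using hx
  obtain ⟨D, hDc, hD0, hDA', hDT', hDS', hD9, hDe⟩ :=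
    (hcap.and ((eventually_ge_atTop (2 * D₀)).and ((eventually_ge_atTop DA).and
      ((eventually_ge_atTop DT).and ((eventually_ge_atTop DS).and
      ((eventually_ge_atTop (10 ^ 9 : ℝ)).and
      (eventually_ge_atTop (80 * C₀ / ε)))))))).exists
  have hDp : 0 < D := lt_of_lt_of_le (by norm_num) hD9
  have hτ : 2 * C₀ * (Real.exp (-T) + 2 / D) ≤ ε / 10 := by
    have : 2 * C₀ * (2 / D) ≤ ε / 20 := by
      rw [← mul_div_assoc, div_le_iff₀ hDp]
      rw [div_le_iff₀ hε] at hDe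
      linarith
    linarith
  -- M₁
  have hA2 : 0 < 2 * C * D ^ 2 * Cc + Cv + 1 := by positivity
  obtain ⟨M₁, -, hM₁⟩ := exists_nat_tail (hDT D hDT') hD9 hDc
    (show 0 < ε / (10 * (2 * C * D ^ 2 * Cc + Cv + 1)) by positivity)
  -- L
  obtain ⟨Z, hZ⟩ : ∃ Z, Z = (C * D ^ 2 * Cc * (M₁ : ℝ) ^ 2 + Cv) * (M₁ : ℝ) ^ 2 * T * (2 * D) :=
    ⟨_, rfl⟩
  obtain ⟨L, hL1, ⟨hLT, hLM⟩, hLZ, hLε⟩ :
      ∃ L : ℕ, 1 ≤ L ∧ (T ≤ L ∧ (M₁ : ℝ) ^ 2 * T ≤ L) ∧ Z ≤ L ∧ 10 * Z / ε ≤ L :=
    ((eventually_ge_atTop (1 : ℕ)).and (((tendsto_natCast_atTop_atTop).eventually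
      ((eventually_ge_atTop T).and (eventually_ge_atTop ((M₁ : ℝ) ^ 2 * T)))).and
      (((tendsto_natCast_atTop_atTop).eventually (eventually_ge_atTop Z)).and
      ((tendsto_natCast_atTop_atTop).eventually (eventually_ge_atTop (10 * Z / ε)))))).exists
  have hLp : (0 : ℝ) < L := by exact_mod_cast hL1
  have hZL : Z / L ≤ ε / 10 := by
    rw [div_le_iff₀ hε] at hLε
    rw [div_le_iff₀ hLp]
    linarith
  have hZL1 : Z / L ≤ 1 := (div_le_one hLp).2 hLZ
  have hML : (M₁ : ℝ) ^ 2 * T / L ≤ 1 := (div_le_one hLp).2 hLM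
  -- the spread
  obtain ⟨σ, hσ⟩ : ∃ σ, σ = ε / (10 * (Cv + 1)) := ⟨_, rfl⟩
  have hσp : 0 < σ := by rw [hσ]; positivity
  have hA4 : 0 < Cv * D / σ + 1 := by positivity
  obtain ⟨M₂, hM₂⟩ := nearHigh_small (hDT D hDT') hD9 hDc (2 * L + 3)
    (ε / (10 * (Cv * D / σ + 1))) (by positivity)
  obtain ⟨P, hP⟩ : ∃ P, P = (2 * (M₂ : ℝ) + 1) ^ (2 * L + 3) := ⟨_, rfl⟩
  have hA3 : 0 < C * D ^ 2 * Cc * (M₁ : ℝ) ^ 2 + 1 := by positivity
  have hbad := hDS D hDS' L (ε / (10 * (C * D ^ 2 * Cc * (M₁ : ℝ) ^ 2 + 1))) (by positivity)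
  filter_upwards [hDA D hDA', hM₁, hM₂, hbad, eventually_ge_atTop (⌈D⌉₊ + 2),
    eventually_ge_atTop ⌈10 * (Cv * D * P / σ) / ε⌉₊] with n hn hn1 hn2 hn3 hbig hbigP
  have hn' : D + 2 ≤ (n : ℝ) := by
    have : ((⌈D⌉₊ + 2 : ℕ) : ℝ) ≤ n := by exact_mod_cast hbig
    push_cast at this
    linarith [Nat.le_ceil D]
  obtain ⟨N, hN⟩ : ∃ N, N = (n : ℝ) * Real.sqrt n := ⟨_, rfl⟩
  rw [← hN] at hn hn1 hn2 hn3 ⊢
  have hn1' : (1 : ℝ) ≤ n := by linarith
  have hNn : (n : ℝ) ≤ N :=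
    hN ▸ le_mul_of_one_le_right (by linarith) (Real.one_le_sqrt.2 hn1')
  have hNp : 0 < N := by linarith
  have hpt : ∀ G B Y w, Inv n D G B Y w →
      leaveExp (fun m : ℕ => |(m : ℝ) - target * N|) G ≤
        (2 + 2 * C₀ * (Real.exp (-T) + 2 / D) + C + Z / L) * errTop n D G B Y w
          + 1 * ((C * D ^ 2 * Cc * (1 + (M₁ : ℝ) ^ 2 * T / L) + Cv * T / L)
              * degTail (M₁ : ℝ) D G B Y w
            + 1 * (C * D ^ 2 * Cc * (M₁ : ℝ) ^ 2 * badCount L D G B Y w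
              + Cv * (N * D) / (σ * N) * nearHigh (2 * L + 3) M₂ D G B Y w + 0) + 0)
          + ((2 * C₀ * (Real.exp (-T) + 2 / D) + Z / L) * N + Cv * (σ * N)
            + Cv * (N * D) * P / (σ * N)) := by
    intro G B Y w hI
    have h := dist_le_errors hC₀ hC hCc hCv (show 0 ≤ T by linarith) hcalT hclo hvar hD0
      (show 18 ≤ D by linarith) (Nat.cast_nonneg M₁) (M₂ := M₂) hL1 (mul_pos hσp hNp) hI
    rw [← hN] at h
    refine h.trans_eq ?_
    rw [hZ, hP, hN]
    ring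
  rw [leaveExp_fromTop n D]
  refine (fromTop_mono hD9 hDc hn' hpt).trans ?_
  rw [fromTop_affine, fromTop_affine, fromTop_affine]
  have he : Real.exp (-T) + 2 / D ≤ 3 := by
    have h1 := Real.exp_le_one_iff.2 (show -T ≤ 0 by linarith)
    have h2 : 2 / D ≤ 2 := div_le_self zero_le_two (by linarith)
    linarith
  have e1 := mul_small (a := 2 + 2 * C₀ * (Real.exp (-T) + 2 / D) + C + Z / L)
    (by have : 0 ≤ Z := (by rw [hZ]; positivity)
        positivity)
    (by linarith [mul_le_mul_of_nonneg_left he (show 0 ≤ 2 * C₀ by linarith)]) hA1 hε.le hNp.le hn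
  have e2 := mul_small (a := C * D ^ 2 * Cc * (1 + (M₁ : ℝ) ^ 2 * T / L) + Cv * T / L) (by positivity)
    (by
      have h2 : Cv * T / L ≤ Cv := by
        rw [div_le_iff₀ hLp]; exact mul_le_mul_of_nonneg_left hLT hCv
      linarith [mul_le_mul_of_nonneg_left hML (show 0 ≤ C * D ^ 2 * Cc by positivity)])
    hA2 hε.le hNp.le hn1
  have e3 := mul_small (a := C * D ^ 2 * Cc * (M₁ : ℝ) ^ 2) (by positivity) (by linarith) hA3 hε.le
    hNp.le hn3
  have e4 := mul_small (a := Cv * (N * D) / (σ * N)) (by positivity)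
    (by rw [show Cv * (N * D) / (σ * N) = Cv * D / σ by field_simp]; linarith) hA4 hε.le hNp.le hn2
  have e5 := const_small hCv hσ hε hNp hZL hτ
    (((Nat.le_ceil _).trans (by exact_mod_cast hbigP)).trans hNn)
  linarith [mul_nonneg hε.le hNp.le]

/-- The limit in probability and in expectation from the limit in mean. -/
theorem limit_of_l1 (h : LimitL1Stmt) : LimitStmt := by
  classical
  refine ⟨fun ε hε => Metric.tendsto_nhds.2 fun δ hδ => ?_, Metric.tendsto_nhds.2 fun δ hδ => ?_⟩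
  · filter_upwards [h (δ * ε / 2) (by positivity), eventually_ge_atTop 1] with n hn hn1
    have hN : (0 : ℝ) < (n : ℝ) * Real.sqrt n := by
      have : (0 : ℝ) < n := by exact_mod_cast hn1
      positivity
    rw [Real.dist_eq, sub_zero, abs_lt]
    constructor
    · have h0 : (0 : ℝ) ≤ _ :=
        le_trans (le_of_eq (by simp : (0 : ℝ) = 0 * leaveExp (fun _ => (0 : ℝ)) (complete n) + 0))
          ((leaveExp_affine (fun _ => (0 : ℝ)) 0 0 (complete n)).ge.trans
            (leaveExp_mono (g := fun m : ℕ =>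
              if ε ≤ |(m : ℝ) / ((n : ℝ) * Real.sqrt n) - target| then (1 : ℝ) else 0)
              (fun m => by simp only [zero_mul, add_zero]; split_ifs <;> norm_num) (complete n)))
      linarith
    · calc _ ≤ leaveExp (fun m : ℕ => 1 / (ε * ((n : ℝ) * Real.sqrt n)) *
            |(m : ℝ) - target * ((n : ℝ) * Real.sqrt n)| + 0) (complete n) := by
            refine leaveExp_mono (fun m => ?_) _
            simp only [add_zero]
            split_ifs with hm
            · rw [one_div_mul_eq_div, one_le_div (by positivity)]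
              have e : (m : ℝ) - target * ((n : ℝ) * Real.sqrt n) =
                  ((n : ℝ) * Real.sqrt n) * ((m : ℝ) / ((n : ℝ) * Real.sqrt n) - target) := by
                field_simp
              rw [e, abs_mul, abs_of_pos hN, mul_comm ε]
              exact mul_le_mul_of_nonneg_left hm hN.le
            · positivity
        _ = 1 / (ε * ((n : ℝ) * Real.sqrt n)) * leaveExp (fun m : ℕ =>
            |(m : ℝ) - target * ((n : ℝ) * Real.sqrt n)|) (complete n) + 0 := leaveExp_affine _ _ _ _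
        _ ≤ 1 / (ε * ((n : ℝ) * Real.sqrt n)) * (δ * ε / 2 * ((n : ℝ) * Real.sqrt n)) + 0 := by
            gcongr
        _ = δ / 2 := by field_simp; ring
        _ < δ := half_lt_self hδ
  · filter_upwards [h (δ / 2) (by positivity), eventually_ge_atTop 1] with n hn hn1
    set N : ℝ := (n : ℝ) * Real.sqrt n
    have hN : (0 : ℝ) < N := by
      have : (0 : ℝ) < n := by exact_mod_cast hn1
      positivity
    have hu : leaveExp (fun m : ℕ => 1 * (m : ℝ) + -(target * N)) (complete n) =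
        leave (complete n) - target * N := by
      rw [leaveExp_affine, leaveExp_cast]; ring
    have hd : leaveExp (fun m : ℕ => -1 * (m : ℝ) + target * N) (complete n) =
        -(leave (complete n) - target * N) := by
      rw [leaveExp_affine, leaveExp_cast]; ring
    have hle : |leave (complete n) - target * N| ≤ δ / 2 * N := by
      refine abs_le'.2 ⟨hu ▸ (leaveExp_mono (fun m => ?_) _).trans hn,
        hd ▸ (leaveExp_mono (fun m => ?_) _).trans hn⟩
      · rw [one_mul, ← sub_eq_add_neg]; exact le_abs_self _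
      · rw [neg_one_mul, neg_add_eq_sub, abs_sub_comm]; exact le_abs_self _
    rw [Real.dist_eq, show leave (complete n) / N - target = (leave (complete n) - target * N) / N by
      field_simp, abs_div, abs_of_pos hN, div_lt_iff₀ hN]
    calc _ ≤ δ / 2 * N := hle
      _ < δ * N := by nlinarith

end Vale.Agent.P046.Limit
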