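import Vale.Agent.P046.Limit.Defs

/-!
P046, the limit constant: the calculus, from the differential inequalities.

`R = Λ^{-1/2}` and `G = ∫ Λ`.  The potential `U + cap^{-3/4} V + κ R^5 E` grows at most like
`exp G`, and then the number of alive points follows `m exp (-G)`.
-/

open Finset Filter

namespace Vale.Agent.P046.Limit

/-- A function with nonpositive derivative does not grow. -/
theorem le_start {φ : ℝ → ℝ} {T : ℝ}
    (h : ∀ t, 0 ≤ t → t ≤ T → ∃ d ≤ (0 : ℝ), HasDerivAt φ d t) {t : ℝ} (h0 : 0 ≤ t) (h1 : t ≤ T) :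
    φ t ≤ φ 0 := by
  have key : AntitoneOn φ (Set.Icc 0 T) := by
    refine antitoneOn_of_deriv_nonpos (convex_Icc 0 T) (fun u hu => ?_) (fun u hu => ?_) fun u hu => ?_
    · obtain ⟨d, -, hd⟩ := h u hu.1 hu.2
      exact hd.continuousAt.continuousWithinAt
    all_goals
      rw [interior_Icc, Set.mem_Ioo] at hu
      obtain ⟨d, hd0, hd⟩ := h u hu.1.le hu.2.le
    · exact hd.differentiableAt.differentiableWithinAt
    · rw [hd.deriv]; exact hd0
  exact key ⟨le_rfl, h0.trans h1⟩ ⟨h0, h1⟩ h0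

/-! ### The trajectory -/

/-- The reciprocal square root of the trajectory. -/
noncomputable def rr (D t : ℝ) : ℝ := (Real.sqrt (lam D t))⁻¹

/-- The integral of the trajectory. -/
noncomputable def gg (D t : ℝ) : ℝ := Real.log (1 + 2 * D * (1 - Real.exp (-t))) / 2

variable {D t : ℝ}

theorem den_pos (hD : 0 ≤ D) (ht : 0 ≤ t) : 1 ≤ 1 + 2 * D * (1 - Real.exp (-t)) := by
  have : Real.exp (-t) ≤ 1 := Real.exp_le_one_iff.2 (by linarith)
  have : 0 ≤ 2 * D * (1 - Real.exp (-t)) := mul_nonneg (by linarith) (by linarith)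
  linarith

theorem lam_pos (hD : 0 < D) (ht : 0 ≤ t) : 0 < lam D t :=
  div_pos (mul_pos hD (Real.exp_pos _)) (by linarith [den_pos hD.le ht])

theorem den_deriv (D t : ℝ) :
    HasDerivAt (fun u => 1 + 2 * D * (1 - Real.exp (-u))) (2 * D * Real.exp (-t)) t := by
  simpa using ((((hasDerivAt_id t).neg).exp.const_sub 1).const_mul (2 * D)).const_add 1

theorem lam_deriv (hD : 0 < D) (ht : 0 ≤ t) :
    HasDerivAt (lam D) (-2 * lam D t ^ 2 - lam D t) t := by
  have h1 : HasDerivAt (fun u => D * Real.exp (-u)) (D * -Real.exp (-t)) t := by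
    simpa using (((hasDerivAt_id t).neg).exp.const_mul D)
  have hne : (1 + 2 * D * (1 - Real.exp (-t))) ≠ 0 := by linarith [den_pos hD.le ht]
  refine (h1.div (den_deriv D t) hne).congr_deriv ?_
  simp only [lam]
  field_simp
  ring

theorem gg_deriv (hD : 0 < D) (ht : 0 ≤ t) : HasDerivAt (gg D) (lam D t) t := by
  have hne : (1 + 2 * D * (1 - Real.exp (-t))) ≠ 0 := by linarith [den_pos hD.le ht]
  refine (((den_deriv D t).log hne).div_const 2).congr_deriv ?_
  simp only [lam]
  field_simp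

theorem rr_sq (hD : 0 < D) (ht : 0 ≤ t) : rr D t ^ 2 * lam D t = 1 := by
  have h := lam_pos hD ht
  rw [rr, inv_pow, Real.sq_sqrt h.le, inv_mul_cancel₀ h.ne']

theorem rr_pos (hD : 0 < D) (ht : 0 ≤ t) : 0 < rr D t :=
  inv_pos.2 (Real.sqrt_pos.2 (lam_pos hD ht))

theorem rr_deriv (hD : 0 < D) (ht : 0 ≤ t) :
    HasDerivAt (rr D) (rr D t * (lam D t + 1 / 2)) t := by
  have h := lam_pos hD ht
  have hs := Real.sqrt_pos.2 h
  refine (((lam_deriv hD ht).sqrt h.ne').inv hs.ne').congr_deriv ?_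
  simp only [rr]
  field_simp
  rw [Real.sq_sqrt h.le]
  ring

theorem exp_gg (hD : 0 ≤ D) (ht : 0 ≤ t) :
    Real.exp (gg D t) ^ 2 = 1 + 2 * D * (1 - Real.exp (-t)) := by
  rw [← Real.exp_nat_mul, gg]
  push_cast
  rw [mul_div_cancel₀ _ two_ne_zero, Real.exp_log (by linarith [den_pos hD ht])]

theorem gg_nonneg (hD : 0 ≤ D) (ht : 0 ≤ t) : 0 ≤ gg D t :=
  div_nonneg (Real.log_nonneg (den_pos hD ht)) two_pos.le

theorem gg_le (hD : 1 ≤ D) (ht : 0 ≤ t) : gg D t ≤ Real.log (3 * D) / 2 := by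
  refine div_le_div_of_nonneg_right
    (Real.log_le_log (by linarith [den_pos (show 0 ≤ D by linarith) ht]) ?_) two_pos.le
  nlinarith [Real.exp_pos (-t)]

theorem exp_gg_sq_lam (hD : 0 < D) (ht : 0 ≤ t) :
    Real.exp (gg D t) ^ 2 * lam D t = D * Real.exp (-t) := by
  rw [exp_gg hD.le ht, lam, mul_div_cancel₀ _ (by linarith [den_pos hD.le ht])]

theorem rr_le (hD : 1 ≤ D) {T : ℝ} (ht : 0 ≤ t) (hT : t ≤ T) :
    rr D t ≤ Real.sqrt (3 * Real.exp T) := by
  have h := lam_pos (by linarith : 0 < D) ht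
  rw [rr, ← Real.sqrt_inv]
  refine Real.sqrt_le_sqrt ?_
  rw [inv_le_iff_one_le_mul₀ h, lam, ← mul_div_assoc, le_div_iff₀
    (by linarith [den_pos (show 0 ≤ D by linarith) ht]), one_mul]
  have e : 1 ≤ Real.exp T * Real.exp (-t) := by
    rw [← Real.exp_add]; exact Real.one_le_exp (by linarith)
  calc 1 + 2 * D * (1 - Real.exp (-t)) ≤ 3 * D * 1 := by nlinarith [Real.exp_pos (-t)]
    _ ≤ 3 * D * (Real.exp T * Real.exp (-t)) := mul_le_mul_of_nonneg_left e (by linarith)
    _ = _ := by ring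

theorem rr_div_le (hD : 0 < D) {T : ℝ} (ht : 0 ≤ t) (hT : t ≤ T) :
    rr D t * Real.exp (-gg D t) ≤ Real.sqrt (Real.exp T / D) := by
  refine Real.le_sqrt_of_sq_le ?_
  have h := lam_pos hD ht
  have e1 := exp_gg_sq_lam hD ht
  have e2 : (rr D t * Real.exp (-gg D t)) ^ 2 = Real.exp t / D := by
    rw [mul_pow, rr, inv_pow, Real.sq_sqrt h.le, Real.exp_neg, inv_pow, ← mul_inv,
      mul_comm (lam D t), e1, mul_inv, ← Real.exp_neg, neg_neg]
    ring
  rw [e2]
  exact div_le_div_of_nonneg_right (Real.exp_le_exp.2 hT) hD.le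

/-! ### Static facts -/

variable {ι : Type*} [DecidableEq ι] {V : Finset ι} {H : Finset (Finset ι)} {q : ι → ℝ}
  {c : Finset ι → ℝ} {w : ι → ℝ} {Λ e : ℝ}

theorem sum_blocksAt (hL : Lin V H) (f : Finset ι → ℝ) :
    ∑ i ∈ V, ∑ k ∈ blocksAt H i, f k = 3 * ∑ k ∈ H, f k := by
  rw [sum_comm' (s' := fun k => k) (t' := H) (fun i k => by
    simp only [blocksAt, mem_filter]
    exact ⟨fun h => ⟨h.2.2, h.2.1⟩, fun h => ⟨hL.sub k h.2 h.1, h.2, h.1⟩⟩), mul_sum]
  exact sum_congr rfl fun k hk => by rw [sum_const, hL.card3 k hk, nsmul_eq_mul]; norm_num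

theorem abs_le_phi {z : ℝ} (he : 0 < e) (he' : e ≤ 1 / 10) :
    |z| ≤ e + 2 * phi z / e := by
  have hp := phi_nonneg z
  have h2 : phi z / e ≤ 2 * phi z / e := by
    refine div_le_div_of_nonneg_right ?_ he.le
    linarith
  rcases le_or_gt 0 z with h | h
  · rw [abs_of_nonneg h]
    rcases le_or_gt z 1 with h1 | h1
    · have e1 : z ^ 2 ≤ 2 * phi z := by
        rw [phi, if_pos h, ← mul_div_assoc, le_div_iff₀ (by linarith)]
        nlinarith [sq_nonneg z]
      rw [← sub_le_iff_le_add', le_div_iff₀ he]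
      nlinarith [sq_nonneg (z - e)]
    · have e1 := Sharp.le_two_phi h1
      have e2 : 2 * phi z ≤ 2 * phi z / e := by
        rw [le_div_iff₀ he]
        exact mul_le_of_le_one_right (by linarith) (by linarith)
      linarith
  · rw [abs_of_neg h]
    linarith [neg_le_phi (z := z) he he']

/-- The two forms of the total death rate, and the deviation from the trajectory. -/
theorem deviation (hL : Lin V H) (hq : ∀ i ∈ V, 0 < q i) (hc : ∀ k ∈ H, 0 ≤ c k) (hΛ : 0 < Λ)
    (hw : ∀ i, |w i| ≤ 1 / 50) (he : 0 < e) (he' : e ≤ 1 / 10) :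
    (3 * ∑ k ∈ H, c k = Λ * ∑ i ∈ V, q i * zt H q c Λ i) ∧
      |(∑ i ∈ V, q i * zt H q c Λ i) - ∑ i ∈ V, q i| ≤
        e * ∑ i ∈ V, q i + 48 / e * (potU V H q c Λ w + potW V q w) := by
  refine ⟨?_, ?_⟩
  · rw [← sum_blocksAt hL c, mul_sum]
    refine sum_congr rfl fun i hi => ?_
    have := (hq i hi).ne'
    simp only [zt, load]
    field_simp
  · rw [← sum_sub_distrib, potU, potW, ← sum_add_distrib, mul_sum, mul_sum, ← sum_add_distrib]
    refine (abs_sum_le_sum_abs _ _).trans (sum_le_sum fun i hi => ?_)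
    have h0 : 0 ≤ zt H q c Λ i := div_nonneg (div_nonneg (sum_nonneg fun k hk =>
      hc k (mem_filter.1 hk).1) (hq i hi).le) hΛ.le
    have h1 := abs_le_phi (z := zt H q c Λ i - 1) he he'
    have h2 := Sharp.phi_shift h0 (hw i)
    have hp := phi_nonneg (ut H q c Λ w i)
    rw [show q i * zt H q c Λ i - q i = q i * (zt H q c Λ i - 1) by ring, abs_mul,
      abs_of_pos (hq i hi)]
    calc q i * |zt H q c Λ i - 1|
        ≤ q i * (e + 2 * phi (zt H q c Λ i - 1) / e) := mul_le_mul_of_nonneg_left h1 (hq i hi).le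
      _ ≤ q i * (e + 48 / e * (phi (ut H q c Λ w i) + w i ^ 2)) := by
          refine mul_le_mul_of_nonneg_left (add_le_add le_rfl ?_) (hq i hi).le
          rw [div_mul_eq_mul_div]
          refine div_le_div_of_nonneg_right ?_ he.le
          simp only [ut] at hp ⊢
          linarith
      _ = _ := by ring

/-! ### The two Gronwall steps -/

/-- The drift potential at most grows like `exp G`. -/
theorem pot_growth {T δ B K S₀ : ℝ} (hD : 0 < D) {Z W : ℝ → ℝ} (hB : 0 ≤ B) (hδ : 0 ≤ δ)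
    (hK : 0 ≤ K) (hW : ∀ t, 0 ≤ t → t ≤ T → W t ≤ S₀) (hW0 : ∀ t, 0 ≤ t → 0 ≤ W t)
    (hZ : ∀ t, 0 ≤ t → t ≤ T → ∃ d, HasDerivAt Z d t ∧
      d ≤ ((1 + δ) * lam D t + 9 + B * (rr D t * (lam D t + 1 / 2))) * Z t
        + (δ * lam D t + B * (rr D t * (lam D t + 1 / 2))) * W t + K)
    (hZ0 : 0 ≤ Z 0) (h0 : 0 ≤ t) (h1 : t ≤ T) :
    Real.exp (-((1 + δ) * gg D t + 9 * t + B * rr D t)) * Z t ≤
      Z 0 + δ * S₀ + B * Real.sqrt (Real.exp T / D) * S₀ * (gg D t + t / 2) + K * t := by
  set s := Real.sqrt (Real.exp T / D) with hs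
  set φ : ℝ → ℝ := fun u => Real.exp (-((1 + δ) * gg D u + 9 * u + B * rr D u)) * Z u
    + δ * S₀ * Real.exp (-gg D u) - B * s * S₀ * (gg D u + u / 2) - K * u with hφ
  have key : φ t ≤ φ 0 := by
    refine le_start (T := T) (fun u hu hu' => ?_) h0 h1
    obtain ⟨d, hd, hb⟩ := hZ u hu hu'
    set E := Real.exp (-((1 + δ) * gg D u + 9 * u + B * rr D u)) with hE
    set a := (1 + δ) * lam D u + 9 + B * (rr D u * (lam D u + 1 / 2)) with ha
    have hg := gg_deriv hD hu
    have e1 : HasDerivAt (fun v => Real.exp (-((1 + δ) * gg D v + 9 * v + B * rr D v))) (E * -a) u := by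
      simpa [hE, ha] using
        ((((hg.const_mul (1 + δ)).add ((hasDerivAt_id u).const_mul 9)).add
          ((rr_deriv hD hu).const_mul B)).neg).exp
    refine ⟨E * -a * Z u + E * d + δ * S₀ * (Real.exp (-gg D u) * -lam D u)
      - B * s * S₀ * (lam D u + 1 / 2) - K * 1, ?_, ?_⟩
    · have hΛ := (lam_pos hD hu).le
      have hr := (rr_pos hD hu).le
      have hgg := gg_nonneg hD.le hu
      have hE0 : 0 ≤ E := Real.exp_nonneg _
      have hW1 := hW u hu hu'
      have hW2 := hW0 u hu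
      have hS : 0 ≤ S₀ := hW2.trans hW1
      have hb' := mul_le_mul_of_nonneg_left hb hE0
      have hsum : 0 ≤ δ * gg D u + 9 * u + B * rr D u := by positivity
      have hEg : E ≤ Real.exp (-gg D u) := Real.exp_le_exp.2 (by linarith)
      have hEr : E * rr D u ≤ s :=
        ((mul_comm _ _).trans_le (mul_le_mul_of_nonneg_left hEg hr)).trans (rr_div_le hD hu hu')
      have hE1 : E ≤ 1 := Real.exp_le_one_iff.2 (by linarith)
      have f1 : E * (δ * lam D u * W u) ≤ δ * S₀ * (Real.exp (-gg D u) * lam D u) := by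
        calc E * (δ * lam D u * W u) ≤ Real.exp (-gg D u) * (δ * lam D u * S₀) := by gcongr
          _ = _ := by ring
      have f2 : E * (B * (rr D u * (lam D u + 1 / 2)) * W u) ≤ B * s * S₀ * (lam D u + 1 / 2) := by
        calc E * (B * (rr D u * (lam D u + 1 / 2)) * W u)
            = B * (E * rr D u) * W u * (lam D u + 1 / 2) := by ring
          _ ≤ _ := by gcongr
      have f3 : E * K ≤ K := mul_le_of_le_one_left hK hE1
      linarith
    · refine HasDerivAt.congr_deriv ((((e1.mul hd).add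
        ((hg.neg.exp).const_mul (δ * S₀))).sub
          ((hg.add ((hasDerivAt_id u).div_const 2)).const_mul (B * s * S₀))).sub
            ((hasDerivAt_id u).const_mul K)) ?_
      simp [hE]
  have e0 : gg D 0 = 0 := by simp [gg]
  have hr := (rr_pos hD le_rfl).le
  have h2 : Real.exp (-(B * rr D 0)) ≤ 1 :=
    Real.exp_le_one_iff.2 (by have := mul_nonneg hB hr; linarith)
  have hS : 0 ≤ S₀ := (hW0 0 le_rfl).trans (hW 0 le_rfl (h0.trans h1))
  have h3 : 0 ≤ δ * S₀ * Real.exp (-gg D t) := by positivity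
  have h4 := mul_le_mul_of_nonneg_right h2 hZ0
  have h5 : B * rr D 0 = (1 + δ) * gg D 0 + 9 * 0 + B * rr D 0 := by rw [e0]; ring
  simp only [hφ] at key
  rw [← h5, e0, neg_zero, Real.exp_zero, zero_div, add_zero, mul_zero, mul_zero, sub_zero,
    sub_zero, mul_one] at key
  linarith

/-- The number of alive points follows `m exp (-G)`. -/
theorem count_follow {T e : ℝ} (hD : 0 < D) (he : 0 < e) {f Z W : ℝ → ℝ} {A S₀ : ℝ}
    (hf : ∀ t, 0 ≤ t → t ≤ T → ∃ z, HasDerivAt f (-(lam D t * (f t + z))) t ∧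
      |z| ≤ e * f t + 48 / e * (Z t + W t))
    (hf0 : ∀ t, 0 ≤ t → 0 ≤ f t)
    (hA : ∀ t, 0 ≤ t → t ≤ T → Z t ≤ A * Real.exp (gg D t))
    (hW : ∀ t, 0 ≤ t → t ≤ T → W t ≤ S₀) (hA0 : 0 ≤ A) (hS : 0 ≤ S₀) (hT : 0 ≤ T) :
    |Real.exp (gg D T) * f T - f 0| ≤
      e * gg D T * (Real.exp (e * gg D T) * (f 0 + 48 / e * (A * D * T + S₀ * Real.exp (gg D T))))
        + 48 / e * (A * D * T + S₀ * Real.exp (gg D T)) := by
  set h : ℝ → ℝ := fun u => Real.exp (gg D u) * f u with hh
  set R : ℝ → ℝ := fun u => 48 / e * (A * D * u + S₀ * Real.exp (gg D u)) with hR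
  have e0 : gg D 0 = 0 := by simp [gg]
  have hh0 : h 0 = f 0 := by simp [hh, e0]
  have hd : ∀ u, 0 ≤ u → u ≤ T → ∃ d, HasDerivAt h d u ∧
      HasDerivAt R (48 / e * (A * D * 1 + S₀ * (Real.exp (gg D u) * lam D u))) u ∧
      |d| ≤ e * lam D u * h u + 48 / e * (A * D * 1 + S₀ * (Real.exp (gg D u) * lam D u)) := by
    intro u hu hu'
    obtain ⟨z, hz, hb⟩ := hf u hu hu'
    have hg := gg_deriv hD hu
    refine ⟨-(Real.exp (gg D u) * lam D u * z), ?_, ?_, ?_⟩
    · exact (hg.exp.mul hz).congr_deriv (by ring)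
    · exact ((((hasDerivAt_id u).const_mul (A * D)).add (hg.exp.const_mul S₀)).const_mul (48 / e))
    · have hΛ := (lam_pos hD hu).le
      have hL := Real.exp_pos (gg D u)
      rw [abs_neg, abs_mul, abs_of_nonneg (mul_nonneg hL.le hΛ)]
      refine (mul_le_mul_of_nonneg_left hb (mul_nonneg hL.le hΛ)).trans ?_
      have h1 : Real.exp (gg D u) * lam D u * Z u ≤ A * D * 1 := by
        calc Real.exp (gg D u) * lam D u * Z u
            ≤ Real.exp (gg D u) * lam D u * (A * Real.exp (gg D u)) :=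
              mul_le_mul_of_nonneg_left (hA u hu hu') (mul_nonneg hL.le hΛ)
          _ = A * (Real.exp (gg D u) ^ 2 * lam D u) := by ring
          _ ≤ A * (D * 1) := by
              rw [exp_gg_sq_lam hD hu]
              exact mul_le_mul_of_nonneg_left (mul_le_mul_of_nonneg_left
                (Real.exp_le_one_iff.2 (by linarith)) hD.le) hA0
          _ = _ := by ring
      have h2 : Real.exp (gg D u) * lam D u * W u ≤ S₀ * (Real.exp (gg D u) * lam D u) := by
        rw [mul_comm S₀]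
        exact mul_le_mul_of_nonneg_left (hW u hu hu') (mul_nonneg hL.le hΛ)
      calc Real.exp (gg D u) * lam D u * (e * f u + 48 / e * (Z u + W u))
          = e * lam D u * h u + 48 / e * (Real.exp (gg D u) * lam D u * Z u
              + Real.exp (gg D u) * lam D u * W u) := by rw [hh]; ring
        _ ≤ _ := by gcongr
  set P := Real.exp (e * gg D T) * (f 0 + R T) with hP
  have hmono : ∀ u, 0 ≤ u → u ≤ T → gg D u ≤ gg D T := fun u hu hu' => by
    refine div_le_div_of_nonneg_right (Real.log_le_log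
      (by linarith [den_pos hD.le hu]) ?_) two_pos.le
    have : Real.exp (-T) ≤ Real.exp (-u) := Real.exp_le_exp.2 (by linarith)
    nlinarith
  have hP0 : ∀ u, 0 ≤ u → u ≤ T → h u ≤ P := by
    intro u hu hu'
    have key : Real.exp (-(e * gg D u)) * h u - R u ≤
        Real.exp (-(e * gg D 0)) * h 0 - R 0 := by
      refine le_start (φ := fun v => Real.exp (-(e * gg D v)) * h v - R v) (T := T)
        (fun v hv hv' => ?_) hu hu'
      obtain ⟨d, d1, d2, d3⟩ := hd v hv hv'
      refine ⟨_, ?_, ((((gg_deriv hD hv).const_mul e).neg.exp).mul d1).sub d2⟩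
      have hE : Real.exp (-(e * gg D v)) ≤ 1 :=
        Real.exp_le_one_iff.2 (by have := gg_nonneg hD.le hv; nlinarith)
      have h4 := (le_abs_self d).trans d3
      have hΛ := (lam_pos hD hv).le
      have h5 : 0 ≤ 48 / e * (A * D * 1 + S₀ * (Real.exp (gg D v) * lam D v)) := by positivity
      have h6 := mul_le_mul_of_nonneg_left h4 (Real.exp_nonneg (-(e * gg D v)))
      have h7 := mul_le_of_le_one_left h5 hE
      simp only [Pi.neg_apply]
      linarith
    have hR0 : 0 ≤ R 0 := by simp only [hR, e0]; positivity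
    have hRu : R u ≤ R T := by
      simp only [hR]
      gcongr
      exact hmono u hu hu'
    rw [e0, mul_zero, neg_zero, Real.exp_zero, one_mul, hh0] at key
    calc h u = Real.exp (e * gg D u) * (Real.exp (-(e * gg D u)) * h u) := by
          rw [← mul_assoc, ← Real.exp_add, add_neg_cancel, Real.exp_zero, one_mul]
      _ ≤ Real.exp (e * gg D u) * (f 0 + R T) :=
          mul_le_mul_of_nonneg_left (by linarith) (Real.exp_nonneg _)
      _ ≤ P := by
          refine mul_le_mul_of_nonneg_right (Real.exp_le_exp.2 ?_) ?_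
          · exact mul_le_mul_of_nonneg_left (hmono u hu hu') he.le
          · have := hf0 0 le_rfl
            have : 0 ≤ R T := by simp only [hR]; positivity
            linarith
  have up : h T - e * P * gg D T - R T ≤ h 0 - e * P * gg D 0 - R 0 := by
    refine le_start (φ := fun v => h v - e * P * gg D v - R v) (T := T) (fun v hv hv' => ?_) hT le_rfl
    obtain ⟨d, d1, d2, d3⟩ := hd v hv hv'
    refine ⟨_, ?_, (d1.sub ((gg_deriv hD hv).const_mul (e * P))).sub d2⟩
    have := mul_le_mul_of_nonneg_left (hP0 v hv hv') (mul_nonneg he.le (lam_pos hD hv).le)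
    linarith [le_abs_self d]
  have down : -h T - e * P * gg D T - R T ≤ -h 0 - e * P * gg D 0 - R 0 := by
    refine le_start (φ := fun v => -h v - e * P * gg D v - R v) (T := T) (fun v hv hv' => ?_) hT le_rfl
    obtain ⟨d, d1, d2, d3⟩ := hd v hv hv'
    refine ⟨_, ?_, (d1.neg.sub ((gg_deriv hD hv).const_mul (e * P))).sub d2⟩
    have := mul_le_mul_of_nonneg_left (hP0 v hv hv') (mul_nonneg he.le (lam_pos hD hv).le)
    linarith [neg_le_abs d]
  have hR0 : 0 ≤ R 0 := by simp only [hR, e0]; positivity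
  rw [e0, mul_zero, sub_zero, hh0] at up down
  refine abs_le.2 ⟨?_, ?_⟩ <;>
  · simp only [hP, hR, hh] at up down hR0 ⊢
    linarith

end Vale.Agent.P046.Limit
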