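import Vale.Agent.P046.Limit.CalcStep

/-! P046, the limit constant: `CalcStmt` from `DriftStmt`. -/

open Finset Filter Topology

namespace Vale.Agent.P046.Limit

/-- The smallness conditions on `b = cap D ^ (1/16)`. -/
structure Small (C D b : ℝ) : Prop where
  one : 1 ≤ D
  pos : 0 < b
  cap_eq : Sharp.cap D = b ^ 16
  capsmall : Sharp.cap D ≤ 1 / 1000
  bsmall : b ^ 2 ≤ 1 / 10
  csmall : 2 * C * b ^ 4 ≤ 1 / 2
  root : 1 / Real.sqrt D ≤ b ^ 5
  log : ∀ t, 0 ≤ t → b * gg D t ≤ 1200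

theorem small_exists (C : ℝ) : ∃ D₀ : ℝ, ∀ D, D₀ ≤ D → Small C D (Sharp.cap D ^ (1 / 16 : ℝ)) := by
  have h0 : Tendsto Sharp.cap atTop (𝓝 0) :=
    tendsto_rpow_neg_atTop (show (0 : ℝ) < 1 / 50 by norm_num)
  have hb : Tendsto (fun D => Sharp.cap D ^ (1 / 16 : ℝ)) atTop (𝓝 0) := by
    have := h0.rpow_const (p := (1 / 16 : ℝ)) (Or.inr (by norm_num))
    simpa [Real.zero_rpow (show (1 / 16 : ℝ) ≠ 0 by norm_num)] using this
  have h1 := h0.eventually_le_const (show (0 : ℝ) < 1 / 1000 by norm_num)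
  have h2 := (hb.pow 2).eventually_le_const (show (0 : ℝ) ^ 2 < 1 / 10 by norm_num)
  have h3 := ((hb.pow 4).const_mul (2 * C)).eventually_le_const
    (show 2 * C * (0 : ℝ) ^ 4 < 1 / 2 by norm_num)
  obtain ⟨D₀, hD₀⟩ := eventually_atTop.1 (h1.and (h2.and (h3.and (eventually_ge_atTop (1 : ℝ)))))
  refine ⟨D₀, fun D hD => ?_⟩
  obtain ⟨c1, c2, c3, c4⟩ := hD₀ D hD
  have hD0 : 0 < D := by linarith
  have eb : Sharp.cap D ^ (1 / 16 : ℝ) = D ^ (-(1 / 800) : ℝ) := by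
    rw [Sharp.cap, ← Real.rpow_mul hD0.le]
    norm_num
  refine ⟨c4, Real.rpow_pos_of_pos (Sharp.cap_pos hD0) _, ?_, c1, c2, c3, ?_, fun t ht => ?_⟩
  · rw [← Real.rpow_natCast, ← Real.rpow_mul (Sharp.cap_pos hD0).le]
    norm_num
  · rw [eb, ← Real.rpow_natCast, ← Real.rpow_mul hD0.le, Real.sqrt_eq_rpow, one_div,
      ← Real.rpow_neg hD0.le]
    exact Real.rpow_le_rpow_of_exponent_le c4 (by norm_num)
  · have hlog := Real.log_le_rpow_div (show 0 ≤ 3 * D by linarith)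
      (show (0 : ℝ) < 1 / 800 by norm_num)
    have hsplit : (3 * D) ^ (1 / 800 : ℝ) ≤ 3 * D ^ (1 / 800 : ℝ) := by
      rw [Real.mul_rpow (by norm_num) hD0.le]
      refine mul_le_mul_of_nonneg_right ?_ (Real.rpow_nonneg hD0.le _)
      calc (3 : ℝ) ^ (1 / 800 : ℝ) ≤ 3 ^ (1 : ℝ) :=
            Real.rpow_le_rpow_of_exponent_le (by norm_num) (by norm_num)
        _ = 3 := Real.rpow_one 3
    have hg := gg_le c4 ht
    have e1 : D ^ (-(1 / 800) : ℝ) * D ^ (1 / 800 : ℝ) = 1 := by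
      rw [← Real.rpow_add hD0]; norm_num
    rw [eb]
    have hp := Real.rpow_nonneg hD0.le (-(1 / 800) : ℝ)
    have h5 : gg D t ≤ 1200 * D ^ (1 / 800 : ℝ) := by
      rw [le_div_iff₀ (by norm_num : (0 : ℝ) < 1 / 800)] at hlog
      linarith
    calc D ^ (-(1 / 800) : ℝ) * gg D t ≤ D ^ (-(1 / 800) : ℝ) * (1200 * D ^ (1 / 800 : ℝ)) :=
          mul_le_mul_of_nonneg_left h5 hp
      _ = 1200 := by rw [mul_comm (1200 : ℝ), ← mul_assoc, e1, one_mul]

/-- The conversion to `1/√(2D)`. -/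
theorem norm_conv {D T : ℝ} (hD : 1 ≤ D) (hT : 1 ≤ T) :
    Real.sqrt D ≤ Real.exp (gg D T) ∧ Real.exp (gg D T) ≤ 2 * Real.sqrt D ∧
      |(Real.exp (gg D T))⁻¹ - (Real.sqrt (2 * D))⁻¹| ≤
        (2 * Real.exp (-T) + 1 / D) / Real.sqrt D := by
  set L := Real.exp (gg D T) with hL
  have hL0 : 0 < L := Real.exp_pos _
  have e := exp_gg (show 0 ≤ D by linarith) (show 0 ≤ T by linarith)
  rw [← hL] at e
  have hT0 := Real.exp_pos (-T)
  have hhalf : Real.exp (-T) ≤ 1 / 2 := by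
    refine (Real.exp_le_exp.2 (show -T ≤ -1 by linarith)).trans ?_
    rw [Real.exp_neg, inv_le_comm₀ (Real.exp_pos 1) (by norm_num)]
    have := Real.add_one_le_exp (1 : ℝ)
    norm_num
    linarith
  have hs0 : 0 < Real.sqrt D := Real.sqrt_pos.2 (by linarith)
  have hsD := Real.mul_self_sqrt (show 0 ≤ D by linarith)
  have l1 : Real.sqrt D ≤ L := by
    rw [Real.sqrt_le_left hL0.le, e]
    nlinarith
  have l2 : L ≤ 2 * Real.sqrt D := by
    refine (Real.le_sqrt_of_sq_le (le_refl (L ^ 2))).trans ?_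
    rw [Real.sqrt_le_left (by positivity), e, mul_pow, Real.sq_sqrt (by linarith)]
    nlinarith
  refine ⟨l1, l2, ?_⟩
  set S := Real.sqrt (2 * D) with hS
  have hS0 : 0 < S := Real.sqrt_pos.2 (by linarith)
  have hS2 : S * S = 2 * D := Real.mul_self_sqrt (by linarith)
  have hS1 : Real.sqrt D ≤ S := Real.sqrt_le_sqrt (by linarith)
  rw [inv_sub_inv hL0.ne' hS0.ne', abs_div, abs_of_pos (mul_pos hL0 hS0)]
  have hdiff : |S - L| * Real.sqrt D ≤ 2 * D * Real.exp (-T) + 1 := by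
    calc |S - L| * Real.sqrt D ≤ |S - L| * (S + L) :=
          mul_le_mul_of_nonneg_left (by linarith) (abs_nonneg _)
      _ = |S * S - L ^ 2| := by
          rw [← abs_of_pos (show 0 < S + L by linarith), ← abs_mul]
          ring_nf
      _ ≤ _ := by
          rw [hS2, e, abs_le]
          constructor <;> nlinarith
  have h4 : D ≤ L * S := by
    calc D = Real.sqrt D * Real.sqrt D := hsD.symm
      _ ≤ L * S := mul_le_mul l1 hS1 hs0.le hL0.le
  rw [div_le_div_iff₀ (mul_pos hL0 hS0) hs0]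
  refine hdiff.trans ?_
  calc 2 * D * Real.exp (-T) + 1 = (2 * Real.exp (-T) + 1 / D) * D := by field_simp
    _ ≤ _ := mul_le_mul_of_nonneg_left h4 (by positivity)

/-- The start of the combined potential and the forcing, in units of the seed. -/
theorem init_le {C D b T t κ B δ K Rm Hη m sq0 p₀ v₀ E₀ Z₀ Bk Q C₁ : ℝ}
    (hC₁ : C₁ = 1 + 10 * κ + 48 * κ + (2 * C + 1) + B * Real.sqrt (Real.exp T) * (1200 + T)
      + (2 * C * Rm ^ 2 + κ * C * Rm ^ 5) * T + 2 * κ)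
    (hKdef : K = (2 * C * Rm ^ 2 + κ * C * Rm ^ 5) * Hη) (hδdef : δ = (2 * C + 1) * b ^ 4)
    (hBk : Bk = p₀ + v₀ / b ^ 12 + b ^ 4 * sq0) (hQdef : Q = Bk + m / (D * Real.sqrt D) + Hη)
    (hZ0def : Z₀ = p₀ + v₀ / b ^ 12 + κ * ((Real.sqrt D)⁻¹ ^ 5 * E₀))
    (eE : E₀ ≤ D * (2 * m + 10 * p₀ + 48 * sq0)) (hD0 : 0 < D) (hT : 1 ≤ T) (hC1 : 1 ≤ C)
    (hκ : 0 < κ) (hB : 0 < B) (hRm : 0 ≤ Rm) (hb : 0 < b) (hb1 : b ≤ 1)
    (hroot : 1 / Real.sqrt D ≤ b ^ 5) (hDs : 1 / (D * Real.sqrt D) ≤ 1 / Real.sqrt D)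
    (hlog : ∀ u, 0 ≤ u → b * gg D u ≤ 1200)
    (hpsi : 0 ≤ p₀) (htq : 0 ≤ v₀) (hm0 : 0 ≤ m) (hsq0 : 0 ≤ sq0) (hη0 : 0 ≤ Hη)
    (ht : 0 ≤ t) (htT : t ≤ T) :
    Z₀ + δ * sq0 + B * Real.sqrt (Real.exp T / D) * sq0 * (gg D t + t / 2) + K * t ≤ C₁ * Q := by
  have hsD : 0 < Real.sqrt D := Real.sqrt_pos.2 hD0
  have r54 : b ^ 5 ≤ b ^ 4 := pow_le_pow_of_le_one hb.le hb1 (by norm_num)
  have hT0 : 0 ≤ T := by linarith
  have hC0 : 0 ≤ C := by linarith
  have e1 : Z₀ ≤ (1 + 10 * κ + 48 * κ + 2 * κ) * Q := by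
    have h5 : (Real.sqrt D)⁻¹ ^ 5 * E₀ ≤
        1 / (D * Real.sqrt D) * (2 * m + 10 * p₀ + 48 * sq0) := by
      calc (Real.sqrt D)⁻¹ ^ 5 * E₀
          ≤ (Real.sqrt D)⁻¹ ^ 5 * (D * (2 * m + 10 * p₀ + 48 * sq0)) :=
            mul_le_mul_of_nonneg_left eE (by positivity)
        _ = _ := by
            have e : (Real.sqrt D)⁻¹ ^ 5 * D = 1 / (D * Real.sqrt D) := by
              rw [eq_div_iff (mul_pos hD0 hsD).ne']
              calc (Real.sqrt D)⁻¹ ^ 5 * D * (D * Real.sqrt D)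
                  = (Real.sqrt D)⁻¹ ^ 5 * (Real.sqrt D * Real.sqrt D) *
                      (Real.sqrt D * Real.sqrt D * Real.sqrt D) := by
                    rw [Real.mul_self_sqrt hD0.le]
                _ = ((Real.sqrt D)⁻¹ * Real.sqrt D) ^ 5 := by ring
                _ = 1 := by rw [inv_mul_cancel₀ hsD.ne', one_pow]
            rw [← mul_assoc, e]
    have h6 : 1 / (D * Real.sqrt D) * sq0 ≤ b ^ 4 * sq0 :=
      mul_le_mul_of_nonneg_right (by linarith) hsq0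
    have h7 : 1 / (D * Real.sqrt D) * p₀ ≤ p₀ :=
      mul_le_of_le_one_left hpsi (by linarith [pow_le_one₀ (n := 5) hb.le hb1])
    have h8 := mul_le_mul_of_nonneg_left h5 hκ.le
    have h9 := mul_le_mul_of_nonneg_left h6 hκ.le
    have h10 := mul_le_mul_of_nonneg_left h7 hκ.le
    have h11 : 0 ≤ v₀ / b ^ 12 := by positivity
    have h12 : 0 ≤ m / (D * Real.sqrt D) := by positivity
    have h13 : 0 ≤ κ * (v₀ / b ^ 12) := by positivity
    have h14 : 0 ≤ κ * Hη := by positivity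
    have h15 : 0 ≤ κ * (m / (D * Real.sqrt D)) := by positivity
    have h16 : 0 ≤ b ^ 4 * sq0 := by positivity
    have h17 : 0 ≤ κ * (b ^ 4 * sq0) := by positivity
    have h18 : 0 ≤ κ * p₀ := by positivity
    have e3 : m / (D * Real.sqrt D) = 1 / (D * Real.sqrt D) * m := by ring
    rw [hQdef, hBk, hZ0def] at *
    rw [e3] at h12 h15 ⊢
    generalize 1 / (D * Real.sqrt D) = u at *
    generalize v₀ / b ^ 12 = v at *
    linarith
  have e2 : Real.sqrt (Real.exp T / D) * (gg D t + t / 2) ≤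
      Real.sqrt (Real.exp T) * (1200 + T) * b ^ 4 := by
    rw [Real.sqrt_div' _ hD0.le, div_eq_mul_one_div, mul_assoc, mul_assoc]
    refine mul_le_mul_of_nonneg_left ?_ (Real.sqrt_nonneg _)
    have hg := gg_nonneg hD0.le ht
    calc 1 / Real.sqrt D * (gg D t + t / 2) ≤ b ^ 5 * (gg D t + T) :=
          mul_le_mul hroot (by linarith) (by linarith) (by positivity)
      _ = b ^ 4 * (b * gg D t) + b ^ 5 * T := by ring
      _ ≤ b ^ 4 * 1200 + b ^ 4 * T :=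
          add_le_add (mul_le_mul_of_nonneg_left (hlog t ht) (by positivity))
            (mul_le_mul_of_nonneg_right r54 (by linarith))
      _ = _ := by ring
  have h19 : b ^ 4 * sq0 ≤ Q := by
    have : 0 ≤ v₀ / b ^ 12 := by positivity
    have : 0 ≤ m / (D * Real.sqrt D) := by positivity
    rw [hQdef, hBk]
    linarith
  have h20 : Hη ≤ Q := by
    have : 0 ≤ Bk := by rw [hBk]; positivity
    have : 0 ≤ m / (D * Real.sqrt D) := by positivity
    rw [hQdef]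
    linarith
  have e4 : δ * sq0 ≤ (2 * C + 1) * Q := by
    rw [hδdef, mul_assoc]; exact mul_le_mul_of_nonneg_left h19 (by linarith)
  have e5 : B * Real.sqrt (Real.exp T / D) * sq0 * (gg D t + t / 2) ≤
      B * Real.sqrt (Real.exp T) * (1200 + T) * Q := by
    calc B * Real.sqrt (Real.exp T / D) * sq0 * (gg D t + t / 2)
        = B * sq0 * (Real.sqrt (Real.exp T / D) * (gg D t + t / 2)) := by ring
      _ ≤ B * sq0 * (Real.sqrt (Real.exp T) * (1200 + T) * b ^ 4) :=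
          mul_le_mul_of_nonneg_left e2 (by positivity)
      _ = B * Real.sqrt (Real.exp T) * (1200 + T) * (b ^ 4 * sq0) := by ring
      _ ≤ _ := mul_le_mul_of_nonneg_left h19 (by positivity)
  have e6 : K * t ≤ (2 * C * Rm ^ 2 + κ * C * Rm ^ 5) * T * Q := by
    calc K * t ≤ K * T := mul_le_mul_of_nonneg_left htT (by rw [hKdef]; positivity)
      _ = (2 * C * Rm ^ 2 + κ * C * Rm ^ 5) * T * Hη := by rw [hKdef]; ring
      _ ≤ _ := mul_le_mul_of_nonneg_left h20 (by positivity)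
  rw [hC₁]
  linarith

/-- The seeds dominate the error terms. -/
theorem seed_bounds {D b m sq0 Bk Q Y₀ Hη : ℝ} (hD1 : 1 ≤ D) (hb : 0 < b) (hb1 : b ≤ 1)
    (hroot : 1 / Real.sqrt D ≤ b ^ 5) (hBk0' : 0 ≤ Bk)
    (hQdef : Q = Bk + m / (D * Real.sqrt D) + Hη)
    (hη0 : 0 ≤ Hη) (hm0 : 0 ≤ m) (hsq0 : 0 ≤ sq0) (hsqB : b ^ 4 * sq0 ≤ Bk)
    (hY₀ : Y₀ = Real.sqrt D * Bk / b ^ 2 + b * (m / Real.sqrt D) + D ^ 2 * Hη) :
    Real.sqrt D * Q / b ^ 2 ≤ Y₀ ∧ sq0 / b ^ 2 ≤ Y₀ ∧ 0 ≤ Y₀ ∧ b * (m / Real.sqrt D) ≤ Y₀ := by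
  have hD0 : 0 < D := by linarith
  have hsD : 0 < Real.sqrt D := Real.sqrt_pos.2 hD0
  have r54 : b ^ 5 ≤ b ^ 4 := pow_le_pow_of_le_one hb.le hb1 (by norm_num)
  have hBk0 : 0 ≤ Bk := by positivity
  have hbm : 0 ≤ b * (m / Real.sqrt D) := by positivity
  have hsB : 0 ≤ Real.sqrt D * Bk / b ^ 2 := by positivity
  have hD2H : 0 ≤ D ^ 2 * Hη := by positivity
  have hY0 : 0 ≤ Y₀ := by rw [hY₀]; positivity
  have hroot2 : 1 / Real.sqrt D ≤ b ^ 3 :=
    hroot.trans (pow_le_pow_of_le_one hb.le hb1 (by norm_num))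
  have hbD : 1 ≤ Real.sqrt D * b ^ 2 := by
    have h := hroot.trans (pow_le_pow_of_le_one hb.le hb1 (show 2 ≤ 5 by norm_num))
    rw [div_le_iff₀ hsD] at h
    linarith
  have hbD4 : 1 ≤ Real.sqrt D * b ^ 4 := by
    have h := hroot.trans r54
    rw [div_le_iff₀ hsD] at h
    linarith
  have k1 : Real.sqrt D * Q / b ^ 2 ≤ Y₀ := by
    have h1 : Real.sqrt D * (m / (D * Real.sqrt D)) / b ^ 2 ≤ b * (m / Real.sqrt D) := by
      calc Real.sqrt D * (m / (D * Real.sqrt D)) / b ^ 2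
          = 1 / Real.sqrt D * (m / Real.sqrt D) / b ^ 2 := by
            have hx : Real.sqrt D * Real.sqrt D = D := Real.mul_self_sqrt hD0.le
            rw [show D * Real.sqrt D = Real.sqrt D * Real.sqrt D * Real.sqrt D by rw [hx]]
            field_simp
        _ ≤ b ^ 3 * (m / Real.sqrt D) / b ^ 2 := by gcongr
        _ = _ := by field_simp
    have h2 : Real.sqrt D * Hη / b ^ 2 ≤ D ^ 2 * Hη := by
      rw [div_le_iff₀ (by positivity)]
      calc Real.sqrt D * Hη = Real.sqrt D * Hη * 1 := (mul_one _).symm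
        _ ≤ Real.sqrt D * Hη * (Real.sqrt D * b ^ 2) :=
            mul_le_mul_of_nonneg_left hbD (by positivity)
        _ = Real.sqrt D * Real.sqrt D * (Hη * b ^ 2) := by ring
        _ = D * (Hη * b ^ 2) := by rw [Real.mul_self_sqrt hD0.le]
        _ ≤ D ^ 2 * (Hη * b ^ 2) :=
            mul_le_mul_of_nonneg_right (by nlinarith) (by positivity)
        _ = _ := by ring
    rw [hQdef, hY₀, mul_add, mul_add, add_div, add_div]
    linarith
  have k2 : sq0 / b ^ 2 ≤ Y₀ := by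
    have h1 : sq0 ≤ Real.sqrt D * Bk := by
      calc sq0 ≤ Real.sqrt D * b ^ 4 * sq0 := le_mul_of_one_le_left hsq0 hbD4
        _ = Real.sqrt D * (b ^ 4 * sq0) := by ring
        _ ≤ _ := by
            exact mul_le_mul_of_nonneg_left hsqB hsD.le
    have := div_le_div_of_nonneg_right h1 (pow_nonneg hb.le 2)
    rw [hY₀]
    linarith
  exact ⟨k1, k2, hY0, by rw [hY₀]; linarith⟩

/-- The blocks alive at the final time. -/
theorem tail_bound {D T b L sq0 Q Y₀ C₁ C₂ C₄ fT UT ZT WT Sz Sc : ℝ}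
    (hC₁0 : 0 ≤ C₁) (hC₂0 : 0 ≤ C₂) (hC₄ : C₄ = 48 * (C₁ * C₂ * (T + 2) + 2))
    (hT : 1 ≤ T) (hD0 : 0 < D) (hb : 0 < b) (hb2 : b ^ 2 ≤ 1 / 10)
    (l2 : L ≤ 2 * Real.sqrt D) (hΛT : lam D T ≤ Real.exp (-T)) (hQ0 : 0 ≤ Q)
    (k1 : Real.sqrt D * Q / b ^ 2 ≤ Y₀) (k2 : sq0 / b ^ 2 ≤ Y₀) (hY0 : 0 ≤ Y₀)
    (hfn : 0 ≤ fT) (hUZ : UT ≤ ZT) (hU0 : 0 ≤ UT) (hW0 : 0 ≤ WT)
    (hZb : ZT ≤ C₁ * C₂ * Q * L) (hW1 : WT ≤ sq0)
    (e1 : Sc = lam D T * Sz) (e2 : |Sz - fT| ≤ b ^ 2 * fT + 48 / b ^ 2 * (UT + WT)) :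
    Sc ≤ Real.exp (-T) * (2 * fT) + C₄ * Y₀ := by
  rw [e1]
  have h1 : Sz ≤
      2 * fT + 48 / b ^ 2 * (ZT + WT) := by
    have h2 := (abs_le.1 e2).2
    have h3 : b ^ 2 * fT ≤ 1 * fT :=
      mul_le_mul_of_nonneg_right (by linarith [hb2]) hfn
    have h4 : 48 / b ^ 2 * (UT + WT) ≤ 48 / b ^ 2 * (ZT + WT) := by
      gcongr
    linarith
  have h6 := lam_pos hD0 (show 0 ≤ T by linarith)
  have h7 : 0 ≤ ZT + WT := by
    have := hUZ; have := hU0; have := hW0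
    linarith
  calc lam D T * _ ≤ lam D T * (2 * fT + 48 / b ^ 2 * (ZT + WT)) :=
        mul_le_mul_of_nonneg_left h1 h6.le
    _ ≤ Real.exp (-T) * (2 * fT) + 1 * (48 / b ^ 2 * (ZT + WT)) := by
        rw [mul_add]
        refine add_le_add (mul_le_mul_of_nonneg_right hΛT ?_) (mul_le_mul_of_nonneg_right ?_ ?_)
        · linarith [hfn]
        · exact hΛT.trans (Real.exp_le_one_iff.2 (by linarith))
        · positivity
    _ ≤ _ := by
        refine add_le_add le_rfl ?_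
        rw [one_mul, hC₄]
        have h8 := hZb
        have h9 := hW1
        calc 48 / b ^ 2 * (ZT + WT)
            ≤ 48 / b ^ 2 * (C₁ * C₂ * Q * (2 * Real.sqrt D) + sq0) := by
              gcongr
              exact h8.trans (mul_le_mul_of_nonneg_left l2 (by positivity))
          _ = 48 * (C₁ * C₂ * 2) * (Real.sqrt D * Q / b ^ 2) + 48 * (sq0 / b ^ 2) := by ring
          _ ≤ 48 * (C₁ * C₂ * 2) * Y₀ + 48 * Y₀ := by gcongr
          _ ≤ _ := by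
              have : 0 ≤ C₁ * C₂ * T * Y₀ := by
                have : 0 ≤ T := by linarith
                positivity
              linarith

/-- The last scalar step: the count and the tail at the final time. -/
theorem count_real {D T b L m sq0 Bk Q Y₀ Hη C₁ C₂ C₃ C₄ fT UT ZT WT Sz Sc : ℝ}
    (hC₁0 : 0 ≤ C₁) (hC₂0 : 0 ≤ C₂) (hC₃ : C₃ = 1200 * Real.exp 1200 + 1)
    (hC₄ : C₄ = 48 * (C₁ * C₂ * (T + 2) + 2))
    (hT : 1 ≤ T) (hD1 : 1 ≤ D) (hb : 0 < b) (hb1 : b ≤ 1) (hb2 : b ^ 2 ≤ 1 / 10)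
    (hroot : 1 / Real.sqrt D ≤ b ^ 5) (hlogT : b * gg D T ≤ 1200)
    (hLdef : L = Real.exp (gg D T))
    (hBk0' : 0 ≤ Bk) (hQ0 : 0 ≤ Q) (hQdef : Q = Bk + m / (D * Real.sqrt D) + Hη)
    (hη0 : 0 ≤ Hη) (hm0 : 0 ≤ m) (hsq0 : 0 ≤ sq0) (hsqB : b ^ 4 * sq0 ≤ Bk)
    (hY₀ : Y₀ = Real.sqrt D * Bk / b ^ 2 + b * (m / Real.sqrt D) + D ^ 2 * Hη)
    (l1 : Real.sqrt D ≤ L) (l2 : L ≤ 2 * Real.sqrt D)
    (l3 : |L⁻¹ - (Real.sqrt (2 * D))⁻¹| ≤ (2 * Real.exp (-T) + 1 / D) / Real.sqrt D)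
    (hX : |L * fT - m| ≤ b ^ 2 * gg D T * (Real.exp (b ^ 2 * gg D T) *
        (m + 48 / b ^ 2 * (C₁ * C₂ * Q * D * T + sq0 * L)))
        + 48 / b ^ 2 * (C₁ * C₂ * Q * D * T + sq0 * L))
    (hfn : 0 ≤ fT) (hUZ : UT ≤ ZT) (hU0 : 0 ≤ UT) (hW0 : 0 ≤ WT)
    (hZb : ZT ≤ C₁ * C₂ * Q * L) (hW1 : WT ≤ sq0)
    (e1 : Sc = lam D T * Sz) (e2 : |Sz - fT| ≤ b ^ 2 * fT + 48 / b ^ 2 * (UT + WT)) :
    |fT - m / Real.sqrt (2 * D)| + Sc ≤
      4 * (Real.exp (-T) + 1 / D) * (m / Real.sqrt D) + (C₃ * (C₄ + 1) * 3 + C₄) * Y₀ := by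
  have hD0 : 0 < D := by linarith
  have hsD : 0 < Real.sqrt D := Real.sqrt_pos.2 hD0
  have r54 : b ^ 5 ≤ b ^ 4 := pow_le_pow_of_le_one hb.le hb1 (by norm_num)
  obtain ⟨X, hXdef⟩ : ∃ x : ℝ, x = 48 / b ^ 2 * (C₁ * C₂ * Q * D * T + sq0 * L) := ⟨_, rfl⟩
  rw [← hXdef] at hX
  obtain ⟨k1, k2, hY0, k3⟩ := seed_bounds hD1 hb hb1 hroot hBk0' hQdef hη0 hm0 hsq0 hsqB hY₀
  have hL0 : 0 < L := by rw [hLdef]; exact Real.exp_pos _
  have kX : X / L ≤ C₄ * Y₀ := by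
    rw [hXdef, hC₄]
    have h1 : C₁ * C₂ * Q * D * T / L ≤ C₁ * C₂ * T * (Real.sqrt D * Q) := by
      rw [div_le_iff₀ hL0]
      calc C₁ * C₂ * Q * D * T = C₁ * C₂ * T * (Real.sqrt D * Q) * Real.sqrt D := by
            rw [show C₁ * C₂ * T * (Real.sqrt D * Q) * Real.sqrt D
              = C₁ * C₂ * T * Q * (Real.sqrt D * Real.sqrt D) by ring, Real.mul_self_sqrt hD0.le]
            ring
        _ ≤ _ := mul_le_mul_of_nonneg_left l1 (by positivity)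
    calc 48 / b ^ 2 * (C₁ * C₂ * Q * D * T + sq0 * L) / L
        = 48 / b ^ 2 * (C₁ * C₂ * Q * D * T / L) + 48 * (sq0 / b ^ 2) := by field_simp
      _ ≤ 48 / b ^ 2 * (C₁ * C₂ * T * (Real.sqrt D * Q)) + 48 * (sq0 / b ^ 2) := by gcongr
      _ = 48 * (C₁ * C₂ * T) * (Real.sqrt D * Q / b ^ 2) + 48 * (sq0 / b ^ 2) := by ring
      _ ≤ 48 * (C₁ * C₂ * T) * Y₀ + 48 * Y₀ := by gcongr
      _ ≤ _ := by
          have : 0 ≤ C₁ * C₂ * Y₀ := by positivity
          linarith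
  have hbG : b ^ 2 * gg D T ≤ 1200 * b := by
    calc b ^ 2 * gg D T = b * (b * gg D T) := by ring
      _ ≤ b * 1200 := mul_le_mul_of_nonneg_left hlogT hb.le
      _ = _ := mul_comm _ _
  have hX0 : 0 ≤ X := by rw [hXdef]; positivity
  have kmain : |fT - m / L| ≤ C₃ * (C₄ + 1) * Y₀ := by
    have e1 : fT - m / L = (L * fT - m) / L := by field_simp
    have hg0 := gg_nonneg hD0.le (show 0 ≤ T by linarith)
    have h1 : |L * fT - m| ≤ C₃ * (b * m + X) := by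
      refine hX.trans ?_
      have h2 : Real.exp (b ^ 2 * gg D T) ≤ Real.exp 1200 :=
        Real.exp_le_exp.2 (hbG.trans (by linarith))
      have h3 : b ^ 2 * gg D T * (Real.exp (b ^ 2 * gg D T) * (m + X)) ≤
          1200 * b * (Real.exp 1200 * (m + X)) := by gcongr
      have h4 : b * X ≤ X := mul_le_of_le_one_left hX0 hb1
      have h5 := mul_le_mul_of_nonneg_left h4 (show 0 ≤ 1200 * Real.exp 1200 by positivity)
      have h6 : 0 ≤ b * m := by positivity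
      rw [hC₃]
      linarith
    rw [e1, abs_div, abs_of_pos hL0]
    refine (div_le_div_of_nonneg_right h1 hL0.le).trans ?_
    rw [mul_div_assoc, add_div, mul_assoc C₃]
    refine mul_le_mul_of_nonneg_left ?_ (by rw [hC₃]; positivity)
    have h7 : b * m / L ≤ b * (m / Real.sqrt D) := by
      rw [mul_div_assoc]; gcongr
    have h8 := k3
    linarith
  -- the tail
  
  have hT0 := Real.exp_pos (-T)
  have hΛT : lam D T ≤ Real.exp (-T) := by
    rw [lam, div_le_iff₀ (by linarith [den_pos hD0.le (show 0 ≤ T by linarith)])]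
    have h5 : D ≤ 1 + 2 * D * (1 - Real.exp (-T)) := by
      have h4 := exp_gg hD0.le (show 0 ≤ T by linarith)
      rw [← hLdef] at h4
      have := pow_le_pow_left₀ hsD.le l1 2
      rw [Real.sq_sqrt hD0.le] at this
      linarith
    rw [mul_comm D]
    exact mul_le_mul_of_nonneg_left h5 hT0.le
  have hfT : fT ≤ m / Real.sqrt D + C₃ * (C₄ + 1) * Y₀ := by
    have h1 := (abs_le.1 kmain).2
    have h2 : m / L ≤ m / Real.sqrt D := div_le_div_of_nonneg_left hm0 hsD l1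
    linarith
  have hz := tail_bound hC₁0 hC₂0 hC₄ hT hD0 hb hb2 l2 hΛT hQ0 k1 k2 hY0 hfn hUZ hU0 hW0
    hZb hW1 e1 e2
  have hconv : |m / L - m / Real.sqrt (2 * D)| ≤
      (2 * Real.exp (-T) + 1 / D) * (m / Real.sqrt D) := by
    rw [div_eq_mul_inv m L, div_eq_mul_inv m (Real.sqrt (2 * D)), ← mul_sub, abs_mul,
      abs_of_nonneg hm0]
    exact (mul_le_mul_of_nonneg_left l3 hm0).trans_eq (by ring)
  have hA := abs_sub_le (fT) (m / L) (m / Real.sqrt (2 * D))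
  have hmD : 0 ≤ m / Real.sqrt D := by positivity
  have h10 := mul_le_mul_of_nonneg_left hfT (show 0 ≤ 2 * Real.exp (-T) by positivity)
  have h11 : Real.exp (-T) * (C₃ * (C₄ + 1) * Y₀) ≤ C₃ * (C₄ + 1) * Y₀ :=
    mul_le_of_le_one_left (by rw [hC₃, hC₄]; positivity) (Real.exp_le_one_iff.2 (by linarith))
  have h12 : 0 ≤ 1 / D * (m / Real.sqrt D) := by positivity
  linarith

/-- The potentials at time zero. -/
theorem calc_start_facts {ι : Type*} [DecidableEq ι] {V : Finset ι} {H : Finset (Finset ι)} {D : ℝ}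
    {w : ι → ℝ} {q : ℝ → ι → ℝ} {c : ℝ → Finset ι → ℝ} {η : ℝ → Finset ι → ι → ℝ}
    (hL : Lin V H) (hO : Ode V H q c η) (hD0 : 0 < D) (hw' : ∀ i, |w i| ≤ 1 / 50) :
    potU V H (q 0) (c 0) (lam D 0) w = psi0 V H D w ∧
      potV V H (q 0) (c 0) (lam D 0) w = tq0 V H D w ∧
      potE H (q 0) (c 0) ≤ D * (2 * (V.card : ℝ) + 10 * psi0 V H D w + 48 * ∑ i ∈ V, w i ^ 2) := by
  have hlam0 : lam D 0 = D := by simp [lam]
  have hload0 : ∀ i ∈ V, load H (q 0) (c 0) i = dg H i := fun i hi => by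
    rw [load, hO.q_zero i hi, div_one, dg, ← nsmul_one, ← sum_const]
    exact sum_congr rfl fun k hk => hO.c_zero k (mem_filter.1 hk).1
  have eU : potU V H (q 0) (c 0) (lam D 0) w = psi0 V H D w := by
    simp only [potU, psi0, hlam0]
    exact sum_congr rfl fun i hi => by rw [hO.q_zero i hi, one_mul, ut, zt, hload0 i hi]
  have eV : potV V H (q 0) (c 0) (lam D 0) w = tq0 V H D w := by
    simp only [potV, tq0, hlam0]
    refine sum_congr rfl fun i hi => ?_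
    rw [hO.q_zero i hi, one_mul, xt]
    congr 2
    exact sum_congr rfl fun k hk => by
      rw [bk, hO.q_zero i hi, hO.c_zero k (mem_filter.1 hk).1, div_one, one_mul]
  have eE : potE H (q 0) (c 0) ≤
      D * (2 * (V.card : ℝ) + 10 * psi0 V H D w + 48 * ∑ i ∈ V, w i ^ 2) := by
    have e : potE H (q 0) (c 0) = ∑ i ∈ V, dg H i := by
      simp only [potE]
      rw [show (∑ i ∈ V, dg H i) = ∑ i ∈ V, ∑ _k ∈ blocksAt H i, (1 : ℝ) by simp [dg],
        sum_blocksAt hL, mul_sum]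
      refine sum_congr rfl fun k hk => ?_
      rw [hO.c_zero k hk, one_mul, sum_congr rfl fun i hi => show bk (q 0) (c 0) k i ^ 2 = 1 by
        rw [bk, hO.c_zero k hk, hO.q_zero i (hL.sub k hk hi)]; norm_num]
      simp [hL.card3 k hk]
    rw [e, psi0, show (V.card : ℝ) = ∑ _i ∈ V, (1 : ℝ) by simp, mul_sum, mul_sum, mul_sum,
      ← sum_add_distrib, ← sum_add_distrib, mul_sum]
    refine sum_le_sum fun i _ => ?_
    have h1 : 0 ≤ dg H i / D := div_nonneg (Nat.cast_nonneg _) hD0.le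
    have h2 := Sharp.zeta_le_phi (z := dg H i / D - 1)
    have h3 := Sharp.phi_shift h1 (hw' i)
    calc dg H i = D * (dg H i / D) := by field_simp
      _ ≤ _ := mul_le_mul_of_nonneg_left (by linarith) hD0.le
  exact ⟨eU, eV, eE⟩

/-- The seed in terms of `b`. -/
theorem seed_eq {ι : Type*} [DecidableEq ι] (V : Finset ι) (H : Finset (Finset ι)) {D b : ℝ}
    (w : ι → ℝ) (hD0 : 0 < D) (hb : 0 < b) (hbdef : b = Sharp.cap D ^ (1 / 16 : ℝ)) :
    seed V H D w = Real.sqrt D * (psi0 V H D w + tq0 V H D w / b ^ 12 + b ^ 4 * ∑ i ∈ V, w i ^ 2)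
      / b ^ 2 + b * ((V.card : ℝ) / Real.sqrt D) := by
  have hcp := Sharp.cap_pos hD0
  rw [seed]
  have hx : ∀ x : ℝ, Sharp.cap D ^ x = b ^ (16 * x) := fun x => by
    rw [hbdef, ← Real.rpow_mul hcp.le]; ring_nf
  rw [hx, hx, hx, hx, show (16 : ℝ) * -(1 / 8) = -((2 : ℕ) : ℝ) by norm_num,
    show (16 : ℝ) * -(3 / 4) = -((12 : ℕ) : ℝ) by norm_num,
    show (16 : ℝ) * (1 / 4) = ((4 : ℕ) : ℝ) by norm_num,
    show (16 : ℝ) * (1 / 16) = 1 by norm_num, Real.rpow_neg hb.le, Real.rpow_neg hb.le,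
    Real.rpow_natCast, Real.rpow_natCast, Real.rpow_natCast, Real.rpow_one]
  field_simp

/-- The derivative of the number of alive points. -/
theorem count_deriv {ι : Type*} [DecidableEq ι] {V : Finset ι} {H : Finset (Finset ι)} {D e t Z : ℝ}
    {w : ι → ℝ} {q : ℝ → ι → ℝ} {c : ℝ → Finset ι → ℝ} {η : ℝ → Finset ι → ι → ℝ}
    (hL : Lin V H) (hO : Ode V H q c η) (hD0 : 0 < D) (hw' : ∀ i, |w i| ≤ 1 / 50)
    (he : 0 < e) (he' : e ≤ 1 / 10) (ht : 0 ≤ t)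
    (hUZ : potU V H (q t) (c t) (lam D t) w ≤ Z) :
    ∃ z, HasDerivAt (fun u => ∑ i ∈ V, q u i) (-(lam D t * ((∑ i ∈ V, q t i) + z))) t ∧
      |z| ≤ e * (∑ i ∈ V, q t i) + 48 / e * (Z + potW V (q t) w) := by
  obtain ⟨e1, e2⟩ := deviation (Λ := lam D t) hL (hO.q_pos t ht)
    (fun k hk => (hO.c_pos t ht k hk).le) (lam_pos hD0 ht) hw' he he'
  refine ⟨(∑ i ∈ V, q t i * zt H (q t) (c t) (lam D t) i) - ∑ i ∈ V, q t i, ?_, e2.trans ?_⟩
  · refine (HasDerivAt.fun_sum fun i hi => hO.q_deriv t ht i hi).congr_deriv ?_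
    rw [sum_neg_distrib, sum_blocksAt hL (c t), e1]
    ring
  · gcongr

/-- The combined potential. -/
noncomputable def comb {ι : Type} [DecidableEq ι] (V : Finset ι) (H : Finset (Finset ι))
    (q : ℝ → ι → ℝ) (c : ℝ → Finset ι → ℝ) (w : ι → ℝ) (D b κ t : ℝ) : ℝ :=
  potU V H (q t) (c t) (lam D t) w + potV V H (q t) (c t) (lam D t) w / b ^ 12
    + κ * (rr D t ^ 5 * potE H (q t) (c t))

/-- The four potentials are nonnegative. -/
theorem pots_nonneg {ι : Type} [DecidableEq ι] {V : Finset ι} {H : Finset (Finset ι)}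
    {w : ι → ℝ} {q : ℝ → ι → ℝ} {c : ℝ → Finset ι → ℝ} {η : ℝ → Finset ι → ι → ℝ}
    (hO : Ode V H q c η) (D t : ℝ) (ht : 0 ≤ t) :
    0 ≤ potU V H (q t) (c t) (lam D t) w ∧ 0 ≤ potV V H (q t) (c t) (lam D t) w ∧
      0 ≤ potE H (q t) (c t) ∧ 0 ≤ potW V (q t) w :=
  ⟨sum_nonneg fun i hi => mul_nonneg (hO.q_pos t ht i hi).le (phi_nonneg _),
    sum_nonneg fun i hi => mul_nonneg (hO.q_pos t ht i hi).le (phi_nonneg _),
    sum_nonneg fun k hk => mul_nonneg (hO.c_pos t ht k hk).le (sum_nonneg fun i _ => sq_nonneg _),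
    sum_nonneg fun i hi => mul_nonneg (hO.q_pos t ht i hi).le (sq_nonneg _)⟩

/-- One instant of the growth of the combined potential. -/
theorem z_step {ι : Type} [DecidableEq ι] {V : Finset ι} {H : Finset (Finset ι)}
    {C C' D T b θ κ B δ K Rm Hη t : ℝ} {w : ι → ℝ} {q : ℝ → ι → ℝ} {c : ℝ → Finset ι → ℝ}
    {η : ℝ → Finset ι → ι → ℝ} (hO : Ode V H q c η)
    (hC' : C' ≤ C) (hC1 : 1 ≤ C) (hs : Small C D b) (hb1 : b ≤ 1)
    (hθ : 0 < θ) (hθdef : θ = 1 / (10 ^ 4 * C * Rm)) (hRm : Rm = Real.sqrt (3 * Real.exp T))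
    (hκdef : κ = 2 * C / θ) (hκ : 0 < κ) (hBdef : B = 2 * κ * C + C * θ) (hB : 0 < B)
    (hδdef : δ = (2 * C + 1) * b ^ 4) (hKdef : K = (2 * C * Rm ^ 2 + κ * C * Rm ^ 5) * Hη)
    (ht : 0 ≤ t) (htT : t ≤ T) (hHt : etaSum H (η t) ≤ Hη)
    (hdr : ∀ ε, 0 < ε → ε ≤ 1 → ∀ μ, 0 < μ → μ ≤ 1 →
      0 ≤ dissip H (q t) (c t) (lam D t) w ∧
      ∃ dU dV dE : ℝ,
        HasDerivAt (fun u => potU V H (q u) (c u) (lam D u) w) dU t ∧
        HasDerivAt (fun u => potV V H (q u) (c u) (lam D u) w) dV t ∧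
        HasDerivAt (fun u => potE H (q u) (c u)) dE t ∧
        dU ≤ (1 + C' * Sharp.cap D + ε + C' * μ) * (lam D t * potU V H (q t) (c t) (lam D t) w)
            - (1 - C' * Sharp.cap D - C' * μ) * dissip H (q t) (c t) (lam D t) w
            + C' * (Sharp.cap D + μ) * (lam D t * potW V (q t) w)
            + C' / ε * (lam D t * potV V H (q t) (c t) (lam D t) w)
            + C' / μ * (potE H (q t) (c t) / lam D t ^ 2)
            + C' * etaSum H (η t) / lam D t ∧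
        dV ≤ C' * Sharp.cap D * (dissip H (q t) (c t) (lam D t) w
            + lam D t * (potU V H (q t) (c t) (lam D t) w + potV V H (q t) (c t) (lam D t) w
              + potW V (q t) w)
            + potE H (q t) (c t) / lam D t ^ 2
            + etaSum H (η t) / lam D t) ∧
        dE ≤ (6 - 61 / 10 * lam D t) * potE H (q t) (c t)
            + C' * lam D t ^ 2 * (potU V H (q t) (c t) (lam D t) w + potW V (q t) w)
            + C' * etaSum H (η t)) :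
    ∃ d, HasDerivAt (fun u => comb V H q c w D b κ u) d t ∧
      d ≤ ((1 + δ) * lam D t + 9 + B * (rr D t * (lam D t + 1 / 2))) * comb V H q c w D b κ t
        + (δ * lam D t + B * (rr D t * (lam D t + 1 / 2))) * potW V (q t) w + K := by
  have hD1 := hs.one
  have hD0 : 0 < D := by linarith
  have hb := hs.pos
  have hn := pots_nonneg (w := w) hO D
  set r := rr D t with hr
  set Λ := lam D t with hΛdef
  have hΛ : 0 < Λ := lam_pos hD0 ht
  have hr0 : 0 < r := rr_pos hD0 ht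
  have hrΛ : r ^ 2 * Λ = 1 := rr_sq hD0 ht
  have hrm : r ≤ Rm := hRm ▸ rr_le hD1 ht htT
  have hθr : θ * r ≤ 1 / (10 ^ 4 * C) := by
    calc θ * r ≤ θ * Rm := mul_le_mul_of_nonneg_left hrm hθ.le
      _ = _ := by
          have hRm0 : Rm ≠ 0 := (hr0.trans_le hrm).ne'
          rw [hθdef]; field_simp
  have hμ1 : θ * r ≤ 1 := hθr.trans (by rw [div_le_one (by positivity)]; nlinarith)
  have hε : b ^ 8 ≤ 1 := pow_le_one₀ hb.le hb1
  obtain ⟨hdis, dU, dV, dE, h1, h2, h3, h4, h5, h6⟩ :=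
    hdr (b ^ 8) (pow_pos hb 8) hε (θ * r) (mul_pos hθ hr0) hμ1
  set dis := dissip H (q t) (c t) Λ w with hdisdef
  rw [hs.cap_eq] at h4 h5
  refine ⟨dU + dV / b ^ 12 + κ * ((5 * r ^ 4 * (r * (Λ + 1 / 2))) * potE H (q t) (c t) + r ^ 5 * dE), ?_, ?_⟩
  · exact ((h1.add (h2.div_const _)).add ((((rr_deriv hD0 ht).fun_pow 5).mul h3).const_mul κ))
  unfold comb
  exact step_real hC' hC1 hb hb1 hs.csmall hθ hθr hμ1 hr0 hΛ hrΛ hrm hκdef hκ
    hBdef hB hδdef hKdef (hn t ht).1 (hn t ht).2.1 (hn t ht).2.2.1 (hn t ht).2.2.2 hdis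
    (sum_nonneg fun k _ => sum_nonneg fun i _ => abs_nonneg _) hHt h4 h5 h6

/-- The combined potential is at most `C Q exp G`. -/
theorem pot_bound {C D T t b B δ K Rm Q C₁ C₂ S₀ : ℝ} {Z W : ℝ → ℝ} (hC1 : 1 ≤ C) (hD0 : 0 < D)
    (hB : 0 < B) (hb : 0 < b) (hb1 : b ≤ 1) (hδdef : δ = (2 * C + 1) * b ^ 4) (hK0 : 0 ≤ K)
    (hC₁0 : 0 ≤ C₁) (hQ0 : 0 ≤ Q)
    (hC₂ : C₂ = Real.exp ((2 * C + 1) * 1200 + 9 * T + B * Rm))
    (hr : rr D t ≤ Rm) (hlogt : b * gg D t ≤ 1200)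
    (hW1 : ∀ u, 0 ≤ u → u ≤ T → W u ≤ S₀) (hW0 : ∀ u, 0 ≤ u → 0 ≤ W u)
    (hZstep : ∀ u, 0 ≤ u → u ≤ T → ∃ d, HasDerivAt Z d u ∧
      d ≤ ((1 + δ) * lam D u + 9 + B * (rr D u * (lam D u + 1 / 2))) * Z u
        + (δ * lam D u + B * (rr D u * (lam D u + 1 / 2))) * W u + K)
    (hZ0 : 0 ≤ Z 0) (ht : 0 ≤ t) (htT : t ≤ T)
    (hS : Z 0 + δ * S₀ + B * Real.sqrt (Real.exp T / D) * S₀ * (gg D t + t / 2) + K * t
      ≤ C₁ * Q) :
    Z t ≤ C₁ * C₂ * Q * Real.exp (gg D t) := by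
  have hδ0 : 0 ≤ δ := by rw [hδdef]; positivity
  have h := (pot_growth hD0 hB.le hδ0 hK0 hW1 hW0 hZstep hZ0 ht htT).trans
    hS
  set P := (1 + δ) * gg D t + 9 * t + B * rr D t with hP
  have h1 : Z t ≤ Real.exp P * (C₁ * Q) := by
    have := mul_le_mul_of_nonneg_left h (Real.exp_nonneg P)
    rwa [← mul_assoc, ← Real.exp_add, add_neg_cancel, Real.exp_zero, one_mul] at this
  refine h1.trans ?_
  have h2 : Real.exp P ≤ C₂ * Real.exp (gg D t) := by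
    rw [hC₂, ← Real.exp_add]
    refine Real.exp_le_exp.2 ?_
    have h3 : δ * gg D t ≤ (2 * C + 1) * 1200 := by
      rw [hδdef, mul_assoc]
      refine mul_le_mul_of_nonneg_left ?_ (by linarith)
      calc b ^ 4 * gg D t = b ^ 3 * (b * gg D t) := by ring
        _ ≤ 1 * 1200 := mul_le_mul (pow_le_one₀ hb.le hb1) hlogt
            (mul_nonneg hb.le (gg_nonneg hD0.le ht)) zero_le_one
        _ = _ := one_mul _
    have h4 := mul_le_mul_of_nonneg_left hr hB.le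
    rw [hP]
    linarith
  calc Real.exp P * (C₁ * Q) ≤ C₂ * Real.exp (gg D t) * (C₁ * Q) :=
        mul_le_mul_of_nonneg_right h2 (by positivity)
    _ = _ := by ring

/-- The calculus, from the differential inequalities. -/
theorem calc_of_drift (hdr : DriftStmt) : CalcStmt := by
  obtain ⟨C', hdr⟩ := hdr
  set C := max C' 1 with hCdef
  have hC' : C' ≤ C := le_max_left _ _
  have hC1 : 1 ≤ C := le_max_right _ _
  refine ⟨4, fun T hT => ?_⟩
  set Rm := Real.sqrt (3 * Real.exp T) with hRm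
  have hRm1 : 1 ≤ Rm := Real.one_le_sqrt.2 (by have := Real.one_le_exp (show 0 ≤ T by linarith); linarith)
  set θ := 1 / (10 ^ 4 * C * Rm) with hθdef
  have hθ : 0 < θ := by positivity
  set κ := 2 * C / θ with hκdef
  have hκ : 0 < κ := by positivity
  set B := 2 * κ * C + C * θ with hBdef
  have hB : 0 < B := by positivity
  obtain ⟨C₁, hC₁⟩ : ∃ x : ℝ, x = 1 + 10 * κ + 48 * κ + (2 * C + 1) + B * Real.sqrt (Real.exp T) * (1200 + T)
    + (2 * C * Rm ^ 2 + κ * C * Rm ^ 5) * T + 2 * κ := ⟨_, rfl⟩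
  obtain ⟨C₂, hC₂⟩ : ∃ x : ℝ, x = Real.exp ((2 * C + 1) * 1200 + 9 * T + B * Rm) := ⟨_, rfl⟩
  obtain ⟨C₃, hC₃⟩ : ∃ x : ℝ, x = 1200 * Real.exp 1200 + 1 := ⟨_, rfl⟩
  obtain ⟨C₄, hC₄⟩ : ∃ x : ℝ, x = 48 * (C₁ * C₂ * (T + 2) + 2) := ⟨_, rfl⟩
  have hC₁0 : 0 ≤ C₁ := by rw [hC₁]; positivity
  have hC₂0 : 0 ≤ C₂ := by rw [hC₂]; exact Real.exp_nonneg _
  obtain ⟨D₀, hD₀⟩ := small_exists C
  refine ⟨C₃ * (C₄ + 1) * 3 + C₄, D₀, fun ι _ V H hL D hD w hw q c η hO Hη hη => ?_⟩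
  set b := Sharp.cap D ^ (1 / 16 : ℝ) with hbdef
  have hs : Small C D b := hD₀ D hD
  have hD1 := hs.one
  have hD0 : 0 < D := by linarith
  have hb := hs.pos
  have hb1 : b ≤ 1 := by nlinarith [hs.bsmall]
  have hcp := Sharp.cap_pos hD0
  have hw' : ∀ i, |w i| ≤ 1 / 50 := fun i => (hw i).trans (by linarith [hs.capsmall])
  have hη0 : 0 ≤ Hη := le_trans (sum_nonneg fun k _ => sum_nonneg fun i _ => abs_nonneg _)
    (hη 0 le_rfl (by linarith))
  set m : ℝ := (V.card : ℝ) with hm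
  set sq0 := ∑ i ∈ V, w i ^ 2 with hsq
  have hsq0 : 0 ≤ sq0 := sum_nonneg fun i _ => sq_nonneg _
  set U := fun t => potU V H (q t) (c t) (lam D t) w with hU
  set Vp := fun t => potV V H (q t) (c t) (lam D t) w with hVp
  set E := fun t => potE H (q t) (c t) with hE
  set W := fun t => potW V (q t) w with hW
  set f := fun t => ∑ i ∈ V, q t i with hf
  have hU0 : ∀ t, 0 ≤ t → 0 ≤ U t := fun t ht =>
    sum_nonneg fun i hi => mul_nonneg (hO.q_pos t ht i hi).le (phi_nonneg _)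
  have hV0 : ∀ t, 0 ≤ t → 0 ≤ Vp t := fun t ht =>
    sum_nonneg fun i hi => mul_nonneg (hO.q_pos t ht i hi).le (phi_nonneg _)
  have hE0 : ∀ t, 0 ≤ t → 0 ≤ E t := fun t ht =>
    sum_nonneg fun k hk => mul_nonneg (hO.c_pos t ht k hk).le (sum_nonneg fun i _ => sq_nonneg _)
  have hW0 : ∀ t, 0 ≤ t → 0 ≤ W t := fun t ht =>
    sum_nonneg fun i hi => mul_nonneg (hO.q_pos t ht i hi).le (sq_nonneg _)
  have hW1 : ∀ t, 0 ≤ t → t ≤ T → W t ≤ sq0 := fun t ht _ =>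
    sum_le_sum fun i hi => mul_le_of_le_one_left (sq_nonneg _) (hO.q_le t ht i hi)
  -- the combined potential
  set Z := fun t => comb V H q c w D b κ t with hZdef
  set δ := (2 * C + 1) * b ^ 4 with hδdef
  set K := (2 * C * Rm ^ 2 + κ * C * Rm ^ 5) * Hη with hKdef
  have hZstep : ∀ t, 0 ≤ t → t ≤ T → ∃ d, HasDerivAt Z d t ∧
      d ≤ ((1 + δ) * lam D t + 9 + B * (rr D t * (lam D t + 1 / 2))) * Z t
        + (δ * lam D t + B * (rr D t * (lam D t + 1 / 2))) * W t + K := fun t ht htT =>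
    z_step hO hC' hC1 hs hb1 hθ hθdef hRm hκdef hκ hBdef hB hδdef hKdef ht htT (hη t ht htT)
      (hdr ι V H hL D hD1 hs.capsmall w hw q c η hO t ht)
  -- growth
  have hrr0 : rr D 0 = (Real.sqrt D)⁻¹ := by simp [rr, lam]
  have hsD : 0 < Real.sqrt D := Real.sqrt_pos.2 hD0
  have hsq1 : 1 ≤ Real.sqrt D := Real.one_le_sqrt.2 hD1
  set Bk := psi0 V H D w + tq0 V H D w / b ^ 12 + b ^ 4 * sq0 with hBk
  obtain ⟨eU, eV, eE⟩ := calc_start_facts hL hO hD0 hw'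
  have hpsi : 0 ≤ psi0 V H D w := sum_nonneg fun i _ => phi_nonneg _
  have htq : 0 ≤ tq0 V H D w := sum_nonneg fun i _ => phi_nonneg _
  have hm0 : 0 ≤ m := Nat.cast_nonneg _
  have r54 : b ^ 5 ≤ b ^ 4 := pow_le_pow_of_le_one hb.le hb1 (by norm_num)
  have hroot := hs.root
  have hDs : 1 / (D * Real.sqrt D) ≤ 1 / Real.sqrt D :=
    one_div_le_one_div_of_le hsD (le_mul_of_one_le_left hsD.le hD1)
  set Q := Bk + m / (D * Real.sqrt D) + Hη with hQdef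
  have hQ0 : 0 ≤ Q := by positivity
  have hZ0 : 0 ≤ Z 0 := by
    have := hU0 0 le_rfl; have := hV0 0 le_rfl; have := hE0 0 le_rfl
    have := rr_pos hD0 (le_refl (0 : ℝ))
    simp only [hZdef, comb, hU, hVp, hE] at *
    positivity
  have hZb : ∀ t, 0 ≤ t → t ≤ T → Z t ≤ C₁ * C₂ * Q * Real.exp (gg D t) := fun t ht htT =>
    pot_bound hC1 hD0 hB hb hb1 hδdef (by positivity) hC₁0 hQ0 hC₂ (rr_le hD1 ht htT)
      (hs.log t ht) hW1 hW0 hZstep hZ0 ht htT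
      (init_le hC₁ hKdef hδdef hBk hQdef (by simp only [hZdef, comb, hrr0]; rw [eU, eV]) eE hD0 hT
        hC1 hκ hB (by positivity) hb hb1 hroot hDs hs.log hpsi htq hm0 hsq0 hη0 ht htT)
  -- the count
  have hf0 : f 0 = m := by
    simp only [hf, hm]
    rw [sum_congr rfl hO.q_zero]; simp
  have hfn : ∀ t, 0 ≤ t → 0 ≤ f t := fun t ht => sum_nonneg fun i hi => (hO.q_pos t ht i hi).le
  have hUZ : ∀ t, 0 ≤ t → U t ≤ Z t := fun t ht => by
    have := hV0 t ht; have := hE0 t ht; have := rr_pos hD0 ht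
    have h1 : 0 ≤ Vp t / b ^ 12 := by positivity
    have h2 : 0 ≤ κ * (rr D t ^ 5 * E t) := by positivity
    simp only [hZdef, comb, hU, hVp, hE] at *
    linarith
  have hfd : ∀ t, 0 ≤ t → t ≤ T → ∃ z, HasDerivAt f (-(lam D t * (f t + z))) t ∧
      |z| ≤ b ^ 2 * f t + 48 / b ^ 2 * (Z t + W t) := fun t ht _ =>
    count_deriv hL hO hD0 hw' (pow_pos hb 2) hs.bsmall ht (hUZ t ht)
  have hX := count_follow hD0 (pow_pos hb 2) hfd hfn hZb hW1
    (mul_nonneg (mul_nonneg hC₁0 hC₂0) hQ0) hsq0 (by linarith)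
  rw [hf0] at hX
  obtain ⟨l1, l2, l3⟩ := norm_conv hD1 hT
  set L := Real.exp (gg D T) with hLdef
  have eseed : seed V H D w = Real.sqrt D * Bk / b ^ 2 + b * (m / Real.sqrt D) :=
    seed_eq V H w hD0 hb hbdef
  have hsqB : b ^ 4 * sq0 ≤ Bk := by
    have : 0 ≤ tq0 V H D w / b ^ 12 := by positivity
    rw [hBk]; linarith
  rw [eseed]
  obtain ⟨e1, e2⟩ := deviation (Λ := lam D T) (e := b ^ 2) hL (hO.q_pos T (by linarith))
    (fun k hk => (hO.c_pos T (by linarith) k hk).le) (lam_pos hD0 (by linarith)) hw' (pow_pos hb 2)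
    hs.bsmall
  refine count_real (UT := U T) (ZT := Z T) (WT := W T) (Q := Q) (sq0 := sq0) (L := L)
    hC₁0 hC₂0 hC₃ hC₄ hT hD1 hb hb1 hs.bsmall hroot (hs.log T (by linarith))
    hLdef (by positivity) hQ0 hQdef hη0 hm0 hsq0 hsqB rfl l1 l2 l3 hX (hfn T (by linarith))
    (hUZ T (by linarith)) (hU0 T (by linarith)) (hW0 T (by linarith)) ?_
    (hW1 T (by linarith) le_rfl) e1 e2
  exact hZb T (by linarith) le_rfl

end Vale.Agent.P046.Limit
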