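import Vale.Agent.P046.Limit.Calc

/-! P046, the limit constant: the algebra of one instant of the calculus. -/

open Finset

namespace Vale.Agent.P046.Limit

/-- The inequalities of the three potentials combine into the one of the growth lemma. -/
theorem step_real {C C' b θ r Λ Rm κ B δ K Hη U Vp E W dis Ht dU dV dE : ℝ}
    (hC' : C' ≤ C) (hC1 : 1 ≤ C) (hb : 0 < b) (hb1 : b ≤ 1) (hcs : 2 * C * b ^ 4 ≤ 1 / 2)
    (hθ : 0 < θ) (hθr : θ * r ≤ 1 / (10 ^ 4 * C)) (hμ1 : θ * r ≤ 1)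
    (hr0 : 0 < r) (hΛ : 0 < Λ) (hrΛ : r ^ 2 * Λ = 1) (hrm : r ≤ Rm)
    (hκdef : κ = 2 * C / θ) (hκ : 0 < κ) (hBdef : B = 2 * κ * C + C * θ) (hB : 0 < B)
    (hδdef : δ = (2 * C + 1) * b ^ 4)
    (hKdef : K = (2 * C * Rm ^ 2 + κ * C * Rm ^ 5) * Hη)
    (nU : 0 ≤ U) (nV : 0 ≤ Vp) (nE : 0 ≤ E) (nW : 0 ≤ W) (hdis : 0 ≤ dis) (hHt0 : 0 ≤ Ht)
    (hHt : Ht ≤ Hη)
    (h4 : dU ≤ (1 + C' * b ^ 16 + b ^ 8 + C' * (θ * r)) * (Λ * U)
        - (1 - C' * b ^ 16 - C' * (θ * r)) * dis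
        + C' * (b ^ 16 + θ * r) * (Λ * W) + C' / b ^ 8 * (Λ * Vp)
        + C' / (θ * r) * (E / Λ ^ 2) + C' * Ht / Λ)
    (h5 : dV ≤ C' * b ^ 16 * (dis + Λ * (U + Vp + W) + E / Λ ^ 2 + Ht / Λ))
    (h6 : dE ≤ (6 - 61 / 10 * Λ) * E + C' * Λ ^ 2 * (U + W) + C' * Ht) :
    dU + dV / b ^ 12 + κ * ((5 * r ^ 4 * (r * (Λ + 1 / 2))) * E + r ^ 5 * dE) ≤
      ((1 + δ) * Λ + 9 + B * (r * (Λ + 1 / 2))) * (U + Vp / b ^ 12 + κ * (r ^ 5 * E))
        + (δ * Λ + B * (r * (Λ + 1 / 2))) * W + K := by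
  -- replace the constant
  have hr4 : E / Λ ^ 2 = r ^ 4 * E := by
    rw [div_eq_iff (by positivity), show r ^ 4 * E * Λ ^ 2 = (r ^ 2 * Λ) ^ 2 * E by ring,
      hrΛ, one_pow, one_mul]
  have hr2 : Ht / Λ = r ^ 2 * Ht := by
    rw [div_eq_iff hΛ.ne', show r ^ 2 * Ht * Λ = r ^ 2 * Λ * Ht by ring, hrΛ, one_mul]
  have a4 : dU ≤ (1 + C * b ^ 16 + b ^ 8 + C * (θ * r)) * (Λ * U)
      - (1 - C * b ^ 16 - C * (θ * r)) * dis
      + C * (b ^ 16 + θ * r) * (Λ * W) + C / b ^ 8 * (Λ * Vp)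
      + C / (θ * r) * (r ^ 4 * E) + C * (r ^ 2 * Ht) := by
    rw [← hr4, ← hr2]
    refine h4.trans ?_
    rw [mul_div_assoc C' Ht Λ]
    gcongr
  have a5 : dV ≤ C * b ^ 16 * (dis + Λ * (U + Vp + W) + r ^ 4 * E + r ^ 2 * Ht) := by
    rw [← hr4, ← hr2]
    exact h5.trans (mul_le_mul_of_nonneg_right (mul_le_mul_of_nonneg_right hC' (by positivity))
      (by positivity))
  have a6 : dE ≤ (6 - 61 / 10 * Λ) * E + C * Λ ^ 2 * (U + W) + C * Ht := by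
    refine h6.trans ?_
    gcongr
  clear h4 h5 h6
  -- collect
  set X := r ^ 5 * E with hX
  have nX : 0 ≤ X := by positivity
  have b5 : dV / b ^ 12 ≤
      C * b ^ 4 * (dis + Λ * (U + Vp + W) + r ^ 4 * E + r ^ 2 * Ht) := by
    rw [div_le_iff₀ (pow_pos hb 12)]
    exact a5.trans_eq (by ring)
  have b6 : κ * ((5 * r ^ 4 * (r * (Λ + 1 / 2))) * E + r ^ 5 * dE) ≤
      κ * ((17 / 2 - 11 / 10 * Λ) * X) + κ * C * r * (U + W) + κ * C * r ^ 5 * Ht := by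
    have e : κ * C * r * (U + W) = κ * C * r * (r ^ 2 * Λ) ^ 2 * (U + W) := by
      rw [hrΛ]; ring
    have := mul_le_mul_of_nonneg_left a6 (mul_nonneg hκ.le (pow_nonneg hr0.le 5))
    rw [hX, e]
    linarith
  have cV : C / b ^ 8 * (Λ * Vp) = C * b ^ 4 * (Λ * (Vp / b ^ 12)) := by
    field_simp
  have cE : C / (θ * r) * (r ^ 4 * E) = C / θ * (Λ * X) := by
    have e : C / θ * (Λ * X) = C / θ * (r ^ 3 * E) * (r ^ 2 * Λ) := by rw [hX]; ring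
    rw [e, hrΛ, mul_one]
    field_simp
  have cE' : C * b ^ 4 * (r ^ 4 * E) ≤ C / θ * (Λ * X) := by
    have e : r ^ 4 * E = r * (Λ * X) := by
      rw [hX, show r * (Λ * (r ^ 5 * E)) = (r ^ 2 * Λ) * (r ^ 4 * E) by ring, hrΛ, one_mul]
    rw [e, ← mul_assoc]
    refine mul_le_mul_of_nonneg_right ?_ (by positivity)
    rw [le_div_iff₀ hθ]
    calc C * b ^ 4 * r * θ = C * b ^ 4 * (θ * r) := by ring
      _ ≤ C * 1 * 1 := by gcongr; exact pow_le_one₀ hb.le hb1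
      _ = C := by ring
  have cκ : κ * (Λ * X) = C / θ * (Λ * X) + C / θ * (Λ * X) := by rw [hκdef]; ring
  have p16 : b ^ 16 ≤ b ^ 4 := pow_le_pow_of_le_one hb.le hb1 (by norm_num)
  have p8 : b ^ 8 ≤ b ^ 4 := pow_le_pow_of_le_one hb.le hb1 (by norm_num)
  have p16' : C * b ^ 16 ≤ C * b ^ 4 := mul_le_mul_of_nonneg_left p16 (by linarith)
  have hdd : 0 ≤ (1 - C * b ^ 16 - C * (θ * r) - C * b ^ 4) * dis := by
    refine mul_nonneg ?_ hdis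
    have h7 : C * (θ * r) ≤ 1 / 10 ^ 4 := by
      calc C * (θ * r) ≤ C * (1 / (10 ^ 4 * C)) := mul_le_mul_of_nonneg_left hθr (by linarith)
        _ = _ := by field_simp
    have := hcs
    linarith
  have gU : (C * b ^ 16 + b ^ 8 + C * b ^ 4) * (Λ * U) ≤ δ * (Λ * U) :=
    mul_le_mul_of_nonneg_right (by rw [hδdef]; linarith) (by positivity)
  have gV : (C * b ^ 4 + C * b ^ 16) * (Λ * (Vp / b ^ 12)) ≤ δ * (Λ * (Vp / b ^ 12)) :=
    mul_le_mul_of_nonneg_right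
      (by rw [hδdef]; linarith [pow_nonneg hb.le 4]) (by positivity)
  have gW : (C * b ^ 16 + C * b ^ 4) * (Λ * W) ≤ δ * (Λ * W) :=
    mul_le_mul_of_nonneg_right
      (by rw [hδdef]; linarith [pow_nonneg hb.le 4]) (by positivity)
  have gB : (C * (θ * r) * Λ + κ * C * r) ≤ B * (r * (Λ + 1 / 2)) := by
    have : 0 ≤ κ * C * r * Λ := by positivity
    have : 0 ≤ C * θ * r := by positivity
    rw [hBdef]
    linarith
  have gU' := mul_le_mul_of_nonneg_right gB nU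
  have gW' := mul_le_mul_of_nonneg_right gB nW
  have cV' : C * b ^ 4 * (Λ * Vp) = C * b ^ 16 * (Λ * (Vp / b ^ 12)) := by field_simp
  have hRm0 : 0 ≤ Rm := hr0.le.trans hrm
  have nH : C * (r ^ 2 * Ht) + C * b ^ 4 * (r ^ 2 * Ht) + κ * C * r ^ 5 * Ht ≤ K := by
    rw [hKdef]
    have h8 : r ^ 2 * Ht ≤ Rm ^ 2 * Hη :=
      mul_le_mul (pow_le_pow_left₀ hr0.le hrm 2) hHt hHt0 (by positivity)
    have h9 : r ^ 5 * Ht ≤ Rm ^ 5 * Hη :=
      mul_le_mul (pow_le_pow_left₀ hr0.le hrm 5) hHt hHt0 (by positivity)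
    have h10 : C * b ^ 4 * (r ^ 2 * Ht) ≤ C * (Rm ^ 2 * Hη) :=
      mul_le_mul (mul_le_of_le_one_right (by linarith) (pow_le_one₀ hb.le hb1)) h8
        (by positivity) (by linarith)
    have h11 := mul_le_mul_of_nonneg_left h8 (show 0 ≤ C by linarith)
    have h12 := mul_le_mul_of_nonneg_left h9 (show 0 ≤ κ * C by positivity)
    linarith
  have nb : 0 ≤ B * (r * (Λ + 1 / 2)) := by positivity
  have q1 := mul_nonneg nb (show 0 ≤ Vp / b ^ 12 by positivity)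
  have q2 := mul_nonneg nb (mul_nonneg hκ.le nX)
  have q3 : 0 ≤ δ * Λ * (κ * X) := by
    have : 0 ≤ δ := by rw [hδdef]; positivity
    positivity
  have q4 : 0 ≤ Λ * (Vp / b ^ 12) := by positivity
  have q5 : 0 ≤ Λ * (κ * X) := by positivity
  have q6 : 0 ≤ κ * X := by positivity
  have q7 : 0 ≤ Vp / b ^ 12 := by positivity
  linarith

end Vale.Agent.P046.Limit
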