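import Vale.Agent.P046.Limit.Near

/-!
P046: the closure error is small, from locality and small costs.
-/

open Finset

namespace Vale.Agent.P046.Limit

/-- The closure of exact products under small errors. -/
theorem abs_sub_div_le {F q P X Y Q' P' X' Y' : ℝ} (hexact : P' * Q' = X' * Y')
    (hF : 0 ≤ F) (hP : 0 ≤ P ∧ P ≤ q) (hX : 0 ≤ X ∧ X ≤ q) (hY : 0 ≤ Y ∧ Y ≤ q)
    (hP' : 0 ≤ P') (hX' : 0 ≤ X')
    (eq : |q - Q'| ≤ F) (eP : |P - P'| ≤ F) (eX : |X - X'| ≤ F) (eY : |Y - Y'| ≤ F) :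
    |P - X * Y / q| ≤ 6 * F := by
  have hq : 0 ≤ q := hP.1.trans hP.2
  have hd0 : 0 ≤ X * Y / q := div_nonneg (mul_nonneg hX.1 hY.1) hq
  have hd1 : X * Y / q ≤ q := div_le_of_le_mul₀ hq hq (mul_le_mul hX.2 hY.2 hY.1 hq)
  rcases le_or_gt q F with h | h
  · exact abs_le.2 ⟨by linarith, by linarith⟩
  have hqpos : 0 < q := by linarith
  rw [sub_div' hqpos.ne', abs_div, abs_of_pos hqpos, div_le_iff₀ hqpos]
  have e : P * q - X * Y = (P - P') * q + P' * (q - Q') - (X - X') * Y - X' * (Y - Y') := by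
    linear_combination hexact
  have a1 : |(P - P') * q| ≤ F * q := by
    rw [abs_mul, abs_of_pos hqpos]; exact mul_le_mul_of_nonneg_right eP hq
  have a2 : |P' * (q - Q')| ≤ (2 * q) * F := by
    rw [abs_mul, abs_of_nonneg hP']
    exact mul_le_mul (by linarith [(abs_le.1 eP).1]) eq (abs_nonneg _) (by linarith)
  have a3 : |(X - X') * Y| ≤ F * q := by
    rw [abs_mul, abs_of_nonneg hY.1]; exact mul_le_mul eX hY.2 hY.1 hF
  have a4 : |X' * (Y - Y')| ≤ (2 * q) * F := by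
    rw [abs_mul, abs_of_nonneg hX']
    exact mul_le_mul (by linarith [(abs_le.1 eX).1]) eY (abs_nonneg _) (by linarith)
  rw [e]
  rw [abs_le] at a1 a2 a3 a4 ⊢
  constructor <;> linarith [a1.1, a1.2, a2.1, a2.2, a3.1, a3.2, a4.1, a4.2]

variable {ι : Type} [DecidableEq ι] [Fintype ι]
variable {V : Finset ι} {H : Finset (Finset ι)} {L : ℕ} {t : ℝ}

theorem jmean_triple {Tm : Fin 3 → Finset (Finset ι)}
    (hd : ∀ a b, a ≠ b → Disjoint (Tm a) (Tm b)) (f₀ f₁ f₂ : Finset ι → ℝ) :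
    jmean (L := L) V H Tm t (fun s => f₀ (s.2 0) * (f₁ (s.2 1) * f₂ (s.2 2))) =
      jmean (L := L) V H Tm t (fun s => f₀ (s.2 0)) *
        (jmean (L := L) V H Tm t (fun s => f₁ (s.2 1)) *
          jmean (L := L) V H Tm t (fun s => f₂ (s.2 2))) := by
  have h := jmean_mul (L := L) (V := V) (H := H) (Tm := Tm) (t := t) ![0] ![1, 2]
    (fun x y => hd _ _ (by fin_cases x; fin_cases y <;> decide))
    (fun w => f₀ (w 0)) (fun w => f₁ (w 0) * f₂ (w 1))
  have h' := jmean_mul (L := L) (V := V) (H := H) (Tm := Tm) (t := t) ![1] ![2]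
    (fun x y => hd _ _ (by fin_cases x; fin_cases y; decide))
    (fun w => f₁ (w 0)) (fun w => f₂ (w 0))
  simp only [Function.comp, Matrix.cons_val_zero, Matrix.cons_val_one] at h h'
  rw [h, h']

theorem pair_le (hL : LocalStmt) (hV : Lin V H) (ht : 0 ≤ t) {i : ι} (hi : i ∈ V)
    (hg : GoodAt H L i) {j k : Finset ι} (hj : j ∈ blocksAt H i) (hk : k ∈ blocksAt H i)
    (hjk : j ≠ k) :
    |pf V H t j k - cf V H t k * cf V H t j / qf V H t i| ≤ 6 * failP V H L t i := by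
  obtain ⟨hjH, hij⟩ := mem_filter.1 hj
  obtain ⟨hkH, hik⟩ := mem_filter.1 hk
  set rest : Finset (Finset ι) :=
    (((blocksAt H i).erase j).erase k).biUnion fun b => branch H i b L with hrest
  set Tm : Fin 3 → Finset (Finset ι) := ![branch H i j L, branch H i k L, rest] with hTm
  have hT : ∀ m, Tm m ⊆ H := by
    intro m
    fin_cases m
    · exact branch_subset i hjH L
    · exact branch_subset i hkH L
    · refine biUnion_subset.2 fun b hb => branch_subset i ?_ L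
      exact (mem_filter.1 (mem_of_mem_erase (mem_of_mem_erase hb))).1
  have hd3 : Disjoint (branch H i j L) rest ∧ Disjoint (branch H i k L) rest := by
    simp only [hrest, disjoint_biUnion_right, mem_erase]
    exact ⟨fun b hb => hg j hj b hb.2.2 (Ne.symm hb.2.1),
      fun b hb => hg k hk b hb.2.2 (Ne.symm hb.1)⟩
  have hd : ∀ a b, a ≠ b → Disjoint (Tm a) (Tm b) := by
    intro a b hab
    fin_cases a <;> fin_cases b <;> first
      | exact absurd rfl hab
      | exact hg j hj k hk hjk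
      | exact hg k hk j hj hjk.symm
      | exact hd3.1
      | exact hd3.1.symm
      | exact hd3.2
      | exact hd3.2.symm
  have hloc : ∀ m, Loc H L (Tm m) i := by
    intro m b hb hbT
    obtain ⟨-, hib⟩ := mem_filter.1 hb
    fin_cases m
    · show branch H i b L ⊆ branch H i j L
      rw [branch_eq hbT hib]
    · show branch H i b L ⊆ branch H i k L
      rw [branch_eq hbT hib]
    · obtain ⟨b', hb', hbb⟩ := mem_biUnion.1 hbT
      obtain rfl := branch_eq hbb hib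
      exact subset_biUnion_of_mem (fun b => branch H i b L) hb'
  have hcover : ∀ b ∈ blocksAt H i, ∃ m, b ∈ Tm m := by
    intro b hb
    by_cases hbj : b = j
    · exact ⟨0, by simpa [hTm, hbj] using self_mem_branch i j L⟩
    by_cases hbk : b = k
    · exact ⟨1, by simpa [hTm, hbk] using self_mem_branch i k L⟩
    refine ⟨2, ?_⟩
    simp only [hTm, hrest]
    exact mem_biUnion.2 ⟨b, by simp [hb, hbj, hbk], self_mem_branch i b L⟩
  have jT : j ∈ Tm 0 := self_mem_branch i j L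
  have kT : k ∈ Tm 1 := self_mem_branch i k L
  -- the exact descriptions off the failure
  have hq : ∀ s : Joint ι L 3, Agree V H Tm s → ¬Fails H i s.1 →
      (i ∈ s.1.1 ↔ i ∈ s.2 0 ∧ i ∈ s.2 1 ∧ i ∈ s.2 2) := by
    intro s hs hf
    obtain ⟨h1, h2⟩ := agree_apply hs hi hf
    refine ⟨fun h => ⟨(h1 h 0 (hloc 0)).1, (h1 h 1 (hloc 1)).1, (h1 h 2 (hloc 2)).1⟩,
      fun h => by_contra fun hn => ?_⟩
    obtain ⟨b, hb, hb'⟩ := h2 hn
    obtain ⟨m, hm⟩ := hcover b hb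
    refine hb' m (hloc m) hm ?_
    fin_cases m
    · exact h.1
    · exact h.2.1
    · exact h.2.2
  have hblock : ∀ s : Joint ι L 3, Agree V H Tm s → ¬Fails H i s.1 → i ∈ s.1.1 →
      (j ⊆ s.1.1 ↔ j ⊆ s.2 0) ∧ (k ⊆ s.1.1 ↔ k ⊆ s.2 1) := fun s hs hf h =>
    ⟨((agree_apply hs hi hf).1 h 0 (hloc 0)).2 j hj jT,
      ((agree_apply hs hi hf).1 h 1 (hloc 1)).2 k hk kT⟩
  have hx : ∀ s : Joint ι L 3, Agree V H Tm s → ¬Fails H i s.1 →
      (j ⊆ s.1.1 ↔ j ⊆ s.2 0 ∧ i ∈ s.2 1 ∧ i ∈ s.2 2) := by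
    intro s hs hf
    refine ⟨fun h => ⟨(hblock s hs hf (h hij)).1.1 h, ((hq s hs hf).1 (h hij)).2⟩, fun h => ?_⟩
    exact (hblock s hs hf ((hq s hs hf).2 ⟨h.1 hij, h.2⟩)).1.2 h.1
  have hy : ∀ s : Joint ι L 3, Agree V H Tm s → ¬Fails H i s.1 →
      (k ⊆ s.1.1 ↔ i ∈ s.2 0 ∧ k ⊆ s.2 1 ∧ i ∈ s.2 2) := by
    intro s hs hf
    refine ⟨fun h => ?_, fun h => ?_⟩
    · obtain ⟨a, -, c⟩ := (hq s hs hf).1 (h hik)
      exact ⟨a, (hblock s hs hf (h hik)).2.1 h, c⟩
    · exact (hblock s hs hf ((hq s hs hf).2 ⟨h.1, h.2.1 hik, h.2.2⟩)).2.2 h.2.1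
  have hp : ∀ s : Joint ι L 3, Agree V H Tm s → ¬Fails H i s.1 →
      (j ⊆ s.1.1 ∧ k ⊆ s.1.1 ↔ j ⊆ s.2 0 ∧ k ⊆ s.2 1 ∧ i ∈ s.2 2) := by
    intro s hs hf
    rw [hx s hs hf, hy s hs hf]
    exact ⟨fun h => ⟨h.1.1, h.2.2.1, h.1.2.2⟩,
      fun h => ⟨⟨h.1, h.2.1 hik, h.2.2⟩, ⟨h.1 hij, h.2.1, h.2.2⟩⟩⟩
  have tr : ∀ p₀ p₁ p₂ : Finset ι → Prop,
      jmean (L := L) V H Tm t (fun s => ind (p₀ (s.2 0) ∧ p₁ (s.2 1) ∧ p₂ (s.2 2))) =
        jmean (L := L) V H Tm t (fun s => ind (p₀ (s.2 0))) *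
          (jmean (L := L) V H Tm t (fun s => ind (p₁ (s.2 1))) *
            jmean (L := L) V H Tm t (fun s => ind (p₂ (s.2 2)))) := by
    intro p₀ p₁ p₂
    simp only [ind_and]
    exact jmean_triple hd (fun A => ind (p₀ A)) (fun A => ind (p₁ A)) (fun A => ind (p₂ A))
  rw [qf_eq (L := L) (Tm := Tm), cf_eq (L := L) (Tm := Tm), cf_eq (L := L) (Tm := Tm) j,
    pf_eq (L := L) (Tm := Tm), mul_comm (jmean V H Tm t fun s => ind (k ⊆ s.1.1))]
  refine abs_sub_div_le ?_ (failP_nonneg ht i)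
    ⟨jmean_nonneg ht fun s => ind_nonneg _, jmean_mono ht fun s => ind_le_ind fun h => h.1 hij⟩
    ⟨jmean_nonneg ht fun s => ind_nonneg _, jmean_mono ht fun s => ind_le_ind fun h => h hij⟩
    ⟨jmean_nonneg ht fun s => ind_nonneg _, jmean_mono ht fun s => ind_le_ind fun h => h hik⟩
    (jmean_nonneg ht fun s => ind_nonneg _) (jmean_nonneg ht fun s => ind_nonneg _)
    (near hL hV hT ht hq) (near hL hV hT ht hp) (near hL hV hT ht hx) (near hL hV hT ht hy)
  rw [tr (fun A => j ⊆ A) (fun A => k ⊆ A) (fun A => i ∈ A),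
    tr (fun A => i ∈ A) (fun A => i ∈ A) (fun A => i ∈ A),
    tr (fun A => j ⊆ A) (fun A => i ∈ A) (fun A => i ∈ A),
    tr (fun A => i ∈ A) (fun A => k ⊆ A) (fun A => i ∈ A)]
  ring

omit [DecidableEq ι] [Fintype ι] in
theorem div_sum_sub {β : Type*} [DecidableEq β] (B : Finset β) {c : β → ℝ} {q : ℝ} {k : β}
    (hk : k ∈ B) : c k * ((∑ j ∈ B, c j) / q - c k / q) = ∑ j ∈ B.erase k, c k * c j / q := by
  rw [← sub_div, sum_erase_eq_sub (f := fun j => c k * c j / q) hk, ← sum_div, ← mul_sum]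
  ring

theorem eta_good (hL : LocalStmt) (hV : Lin V H) (ht : 0 ≤ t) {i : ι} (hi : i ∈ V)
    (hg : GoodAt H L i) {k : Finset ι} (hk : k ∈ blocksAt H i) :
    |eta H (qf V H t) (cf V H t) (pf V H t) k i| ≤ dg H i * (6 * failP V H L t i) := by
  rw [eta, load, bk, div_sum_sub _ hk, ← sum_sub_distrib]
  refine (abs_sum_le_sum_abs _ _).trans ((sum_le_sum fun j hj => pair_le hL hV ht hi hg
    (mem_of_mem_erase hj) hk (ne_of_mem_erase hj)).trans ?_)
  rw [sum_const, nsmul_eq_mul]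
  refine mul_le_mul_of_nonneg_right ?_ (mul_nonneg (by norm_num) (failP_nonneg ht i))
  rw [dg]; exact_mod_cast card_erase_le

theorem eta_bad (ht : 0 ≤ t) {i : ι} {k : Finset ι} (hk : k ∈ blocksAt H i) :
    |eta H (qf V H t) (cf V H t) (pf V H t) k i| ≤ dg H i := by
  rw [eta, load, bk, div_sum_sub _ hk, ← sum_sub_distrib]
  refine (abs_sum_le_sum_abs _ _).trans
    ((sum_le_sum (g := fun _ => (1 : ℝ)) fun j hj => ?_).trans ?_)
  · obtain ⟨-, hik⟩ := mem_filter.1 hk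
    obtain ⟨-, hij⟩ := mem_filter.1 (mem_of_mem_erase hj)
    rw [qf_eq (L := 0) (Tm := (Fin.elim0 : Fin 0 → Finset (Finset ι))), cf_eq (L := 0) (Tm := Fin.elim0),
      cf_eq (L := 0) (Tm := Fin.elim0) j, pf_eq (L := 0) (Tm := Fin.elim0)]
    set Z : Fin 0 → Finset (Finset ι) := Fin.elim0
    have one : ∀ F : Joint ι 0 0 → ℝ, (∀ s, F s ≤ 1) → jmean V H Z t F ≤ 1 := fun F h =>
      (jmean_mono ht h).trans_eq (jmean_const 1)
    have nn : ∀ P : Joint ι 0 0 → Prop, 0 ≤ jmean V H Z t (fun s : Joint ι 0 0 => ind (P s)) :=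
      fun P => jmean_nonneg ht fun s => ind_nonneg _
    have h1 := one (fun s => ind (j ⊆ s.1.1 ∧ k ⊆ s.1.1)) fun s => ind_le_one _
    have h2 : jmean V H Z t (fun s : Joint ι 0 0 => ind (k ⊆ s.1.1)) * jmean V H Z t (fun s : Joint ι 0 0 => ind (j ⊆ s.1.1))
        / jmean V H Z t (fun s : Joint ι 0 0 => ind (i ∈ s.1.1)) ≤ 1 := by
      refine div_le_of_le_mul₀ (nn _) zero_le_one ?_
      rw [one_mul]
      exact (mul_le_of_le_one_left (nn _) (one _ fun s => ind_le_one _)).trans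
        (jmean_mono ht fun s => ind_le_ind fun h => h hij)
    have h3 := div_nonneg (mul_nonneg (nn fun s : Joint ι 0 0 => k ⊆ s.1.1) (nn fun s : Joint ι 0 0 => j ⊆ s.1.1))
      (nn fun s : Joint ι 0 0 => i ∈ s.1.1)
    have h4 := nn fun s : Joint ι 0 0 => j ⊆ s.1.1 ∧ k ⊆ s.1.1
    exact abs_le.2 ⟨by linarith, by linarith⟩
  · rw [sum_const, nsmul_eq_mul, mul_one, dg]; exact_mod_cast card_erase_le

/-- The closure error is small. -/
theorem closure_of (hL : LocalStmt) (hC : CostStmt) : ClosureStmt := by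
  classical
  refine ⟨18, fun ι _ _ V H hV L hL1 M t hM ht => ?_⟩
  rw [etaSum, sum_blocks hV.sub (fun k i => |eta H (qf V H t) (cf V H t) (pf V H t) k i|)]
  have key : ∀ i ∈ V, ∑ k ∈ blocksAt H i, |eta H (qf V H t) (cf V H t) (pf V H t) k i| ≤
      (if GoodAt H L i ∧ dg H i ≤ M then 0 else dg H i ^ 2) + 6 * M ^ 2 * failP V H L t i := by
    intro i hi
    have hd0 : 0 ≤ dg H i := Nat.cast_nonneg _
    have hF := failP_nonneg (V := V) (H := H) (L := L) ht i
    split_ifs with h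
    · refine (sum_le_sum fun k hk => eta_good hL hV ht hi h.1 hk).trans ?_
      rw [sum_const, nsmul_eq_mul, zero_add]
      change dg H i * _ ≤ _
      calc dg H i * (dg H i * (6 * failP V H L t i)) = 6 * dg H i ^ 2 * failP V H L t i := by ring
        _ ≤ _ := by gcongr; exact h.2
    · refine (sum_le_sum fun k hk => eta_bad ht hk).trans ?_
      rw [sum_const, nsmul_eq_mul]
      change dg H i * _ ≤ _
      nlinarith [mul_nonneg (sq_nonneg M) hF]
  refine (sum_le_sum key).trans ?_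
  rw [sum_add_distrib, ← mul_sum, mul_add]
  refine add_le_add (le_mul_of_one_le_left (sum_nonneg fun i _ => ?_) (by norm_num)) ?_
  · split_ifs <;> positivity
  · refine (mul_le_mul_of_nonneg_left (sum_failP_le hV hC hL1 ht) (by positivity)).trans_eq ?_
    ring

end Vale.Agent.P046.Limit
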