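import Vale.Agent.P046.Limit.Defs

/-!
P046, the limit constant: locality (module Local).

The invariant: rung blocks are dead in every run; at an alive point whose blocks all have small
cost, a block of radius `d` in a branch and of cost below `L - d` has the same status in every run
which contains the branch; a dead point with small costs records the block which killed it.
-/

open Finset

namespace Vale.Agent.P046.Limit

variable {ι : Type*} [DecidableEq ι] {V : Finset ι} {H : Finset (Finset ι)} {L r : ℕ}
  {Tm : Fin r → Finset (Finset ι)}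

private theorem branch_mono (H : Finset (Finset ι)) (i : ι) (j : Finset ι) :
    Monotone (branch H i j) :=
  monotone_nat_of_le_succ fun _ => subset_union_left

/-- The rung blocks are dead in every run. -/
def RungDead (H : Finset (Finset ι)) (Tm : Fin r → Finset (Finset ι)) (s : Joint ι L r) : Prop :=
  ∀ a ∈ H, a ∉ s.1.2.1 → ¬a ⊆ s.1.1 ∧ ∀ m, a ∈ Tm m → ¬a ⊆ s.2 m

/-- The closed property behind locality. -/
structure LocInv (V : Finset ι) (H : Finset (Finset ι)) (Tm : Fin r → Finset (Finset ι))
    (s : Joint ι L r) : Prop where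
  rung : RungDead H Tm s
  alive : ∀ i ∈ V, (∀ j ∈ blocksAt H i, (s.1.2.2 j).val < L) → i ∈ s.1.1 →
    ∀ m, Loc H L (Tm m) i → i ∈ s.2 m ∧
      ∀ j ∈ blocksAt H i, j ∈ Tm m → ∀ d, ∀ k ∈ branch H i j d,
        (s.1.2.2 k).val + d < L → (k ⊆ s.1.1 ↔ k ⊆ s.2 m)
  dead : ∀ i ∈ V, (∀ j ∈ blocksAt H i, (s.1.2.2 j).val < L) → i ∉ s.1.1 →
    ∃ j ∈ blocksAt H i, ∀ m, Loc H L (Tm m) i → j ∈ Tm m → i ∉ s.2 m

theorem LocInv.agree {s : Joint ι L r} (h : LocInv V H Tm s) : Agree V H Tm s := fun i hi hc =>
  ⟨fun hiA m hm => ⟨(h.alive i hi hc hiA m hm).1, fun j hj hjT =>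
    (h.alive i hi hc hiA m hm).2 j hj hjT 0 j (by simp [branch]) (by simpa using hc j hj)⟩,
    h.dead i hi hc⟩

theorem locInv_start : LocInv V H Tm (jointStart V H L r) where
  rung := fun _ ha hn => absurd ha hn
  alive := fun _ hi _ _ _ _ => ⟨hi, fun _ _ _ _ _ _ _ => Iff.rfl⟩
  dead := fun _ hi _ hn => absurd hi hn

private theorem stepA_eq_self {k A : Finset ι} (h : ¬k ⊆ A) : stepA k A = A := if_neg h

theorem LocInv.step {s : Joint ι L r} (h : LocInv V H Tm s) {a : Finset ι} (ha : a ∈ H)
    (hne : a.Nonempty) : LocInv V H Tm (jointStep Tm a s) := by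
  have hsubA : stepA a s.1.1 ⊆ s.1.1 := by unfold stepA; split <;> simp
  have hsubS : ∀ m, (jointStep Tm a s).2 m ⊆ s.2 m := fun m => by
    simp only [jointStep]; unfold stepA; repeat' split
    all_goals simp
  have hge : ∀ k, (s.1.2.2 k).val ≤ (ringCost s.1 a k).val := fun k => by
    unfold ringCost
    split
    · exact le_min (Nat.le_of_lt_succ (s.1.2.2 k).isLt) (by omega)
    · exact le_rfl
  have hkill : ∀ A : Finset ι, ¬a ⊆ stepA a A := fun A => by
    obtain ⟨x, hx⟩ := hne
    unfold stepA; split
    · exact fun hs => (mem_sdiff.1 (hs hx)).2 hx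
    · assumption
  by_cases hu : a ∈ s.1.2.1
  swap
  · -- a block which rang before changes nothing
    have hd := h.rung a ha hu
    have e : jointStep Tm a s = s := by
      refine Prod.ext (Prod.ext (stepA_eq_self hd.1) (Prod.ext (erase_eq_of_notMem hu) ?_)) ?_
      · funext k; simp [jointStep, fullStep, ringCost, hu]
      · funext m
        simp only [jointStep]
        split
        · next hm => exact stepA_eq_self (hd.2 m hm)
        · rfl
    rwa [e]
  refine ⟨?_, ?_, ?_⟩
  · intro b hb hbu
    by_cases hba : b = a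
    · subst hba
      exact ⟨hkill _, fun m hm => by simpa [jointStep, hm] using hkill (s.2 m)⟩
    · have : b ∉ s.1.2.1 := fun hb' => hbu (mem_erase.2 ⟨hba, hb'⟩)
      exact ⟨fun hs => (h.rung b hb this).1 (hs.trans hsubA),
        fun m hm hs => (h.rung b hb this).2 m hm (hs.trans (hsubS m))⟩
  · intro i hi hc hiA m hm
    simp only [jointStep, fullStep] at hc hiA ⊢
    have hc0 : ∀ j ∈ blocksAt H i, (s.1.2.2 j).val < L :=
      fun j hj => lt_of_le_of_lt (hge j) (hc j hj)
    obtain ⟨hiS, hst⟩ := h.alive i hi hc0 (hsubA hiA) m hm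
    -- a ringing block at `i` is dead in both
    have hat : i ∈ a → ¬a ⊆ s.1.1 ∧ (a ∈ Tm m → ¬a ⊆ s.2 m) := fun hia => by
      have hda : ¬a ⊆ s.1.1 := fun hs => by simp [stepA, hs, hia] at hiA
      refine ⟨hda, fun hT => ?_⟩
      have hj : a ∈ blocksAt H i := mem_filter.2 ⟨ha, hia⟩
      exact fun hs => hda ((hst a hj hT 0 a (by simp [branch]) (by simpa using hc0 a hj)).2 hs)
    refine ⟨?_, fun j hj hjT d k hk hlt => ?_⟩
    · split
      · next hT =>
        by_cases hia : i ∈ a
        · rwa [stepA_eq_self ((hat hia).2 hT)]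
        · unfold stepA; split <;> simp [hiS, hia]
      · exact hiS
    have hold : k ⊆ s.1.1 ↔ k ⊆ s.2 m :=
      hst j hj hjT d k hk (lt_of_le_of_lt (Nat.add_le_add_right (hge k) d) hlt)
    by_cases hkA : k ⊆ s.1.1
    swap
    · exact iff_of_false (fun hs => hkA (hs.trans hsubA))
        (fun hs => hkA (hold.2 (hs.trans (by simpa [jointStep] using hsubS m))))
    have hkS := hold.1 hkA
    by_cases hka : k = a
    · subst hka
      have hT : k ∈ Tm m := hm j hj hjT (branch_mono H i j (by omega : d ≤ L) hk)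
      rw [if_pos hT]
      exact iff_of_false (hkill _) (hkill _)
    by_cases hdj : Disjoint a k
    · -- `k` stays alive in both runs
      have hkeep : ∀ A : Finset ι, k ⊆ A → k ⊆ stepA a A := fun A hA => by
        unfold stepA; split
        · exact subset_sdiff.2 ⟨hA, hdj.symm⟩
        · exact hA
      refine iff_of_true (hkeep _ hkA) ?_
      split
      · exact hkeep _ hkS
      · exact hkS
    have hcost : (s.1.2.2 k).val + 1 + (s.1.2.2 a).val + d < L := by
      have : ringCost s.1 a k =
          ⟨min L ((s.1.2.2 k).val + 1 + (s.1.2.2 a).val),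
            Nat.lt_succ_of_le (min_le_left _ _)⟩ := if_pos ⟨hu, hka, hkA, hdj⟩
      rw [this] at hlt
      simp only at hlt
      omega
    by_cases hia : i ∈ a
    · obtain ⟨hda, hds⟩ := hat hia
      rw [stepA_eq_self hda]
      split
      · next hT => rw [stepA_eq_self (hds hT)]; exact hold
      · exact hold
    · have ha' : a ∈ branch H i j (d + 1) :=
        mem_union_right _ (mem_filter.2 ⟨ha, hia, k, hk, hdj⟩)
      have hT : a ∈ Tm m := hm j hj hjT (branch_mono H i j (by omega : d + 1 ≤ L) ha')
      have hsame : a ⊆ s.1.1 ↔ a ⊆ s.2 m := hst j hj hjT (d + 1) a ha' (by omega)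
      rw [if_pos hT]
      by_cases has : a ⊆ s.1.1
      · have hdead : ∀ A : Finset ι, a ⊆ A → ¬k ⊆ stepA a A := fun A hA hs => by
          obtain ⟨x, hxa, hxk⟩ := not_disjoint_iff.1 hdj
          have := hs hxk
          simp [stepA, hA, hxa] at this
        exact iff_of_false (hdead _ has) (hdead _ (hsame.1 has))
      · rw [stepA_eq_self has, stepA_eq_self (fun hs => has (hsame.2 hs))]
        exact hold
  · intro i hi hc hiA
    simp only [jointStep, fullStep] at hc hiA
    have hc0 : ∀ j ∈ blocksAt H i, (s.1.2.2 j).val < L :=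
      fun j hj => lt_of_le_of_lt (hge j) (hc j hj)
    by_cases hi0 : i ∈ s.1.1
    · have has : a ⊆ s.1.1 := by
        by_contra hs; rw [stepA_eq_self hs] at hiA; exact hiA hi0
      have hia : i ∈ a := by
        by_contra hn; simp [stepA, has, hi0, hn] at hiA
      have hj : a ∈ blocksAt H i := mem_filter.2 ⟨ha, hia⟩
      refine ⟨a, hj, fun m hm hT => ?_⟩
      have := ((h.alive i hi hc0 hi0 m hm).2 a hj hT 0 a (by simp [branch])
        (by simpa using hc0 a hj)).1 has
      simp [jointStep, hT, stepA, this, hia]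
    · obtain ⟨j, hj, hw⟩ := h.dead i hi hc0 hi0
      exact ⟨j, hj, fun m hm hT hs => hw m hm hT (hsubS m hs)⟩

/-- Locality holds along the process. -/
theorem localStmt : LocalStmt := by
  intro ι _ _ V H hH L r Tm _ t ht F G hFG
  refine flow_le_of_inv (S := LocInv V H Tm) (fun a ha s hs => hs.step ha ?_) ht
    (fun s hs => hFG s hs.agree) locInv_start
  exact card_pos.1 (by rw [hH.card3 a ha]; norm_num)

end Vale.Agent.P046.Limit
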