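import Vale.Agent.P046.Limit.Near

/-!
P046: the number of alive points concentrates, from locality and small costs.
-/

open Finset

namespace Vale.Agent.P046.Limit

variable {ι : Type} [DecidableEq ι] [Fintype ι]
variable {V : Finset ι} {H : Finset (Finset ι)} {L r : ℕ} {Tm : Fin r → Finset (Finset ι)} {t : ℝ}

/-- The mean absolute deviation of runs with few dependent pairs. -/
theorem runs_deviation (ht : 0 ≤ t) {s : ℝ} (hs : 0 < s) {β : Type*} [Fintype β] [DecidableEq β]
    (f : β → Fin r) (P : β → Finset ι → Prop) (D : Finset (β × β))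
    (hD : ∀ x y, (x, y) ∉ D → Disjoint (Tm (f x)) (Tm (f y))) :
    jmean (L := L) V H Tm t (fun w => |∑ x, (ind (P x (w.2 (f x)))
        - jmean (L := L) V H Tm t (fun z => ind (P x (z.2 (f x)))))|) ≤
      s / 2 + (D.card : ℝ) / (2 * s) := by
  classical
  set μ : β → ℝ := fun x => jmean (L := L) V H Tm t (fun z => ind (P x (z.2 (f x)))) with hμ
  set g : β → Joint ι L r → ℝ := fun x w => ind (P x (w.2 (f x))) - μ x with hg
  have hμ01 : ∀ x, 0 ≤ μ x ∧ μ x ≤ 1 := fun x =>
    ⟨jmean_nonneg ht fun _ => ind_nonneg _,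
      (jmean_mono ht fun _ => ind_le_one _).trans_eq (jmean_const 1)⟩
  have hsq : jmean V H Tm t (fun w => (∑ x, g x w) ^ 2) ≤ (D.card : ℝ) := by
    have e : (fun w => (∑ x, g x w) ^ 2) = fun w => ∑ p : β × β, g p.1 w * g p.2 w := by
      funext w; rw [sq, sum_mul_sum, ← univ_product_univ, sum_product]
    rw [e, jmean_sum, ← sum_filter_add_sum_filter_not (univ : Finset (β × β)) (· ∈ D)]
    have h0 : ∑ p ∈ univ.filter (fun p : β × β => p ∉ D),
        jmean V H Tm t (fun w => g p.1 w * g p.2 w) = 0 := by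
      refine sum_eq_zero fun p hp => ?_
      have h := jmean_mul (L := L) (V := V) (H := H) (Tm := Tm) (t := t) ![f p.1] ![f p.2]
        (fun x y => by
          fin_cases x; fin_cases y
          exact hD p.1 p.2 (mem_filter.1 hp).2)
        (fun w => ind (P p.1 (w 0)) - μ p.1) (fun w => ind (P p.2 (w 0)) - μ p.2)
      simp only [Function.comp, Matrix.cons_val_zero] at h
      refine h.trans ?_
      rw [jmean_sub, jmean_const, sub_self, zero_mul]
    rw [h0, add_zero, filter_univ_mem]
    refine (sum_le_sum (g := fun _ => (1 : ℝ)) fun p _ => ?_).trans_eq (by simp)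
    refine (jmean_mono ht fun w => ?_).trans_eq (jmean_const 1)
    have b : ∀ x, |g x w| ≤ 1 := fun x => abs_le.2
      ⟨by linarith [ind_nonneg (P x (w.2 (f x))), (hμ01 x).2],
        by linarith [ind_le_one (P x (w.2 (f x))), (hμ01 x).1]⟩
    refine (le_abs_self _).trans ?_
    rw [abs_mul]
    exact mul_le_one₀ (b _) (abs_nonneg _) (b _)
  have hpt : ∀ w, |∑ x, g x w| ≤ s / 2 + 1 / (2 * s) * (∑ x, g x w) ^ 2 := by
    intro w
    rw [← sq_abs (∑ x, g x w), show s / 2 + 1 / (2 * s) * |∑ x, g x w| ^ 2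
      = (s ^ 2 + |∑ x, g x w| ^ 2) / (2 * s) by field_simp, le_div_iff₀ (by positivity)]
    nlinarith [sq_nonneg (|∑ x, g x w| - s)]
  refine (jmean_mono ht hpt).trans ?_
  rw [jmean_add, jmean_const, jmean_smul, one_div_mul_eq_div]
  gcongr

theorem abs_split {β : Type*} (S : Finset β) (a a' q q' : β → ℝ) :
    |∑ x ∈ S, (a x - q x)| ≤
      |∑ x ∈ S, (a' x - q' x)| + ∑ x ∈ S, (|a x - a' x| + |q x - q' x|) := by
  have e : ∑ x ∈ S, (a x - q x) =
      ∑ x ∈ S, (a' x - q' x) + ∑ x ∈ S, ((a x - a' x) - (q x - q' x)) := by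
    rw [← sum_add_distrib]
    exact sum_congr rfl fun x _ => by ring
  rw [e]
  exact (abs_add_le _ _).trans (add_le_add le_rfl
    ((abs_sum_le_sum_abs _ _).trans (sum_le_sum fun x _ => abs_sub _ _)))

/-- The number of alive points concentrates. -/
theorem var_of (hL : LocalStmt) (hC : CostStmt) : VarStmt := by
  classical
  refine ⟨6, fun ι _ _ V H hV L hL1 t s ht hs => ?_⟩
  set e := V.equivFin
  set Tm : Fin V.card → Finset (Finset ι) := fun m => ball H (e.symm m : ι) L with hTm
  have hT : ∀ m, Tm m ⊆ H := fun m => ball_subset _ L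
  have hx : ∀ x : V, Tm (e x) = ball H (x : ι) L := fun x => by simp [hTm]
  have hid : ∀ x : V, ∀ w : Joint ι L V.card, Agree V H Tm w → ¬Fails H (x : ι) w.1 →
      ((x : ι) ∈ w.1.1 ↔ (x : ι) ∈ w.2 (e x)) := by
    intro x w hw hf
    obtain ⟨h1, h2⟩ := agree_apply hw x.2 hf
    have hloc : Loc H L (Tm (e x)) (x : ι) := fun b hb _ => hx x ▸ branch_subset_ball hb L
    refine ⟨fun h => (h1 h _ hloc).1, fun h => by_contra fun hn => ?_⟩
    obtain ⟨b, hb, hb'⟩ := h2 hn
    exact hb' _ hloc (hx x ▸ blocksAt_subset_ball _ L hb) h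
  set q' : V → ℝ := fun x => jmean (L := L) V H Tm t (fun w => ind ((x : ι) ∈ w.2 (e x)))
  have hdev : ∀ x : V, |qf V H t x - q' x| ≤ failP V H L t x := fun x => by
    rw [qf_eq (L := L) (Tm := Tm)]; exact near hL hV hT ht (hid x)
  have hinv : mean V H t (fun A => |(A.card : ℝ) - ∑ i ∈ V, qf V H t i|) ≤
      mean V H t (fun A => |∑ x : V, (ind ((x : ι) ∈ A) - qf V H t x)|) := by
    refine flow_le_of_inv (S := fun A => A ⊆ V) (fun k _ A hA => ?_) ht (fun A hA => ?_) subset_rfl
    · rw [stepA]; split_ifs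
      · exact sdiff_subset.trans hA
      · exact hA
    · refine le_of_eq ?_
      rw [Finset.sum_coe_sort V (fun i => ind (i ∈ A) - qf V H t i), sum_sub_distrib]
      congr 2
      simp only [ind_eq]
      rw [← sum_filter, show V.filter (· ∈ A) = A by
        ext a; simp only [mem_filter]; exact ⟨fun h => h.2, fun h => ⟨hA h, h⟩⟩]
      simp
  refine hinv.trans ?_
  rw [← jmean_alive (L := L) (Tm := Tm)]
  refine (jmean_local hL hV hT ht
    (G := fun w => |∑ x : V, (ind ((x : ι) ∈ w.2 (e x)) - q' x)| +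
      ∑ x : V, (ind (Fails H (x : ι) w.1) + failP V H L t x)) fun w hw => ?_).trans ?_
  · refine (abs_split _ _ (fun x : V => ind ((x : ι) ∈ w.2 (e x))) _ q').trans
      (add_le_add le_rfl (sum_le_sum fun x _ => add_le_add ?_ (hdev x)))
    by_cases hf : Fails H (x : ι) w.1
    · exact (ind_abs_sub_le_one _ _).trans_eq (if_pos hf).symm
    · rw [propext (hid x w hw hf), sub_self, abs_zero]; exact ind_nonneg _
  set D : Finset (V × V) := univ.filter fun p => ¬Disjoint (Tm (e p.1)) (Tm (e p.2))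
  have hdv := runs_deviation (L := L) (V := V) (H := H) (Tm := Tm) ht hs (fun x => e x)
    (fun (x : V) A => (x : ι) ∈ A) D (fun x y h => by simpa [D] using h)
  have hcard : (D.card : ℝ) ≤ ((closePairs V H L).card : ℝ) := by
    refine Nat.cast_le.2 (card_le_card_of_injOn (fun p => ((p.1 : ι), (p.2 : ι))) ?_ ?_)
    · intro p hp
      simp only [D, hx, mem_coe, mem_filter] at hp
      simp [closePairs, hp.2]
    · intro a _ b _ h
      simp only [Prod.mk.injEq] at h
      exact Prod.ext (Subtype.ext h.1) (Subtype.ext h.2)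
  have hfail : ∑ x : V, failP V H L t x ≤ 3 * t * degSq V H / L := by
    rw [Finset.sum_coe_sort V (fun i => failP V H L t i)]
    exact sum_failP_le hV hC hL1 ht
  rw [jmean_add, jmean_sum]
  simp only [jmean_add, jmean_const, ← failP_eq, sum_add_distrib]
  have h1 : (D.card : ℝ) / (2 * s) ≤ ((closePairs V H L).card : ℝ) / (2 * s) := by gcongr
  have h2 : (0 : ℝ) ≤ ((closePairs V H L).card : ℝ) / s := by positivity
  have h3 : ((closePairs V H L).card : ℝ) / (2 * s) = ((closePairs V H L).card : ℝ) / s / 2 := by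
    ring
  have h4 : 2 * (3 * t * degSq V H / L) = 6 * (t * degSq V H / L) := by ring
  linarith

end Vale.Agent.P046.Limit
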