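import Vale.Agent.P046.Limit.Cost
import Vale.Agent.P046.Limit.Local
import Vale.Agent.P046.Limit.Closure
import Vale.Agent.P046.Limit.Var
import Vale.Agent.P046.Limit.Rates

/-! P046, the limit constant: the closure error and the concentration, unconditionally. -/

namespace Vale.Agent.P046.Limit

theorem closure : ClosureStmt := closure_of localStmt costStmt

theorem var : VarStmt := var_of localStmt costStmt

end Vale.Agent.P046.Limit
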