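import Vale.Agent.P046.Limit.Defs

/-!
P046, the limit constant: the costs are small in expectation (module Cost).

The potential `pairLoad` counts an alive block and an unrung block meeting it, weighted by one plus
the cost of the unrung one.  The expected growth of the total cost is at most `pairLoad`, and the
generator of `pairLoad` is nonpositive: what the ring of `a` adds to the pair `(k, j)` through the
cost of `j` is lost from the pair `(j, a)` when `k` rings.
-/

open Finset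

namespace Vale.Agent.P046.Limit

variable {ι : Type*} [DecidableEq ι]

/-- Two distinct blocks with a common point. -/
def Touch (k j : Finset ι) : Prop := k ≠ j ∧ ¬Disjoint k j

instance (k j : Finset ι) : Decidable (Touch k j) := inferInstanceAs (Decidable (_ ∧ _))

/-- Alive blocks next to unrung blocks, weighted by one plus the cost of the latter. -/
def pairLoad {L : ℕ} (H : Finset (Finset ι)) (s : Full ι L) : ℝ :=
  ∑ k ∈ H, ∑ j ∈ H,
    if k ⊆ s.1 ∧ j ∈ s.2.1 ∧ Touch k j then 1 + ((s.2.2 j).val : ℝ) else 0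

/-- The total cost. -/
def costSum {L : ℕ} (H : Finset (Finset ι)) (s : Full ι L) : ℝ :=
  ∑ k ∈ H, ((s.2.2 k).val : ℝ)

private theorem stepA_subset (k A : Finset ι) : stepA k A ⊆ A := by
  unfold stepA; split <;> simp

/-- The ring of `a` adds at most `1 + c a` to the cost of an alive neighbour, nothing to others. -/
theorem ringCost_le {L : ℕ} (s : Full ι L) (a k : Finset ι) :
    ((ringCost s a k).val : ℝ) ≤ (s.2.2 k).val +
      if k ⊆ s.1 ∧ a ∈ s.2.1 ∧ Touch k a then 1 + ((s.2.2 a).val : ℝ) else 0 := by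
  by_cases h : a ∈ s.2.1 ∧ k ≠ a ∧ k ⊆ s.1 ∧ ¬Disjoint a k
  · rw [if_pos ⟨h.2.2.1, h.1, h.2.1, fun hd => h.2.2.2 hd.symm⟩]
    have : (ringCost s a k).val ≤ (s.2.2 k).val + 1 + (s.2.2 a).val := by
      simp only [ringCost, if_pos h]; exact min_le_right _ _
    have : ((ringCost s a k).val : ℝ) ≤ (s.2.2 k).val + 1 + (s.2.2 a).val := by exact_mod_cast this
    linarith
  · simp only [ringCost, if_neg h, le_add_iff_nonneg_right]
    split <;> positivity

variable {H : Finset (Finset ι)}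

/-- The total cost grows at most at the rate `pairLoad`. -/
theorem gen_costSum_le {L : ℕ} (H : Finset (Finset ι)) (s : Full ι L) :
    gen H fullStep (costSum H) s ≤ pairLoad H s := by
  simp only [gen, costSum, pairLoad, ← sum_sub_distrib]
  rw [sum_comm]
  refine sum_le_sum fun k _ => sum_le_sum fun a _ => ?_
  have := ringCost_le s a k
  simp only [fullStep]
  linarith

/-- The change of one pair when `a` rings. -/
theorem pair_change_le {L : ℕ} {a k j : Finset ι} (s : Full ι L) :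
    (if k ⊆ (fullStep a s).1 ∧ j ∈ (fullStep a s).2.1 ∧ Touch k j
        then 1 + (((fullStep a s).2.2 j).val : ℝ) else 0) +
      (if a ⊆ s.1 ∧ k ⊆ s.1 ∧ j ∈ s.2.1 ∧ Touch k j ∧ Touch a k
        then 1 + ((s.2.2 j).val : ℝ) else 0) ≤
    (if k ⊆ s.1 ∧ j ∈ s.2.1 ∧ Touch k j then 1 + ((s.2.2 j).val : ℝ) else 0) +
      (if k ⊆ s.1 ∧ j ⊆ s.1 ∧ a ∈ s.2.1 ∧ Touch k j ∧ Touch j a
        then 1 + ((s.2.2 a).val : ℝ) else 0) := by
  by_cases h : k ⊆ (fullStep a s).1 ∧ j ∈ (fullStep a s).2.1 ∧ Touch k j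
  · have hk : k ⊆ s.1 := h.1.trans (stepA_subset _ _)
    have hju : j ∈ s.2.1 := mem_of_mem_erase h.2.1
    have hn : ¬(a ⊆ s.1 ∧ k ⊆ s.1 ∧ j ∈ s.2.1 ∧ Touch k j ∧ Touch a k) := by
      rintro ⟨ha, -, -, -, hak⟩
      obtain ⟨x, hxa, hxk⟩ := not_disjoint_iff.1 hak.2
      have := h.1 hxk
      simp [fullStep, stepA, ha, hxa] at this
    rw [if_pos h, if_neg hn, if_pos ⟨hk, hju, h.2.2⟩]
    have hc := ringCost_le s a j
    simp only [fullStep]
    split at hc
    · next hg => rw [if_pos ⟨hk, hg.1, hg.2.1, h.2.2, hg.2.2⟩]; linarith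
    · split <;> linarith [Nat.cast_nonneg (α := ℝ) (s.2.2 a).val]
  · rw [if_neg h]
    have h0 : (0 : ℝ) ≤ if k ⊆ s.1 ∧ j ⊆ s.1 ∧ a ∈ s.2.1 ∧ Touch k j ∧ Touch j a
        then 1 + ((s.2.2 a).val : ℝ) else 0 := by split <;> positivity
    by_cases hl : a ⊆ s.1 ∧ k ⊆ s.1 ∧ j ∈ s.2.1 ∧ Touch k j ∧ Touch a k
    · rw [if_pos hl, if_pos ⟨hl.2.1, hl.2.2.1, hl.2.2.2.1⟩]; linarith
    · rw [if_neg hl]; split <;> linarith [Nat.cast_nonneg (α := ℝ) (s.2.2 j).val]

/-- `pairLoad` decreases in expectation. -/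
theorem gen_pairLoad_nonpos {L : ℕ} (s : Full ι L) :
    gen H fullStep (pairLoad H) s ≤ 0 := by
  set g : Finset ι → Finset ι → Finset ι → ℝ := fun x y z =>
    if x ⊆ s.1 ∧ y ⊆ s.1 ∧ z ∈ s.2.1 ∧ Touch y z ∧ Touch x y
      then 1 + ((s.2.2 z).val : ℝ) else 0 with hg
  have e : ∑ a ∈ H, ∑ k ∈ H, ∑ j ∈ H, g k j a = ∑ a ∈ H, ∑ k ∈ H, ∑ j ∈ H, g a k j := by
    rw [sum_comm]
    exact sum_congr rfl fun k _ => sum_comm
  calc gen H fullStep (pairLoad H) s
      ≤ ∑ a ∈ H, ∑ k ∈ H, ∑ j ∈ H, (g k j a - g a k j) := by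
        simp only [gen, pairLoad, ← sum_sub_distrib]
        refine sum_le_sum fun a _ => sum_le_sum fun k _ => sum_le_sum fun j _ => ?_
        have := pair_change_le (a := a) (k := k) (j := j) s
        simp only [hg]
        have e1 : (k ⊆ s.1 ∧ j ⊆ s.1 ∧ a ∈ s.2.1 ∧ Touch j a ∧ Touch k j) ↔
            (k ⊆ s.1 ∧ j ⊆ s.1 ∧ a ∈ s.2.1 ∧ Touch k j ∧ Touch j a) := by tauto
        simp only [e1]
        linarith
    _ = 0 := by simp only [sum_sub_distrib]; rw [e, sub_self]

/-- The value of `pairLoad` at the start. -/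
theorem pairLoad_start_le {V : Finset ι} (hH : Lin V H) (L : ℕ) :
    pairLoad (L := L) H (V, H, fun _ => 0) ≤ degSq V H := by
  calc pairLoad (L := L) H (V, H, fun _ => 0)
      ≤ ∑ k ∈ H, ∑ j ∈ H, ∑ i ∈ V, if i ∈ k ∧ i ∈ j then (1 : ℝ) else 0 := by
        refine sum_le_sum fun k hk => sum_le_sum fun j _ => ?_
        have h0 : ∀ i ∈ V, (0 : ℝ) ≤ if i ∈ k ∧ i ∈ j then 1 else 0 :=
          fun i _ => by split <;> positivity
        simp only [Fin.val_zero, Nat.cast_zero, add_zero]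
        split
        · next h =>
          obtain ⟨x, hxk, hxj⟩ := not_disjoint_iff.1 h.2.2.2
          refine le_trans ?_ (single_le_sum h0 (hH.sub k hk hxk))
          simp [hxk, hxj]
        · exact sum_nonneg h0
    _ = ∑ i ∈ V, ∑ k ∈ H, ∑ j ∈ H, if i ∈ k ∧ i ∈ j then (1 : ℝ) else 0 := by
        conv_lhs => enter [2, k]; rw [sum_comm]
        exact sum_comm
    _ = degSq V H := by
        refine sum_congr rfl fun i _ => ?_
        simp only [dg, blocksAt, sq]
        rw [card_filter, Nat.cast_sum, sum_mul_sum]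
        refine sum_congr rfl fun k _ => sum_congr rfl fun j _ => ?_
        by_cases h1 : i ∈ k <;> by_cases h2 : i ∈ j <;> simp [h1, h2]

/-- The costs are small in expectation. -/
theorem costStmt : CostStmt := by
  intro ι _ _ V H hH L r Tm t ht
  set N : Joint ι L r → ℝ := fun s => ∑ k ∈ H, ((s.1.2.2 k).val : ℝ) with hN
  set W : Joint ι L r → ℝ := fun s => pairLoad H s.1 with hW
  set s₀ := jointStart V H L r
  have hgN : ∀ s, gen H (jointStep Tm) N s ≤ W s := fun s => gen_costSum_le H s.1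
  have hgW : ∀ s, gen H (jointStep Tm) W s ≤ 0 := fun s => gen_pairLoad_nonpos s.1
  have hd : ∀ u, 0 ≤ u → flow H (jointStep Tm) u (gen H (jointStep Tm) N) s₀ ≤ degSq V H :=
    fun u hu => calc
      _ ≤ flow H (jointStep Tm) u W s₀ := flow_mono hu hgN _
      _ ≤ W s₀ := flow_le_of_gen_nonpos (S := fun _ => True) (fun _ _ _ _ => trivial) hu
          (fun s _ => hgW s) trivial
      _ ≤ degSq V H := pairLoad_start_le hH L
  have h0 : flow H (jointStep Tm) 0 N s₀ = 0 := by simp [flow_zero, hN, s₀, jointStart]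
  have := (convex_Icc (0 : ℝ) t).image_sub_le_mul_sub_of_deriv_le
    (f := fun u => flow H (jointStep Tm) u N s₀)
    (fun u _ => (flow_deriv u N s₀).continuousAt.continuousWithinAt)
    (fun u _ => (flow_deriv u N s₀).differentiableAt.differentiableWithinAt)
    (C := degSq V H) (fun u hu => by
      rw [interior_Icc] at hu
      rw [(flow_deriv u N s₀).deriv]
      exact hd u hu.1.le)
    0 (Set.left_mem_Icc.2 ht) t (Set.right_mem_Icc.2 ht) ht
  linarith

end Vale.Agent.P046.Limit
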