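import Vale.Agent.P046.Limit.Semigroup
import Vale.Agent.P046.Sharp.Shape2

/-!
P046, the limit constant: blocks, the continuous-time process, the quantities of the calculus, and
the statements of the modules.

`V` is the set of points (edges of the graph) and `H` a linear family of three-element blocks
(triangles).  A state is the set of alive points.  Every block rings at rate one and, if it is alive,
deletes its three points.
-/

open Finset

namespace Vale.Agent.P046.Limit

variable {ι : Type*} [DecidableEq ι]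

/-- A linear family of three-element blocks on `V`. -/
structure Lin (V : Finset ι) (H : Finset (Finset ι)) : Prop where
  card3 : ∀ k ∈ H, k.card = 3
  sub : ∀ k ∈ H, k ⊆ V
  lin : ∀ k ∈ H, ∀ j ∈ H, k ≠ j → (k ∩ j).card ≤ 1

/-- The blocks through a point. -/
def blocksAt (H : Finset (Finset ι)) (i : ι) : Finset (Finset ι) := H.filter (i ∈ ·)

/-- The degree of a point. -/
noncomputable def dg (H : Finset (Finset ι)) (i : ι) : ℝ := ((blocksAt H i).card : ℝ)

/-- The squared degrees. -/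
noncomputable def degSq (V : Finset ι) (H : Finset (Finset ι)) : ℝ := ∑ i ∈ V, dg H i ^ 2

/-- The move when the block `k` rings. -/
def stepA (k A : Finset ι) : Finset ι := if k ⊆ A then A \ k else A

section Process

variable [Fintype ι]

/-- The expectation at time `t` of a function of the alive set, from everything alive. -/
noncomputable def mean (V : Finset ι) (H : Finset (Finset ι)) (t : ℝ) (F : Finset ι → ℝ) : ℝ :=
  flow H stepA t F V

/-- The probability that a point is alive. -/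
noncomputable def qf (V : Finset ι) (H : Finset (Finset ι)) (t : ℝ) (i : ι) : ℝ :=
  mean V H t fun A => if i ∈ A then 1 else 0

/-- The probability that a block is alive. -/
noncomputable def cf (V : Finset ι) (H : Finset (Finset ι)) (t : ℝ) (k : Finset ι) : ℝ :=
  mean V H t fun A => if k ⊆ A then 1 else 0

/-- The probability that two blocks are alive. -/
noncomputable def pf (V : Finset ι) (H : Finset (Finset ι)) (t : ℝ) (k j : Finset ι) : ℝ :=
  mean V H t fun A => if k ⊆ A ∧ j ⊆ A then 1 else 0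

end Process

/-! ### The calculus -/

/-- The weight of the block `k` at its point `i`. -/
noncomputable def bk (q : ι → ℝ) (c : Finset ι → ℝ) (k : Finset ι) (i : ι) : ℝ := c k / q i

/-- The death rate of a point. -/
noncomputable def load (H : Finset (Finset ι)) (q : ι → ℝ) (c : Finset ι → ℝ) (i : ι) : ℝ :=
  (∑ k ∈ blocksAt H i, c k) / q i

/-- The error of the closure at the point `i` of the block `k`. -/
noncomputable def eta (H : Finset (Finset ι)) (q : ι → ℝ) (c : Finset ι → ℝ)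
    (p : Finset ι → Finset ι → ℝ) (k : Finset ι) (i : ι) : ℝ :=
  (∑ j ∈ (blocksAt H i).erase k, p j k) - c k * (load H q c i - bk q c k i)

/-- The trajectory of the death rate from the scale `D`. -/
noncomputable def lam (D t : ℝ) : ℝ :=
  D * Real.exp (-t) / (1 + 2 * D * (1 - Real.exp (-t)))

/-- The closed system with error `η`. -/
structure Ode (V : Finset ι) (H : Finset (Finset ι)) (q : ℝ → ι → ℝ) (c : ℝ → Finset ι → ℝ)
    (η : ℝ → Finset ι → ι → ℝ) : Prop where
  q_zero : ∀ i ∈ V, q 0 i = 1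
  c_zero : ∀ k ∈ H, c 0 k = 1
  q_pos : ∀ t, 0 ≤ t → ∀ i ∈ V, 0 < q t i
  q_le : ∀ t, 0 ≤ t → ∀ i ∈ V, q t i ≤ 1
  c_pos : ∀ t, 0 ≤ t → ∀ k ∈ H, 0 < c t k
  c_le : ∀ t, 0 ≤ t → ∀ k ∈ H, ∀ i ∈ k, c t k ≤ q t i
  q_deriv : ∀ t, 0 ≤ t → ∀ i ∈ V,
    HasDerivAt (fun u => q u i) (-∑ k ∈ blocksAt H i, c t k) t
  c_deriv : ∀ t, 0 ≤ t → ∀ k ∈ H, HasDerivAt (fun u => c u k)
    (-c t k - ∑ i ∈ k, (c t k * (load H (q t) (c t) i - bk (q t) (c t) k i) + η t k i)) t

/-- The total error of the closure. -/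
noncomputable def etaSum (H : Finset (Finset ι)) (η : Finset ι → ι → ℝ) : ℝ :=
  ∑ k ∈ H, ∑ i ∈ k, |η k i|

/-- The relative death rate. -/
noncomputable def zt (H : Finset (Finset ι)) (q : ι → ℝ) (c : Finset ι → ℝ) (Λ : ℝ) (i : ι) : ℝ :=
  load H q c i / Λ

/-- The drift part. -/
noncomputable def ut (H : Finset (Finset ι)) (q : ι → ℝ) (c : Finset ι → ℝ) (Λ : ℝ) (w : ι → ℝ)
    (i : ι) : ℝ :=
  zt H q c Λ i * (1 - w i) - 1

/-- The neighbour average of the martingale part. -/
noncomputable def xt (H : Finset (Finset ι)) (q : ι → ℝ) (c : Finset ι → ℝ) (Λ : ℝ) (w : ι → ℝ)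
    (i : ι) : ℝ :=
  (∑ k ∈ blocksAt H i, bk q c k i * ∑ f ∈ k.erase i, w f) / Λ

/-- The potential of the drift part. -/
noncomputable def potU (V : Finset ι) (H : Finset (Finset ι)) (q : ι → ℝ) (c : Finset ι → ℝ)
    (Λ : ℝ) (w : ι → ℝ) : ℝ :=
  ∑ i ∈ V, q i * phi (ut H q c Λ w i)

/-- The potential of the neighbour average. -/
noncomputable def potV (V : Finset ι) (H : Finset (Finset ι)) (q : ι → ℝ) (c : Finset ι → ℝ)
    (Λ : ℝ) (w : ι → ℝ) : ℝ :=
  ∑ i ∈ V, q i * phi (xt H q c Λ w i)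

/-- The potential of the exclusion weights. -/
noncomputable def potE (H : Finset (Finset ι)) (q : ι → ℝ) (c : Finset ι → ℝ) : ℝ :=
  ∑ k ∈ H, c k * ∑ i ∈ k, bk q c k i ^ 2

/-- The martingale part, weighted. -/
noncomputable def potW (V : Finset ι) (q : ι → ℝ) (w : ι → ℝ) : ℝ := ∑ i ∈ V, q i * w i ^ 2

/-- The dissipation. -/
noncomputable def dissip (H : Finset (Finset ι)) (q : ι → ℝ) (c : Finset ι → ℝ) (Λ : ℝ)
    (w : ι → ℝ) : ℝ :=
  ∑ k ∈ H, c k * ∑ i ∈ k,
    term (zt H q c Λ i * (1 - w i)) (∑ j ∈ k, zt H q c Λ j * (1 - w j))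

/-- The differential inequalities of the calculus (module Drift). -/
def DriftStmt : Prop :=
  ∃ C : ℝ, ∀ (ι : Type) [DecidableEq ι] (V : Finset ι) (H : Finset (Finset ι)), Lin V H →
    ∀ (D : ℝ), 1 ≤ D → Sharp.cap D ≤ 1 / 1000 →
    ∀ w : ι → ℝ, (∀ i, |w i| ≤ 2 * Sharp.cap D) →
    ∀ (q : ℝ → ι → ℝ) (c : ℝ → Finset ι → ℝ) (η : ℝ → Finset ι → ι → ℝ), Ode V H q c η →
    ∀ t, 0 ≤ t → ∀ ε, 0 < ε → ε ≤ 1 → ∀ μ, 0 < μ → μ ≤ 1 →
      0 ≤ dissip H (q t) (c t) (lam D t) w ∧
      ∃ dU dV dE : ℝ,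
        HasDerivAt (fun u => potU V H (q u) (c u) (lam D u) w) dU t ∧
        HasDerivAt (fun u => potV V H (q u) (c u) (lam D u) w) dV t ∧
        HasDerivAt (fun u => potE H (q u) (c u)) dE t ∧
        dU ≤ (1 + C * Sharp.cap D + ε + C * μ) * (lam D t * potU V H (q t) (c t) (lam D t) w)
            - (1 - C * Sharp.cap D - C * μ) * dissip H (q t) (c t) (lam D t) w
            + C * (Sharp.cap D + μ) * (lam D t * potW V (q t) w)
            + C / ε * (lam D t * potV V H (q t) (c t) (lam D t) w)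
            + C / μ * (potE H (q t) (c t) / lam D t ^ 2)
            + C * etaSum H (η t) / lam D t ∧
        dV ≤ C * Sharp.cap D * (dissip H (q t) (c t) (lam D t) w
            + lam D t * (potU V H (q t) (c t) (lam D t) w + potV V H (q t) (c t) (lam D t) w
              + potW V (q t) w)
            + potE H (q t) (c t) / lam D t ^ 2
            + etaSum H (η t) / lam D t) ∧
        dE ≤ (6 - 61 / 10 * lam D t) * potE H (q t) (c t)
            + C * lam D t ^ 2 * (potU V H (q t) (c t) (lam D t) w + potW V (q t) w)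
            + C * etaSum H (η t)

/-- The drift part at time zero. -/
noncomputable def psi0 (V : Finset ι) (H : Finset (Finset ι)) (D : ℝ) (w : ι → ℝ) : ℝ :=
  ∑ i ∈ V, phi (dg H i / D * (1 - w i) - 1)

/-- The neighbour potential at time zero. -/
noncomputable def tq0 (V : Finset ι) (H : Finset (Finset ι)) (D : ℝ) (w : ι → ℝ) : ℝ :=
  ∑ i ∈ V, phi ((∑ k ∈ blocksAt H i, ∑ f ∈ k.erase i, w f) / D)

/-- The seeds of the calculus. -/
noncomputable def seed (V : Finset ι) (H : Finset (Finset ι)) (D : ℝ) (w : ι → ℝ) : ℝ :=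
  Sharp.cap D ^ (-(1/8) : ℝ) * Real.sqrt D *
      (psi0 V H D w + Sharp.cap D ^ (-(3/4) : ℝ) * tq0 V H D w
        + Sharp.cap D ^ (1/4 : ℝ) * ∑ i ∈ V, w i ^ 2)
    + Sharp.cap D ^ (1/16 : ℝ) * ((V.card : ℝ) / Real.sqrt D)

/-- The result of the calculus (module Calc). -/
def CalcStmt : Prop :=
  ∃ C₀ : ℝ, ∀ T : ℝ, 1 ≤ T → ∃ C D₀ : ℝ,
    ∀ (ι : Type) [DecidableEq ι] (V : Finset ι) (H : Finset (Finset ι)), Lin V H →
    ∀ (D : ℝ), D₀ ≤ D → ∀ w : ι → ℝ, (∀ i, |w i| ≤ 2 * Sharp.cap D) →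
    ∀ (q : ℝ → ι → ℝ) (c : ℝ → Finset ι → ℝ) (η : ℝ → Finset ι → ι → ℝ), Ode V H q c η →
    ∀ Hη : ℝ, (∀ t, 0 ≤ t → t ≤ T → etaSum H (η t) ≤ Hη) →
      |∑ i ∈ V, q T i - (V.card : ℝ) / Real.sqrt (2 * D)| + 3 * ∑ k ∈ H, c T k ≤
        C₀ * (Real.exp (-T) + 1 / D) * ((V.card : ℝ) / Real.sqrt D)
          + C * (seed V H D w + D ^ 2 * Hη)

/-! ### Locality -/

/-- The blocks within distance `r` of `j`, avoiding the other blocks at `i`. -/
def branch (H : Finset (Finset ι)) (i : ι) (j : Finset ι) : ℕ → Finset (Finset ι)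
  | 0 => {j}
  | r + 1 => branch H i j r ∪ H.filter fun a => i ∉ a ∧ ∃ k ∈ branch H i j r, ¬Disjoint a k

/-- The branches at `i` do not meet. -/
def GoodAt (H : Finset (Finset ι)) (L : ℕ) (i : ι) : Prop :=
  ∀ j ∈ blocksAt H i, ∀ j' ∈ blocksAt H i, j ≠ j' → Disjoint (branch H i j L) (branch H i j' L)

/-- The blocks within distance `r` of the point `i`. -/
def ball (H : Finset (Finset ι)) (i : ι) : ℕ → Finset (Finset ι)
  | 0 => blocksAt H i
  | r + 1 => ball H i r ∪ H.filter fun a => ∃ k ∈ ball H i r, ¬Disjoint a k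

open Classical in
/-- The pairs of points whose balls meet. -/
noncomputable def closePairs (V : Finset ι) (H : Finset (Finset ι)) (L : ℕ) : Finset (ι × ι) :=
  (V ×ˢ V).filter fun x => ¬Disjoint (ball H x.1 L) (ball H x.2 L)

/-- Alive points, unrung blocks and capped costs. -/
abbrev Full (ι : Type*) (L : ℕ) := Finset ι × Finset (Finset ι) × (Finset ι → Fin (L + 1))

/-- The cost of `k` after the ring of `a`. -/
def ringCost {L : ℕ} (s : Full ι L) (a k : Finset ι) : Fin (L + 1) :=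
  if a ∈ s.2.1 ∧ k ≠ a ∧ k ⊆ s.1 ∧ ¬Disjoint a k then
    ⟨min L ((s.2.2 k).val + 1 + (s.2.2 a).val), Nat.lt_succ_of_le (min_le_left _ _)⟩
  else s.2.2 k

/-- The move of the full state. -/
def fullStep {L : ℕ} (a : Finset ι) (s : Full ι L) : Full ι L :=
  (stepA a s.1, s.2.1.erase a, ringCost s a)

/-- The full state together with the runs on the families `Tm m`. -/
abbrev Joint (ι : Type*) (L r : ℕ) := Full ι L × (Fin r → Finset ι)

/-- The move of the joint state. -/
def jointStep {L r : ℕ} (Tm : Fin r → Finset (Finset ι)) (a : Finset ι) (s : Joint ι L r) :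
    Joint ι L r :=
  (fullStep a s.1, fun m => if a ∈ Tm m then stepA a (s.2 m) else s.2 m)

/-- The initial joint state. -/
def jointStart (V : Finset ι) (H : Finset (Finset ι)) (L r : ℕ) : Joint ι L r :=
  ((V, H, fun _ => 0), fun _ => V)

/-- The family `T` contains the branches of its blocks at `i`. -/
def Loc (H : Finset (Finset ι)) (L : ℕ) (T : Finset (Finset ι)) (i : ι) : Prop :=
  ∀ j ∈ blocksAt H i, j ∈ T → branch H i j L ⊆ T

/-- Locality: a point whose blocks all have small cost sees only the families around it. -/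
def Agree {L r : ℕ} (V : Finset ι) (H : Finset (Finset ι)) (Tm : Fin r → Finset (Finset ι))
    (s : Joint ι L r) : Prop :=
  ∀ i ∈ V, (∀ j ∈ blocksAt H i, (s.1.2.2 j).val < L) →
    (i ∈ s.1.1 → ∀ m, Loc H L (Tm m) i →
      i ∈ s.2 m ∧ ∀ j ∈ blocksAt H i, j ∈ Tm m → (j ⊆ s.1.1 ↔ j ⊆ s.2 m)) ∧
    (i ∉ s.1.1 → ∃ j ∈ blocksAt H i, ∀ m, Loc H L (Tm m) i → j ∈ Tm m → i ∉ s.2 m)

/-- The costs are small in expectation (module Cost). -/
def CostStmt : Prop :=
  ∀ (ι : Type) [DecidableEq ι] [Fintype ι] (V : Finset ι) (H : Finset (Finset ι)), Lin V H →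
    ∀ (L r : ℕ) (Tm : Fin r → Finset (Finset ι)) (t : ℝ), 0 ≤ t →
      flow H (jointStep Tm) t
          (fun s : Joint ι L r => ∑ k ∈ H, ((s.1.2.2 k).val : ℝ)) (jointStart V H L r) ≤
        t * degSq V H

/-- Locality holds along the process (module Local). -/
def LocalStmt : Prop :=
  ∀ (ι : Type) [DecidableEq ι] [Fintype ι] (V : Finset ι) (H : Finset (Finset ι)), Lin V H →
    ∀ (L r : ℕ) (Tm : Fin r → Finset (Finset ι)), (∀ m, Tm m ⊆ H) → ∀ t : ℝ, 0 ≤ t →
    ∀ F G : Joint ι L r → ℝ, (∀ s, Agree V H Tm s → F s ≤ G s) →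
      flow H (jointStep Tm) t F (jointStart V H L r) ≤
        flow H (jointStep Tm) t G (jointStart V H L r)

open Classical in
/-- The closure error (module Closure). -/
def ClosureStmt : Prop :=
  ∃ C : ℝ, ∀ (ι : Type) [DecidableEq ι] [Fintype ι] (V : Finset ι) (H : Finset (Finset ι)),
    Lin V H → ∀ (L : ℕ), 1 ≤ L → ∀ M t : ℝ, 0 ≤ M → 0 ≤ t →
      etaSum H (eta H (qf V H t) (cf V H t) (pf V H t)) ≤
        C * ((∑ i ∈ V, if GoodAt H L i ∧ dg H i ≤ M then 0 else dg H i ^ 2)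
          + M ^ 2 * t * degSq V H / L)

/-- The concentration of the number of alive points (module Var). -/
def VarStmt : Prop :=
  ∃ C : ℝ, ∀ (ι : Type) [DecidableEq ι] [Fintype ι] (V : Finset ι) (H : Finset (Finset ι)),
    Lin V H → ∀ (L : ℕ), 1 ≤ L → ∀ t s : ℝ, 0 ≤ t → 0 < s →
      mean V H t (fun A => |(A.card : ℝ) - ∑ i ∈ V, qf V H t i|) ≤
        C * (t * degSq V H / L + s + ((closePairs V H L).card : ℝ) / s)

/-- The exact equations of the process (module Rates). -/
def RatesStmt : Prop :=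
  ∀ (ι : Type) [DecidableEq ι] [Fintype ι] (V : Finset ι) (H : Finset (Finset ι)), Lin V H →
    Ode V H (qf V H) (cf V H) (fun t => eta H (qf V H t) (cf V H t) (pf V H t))

end Vale.Agent.P046.Limit
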