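import Vale.Agent.P046.Limit.Drift.Bounds

/-! P046, the limit constant: module Drift, the differential inequalities of the calculus. -/

open Finset

namespace Vale.Agent.P046.Limit

theorem drift : DriftStmt := by
  refine ⟨200000, fun ι _ V H hL D hD hcap w hw q c η hO t ht ε hε hε1 μ hμ _ => ?_⟩
  have h : Drift.St V H (q t) (c t) (lam D t) (Sharp.cap D) w :=
    ⟨hL, hO.q_pos t ht, hO.c_pos t ht, hO.c_le t ht, Drift.lam_pos hD ht,
      (Sharp.cap_pos (by linarith)).le, hcap, hw⟩
  exact ⟨h.dissip_nonneg, _, _, _, Drift.potU_rate hO hD ht w, Drift.potV_rate hO hD ht w,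
    Drift.potE_rate hO hD ht hL, h.uPot_le (η t) hε hε1 hμ, h.vPot_le (η t), h.ePot_le (η t)⟩

end Vale.Agent.P046.Limit
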