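import Vale.Agent.P046.Limit.Top
import Vale.Agent.P046.Sharp.Top.Penalty
import Vale.Agent.P046.Sharp.Top.Exit

/-! P046, the limit constant: step A, unconditionally. -/

namespace Vale.Agent.P046.Limit

/-- The window certificate. -/
theorem topCertified : Sharp.Top.TopCertified :=
  Sharp.Top.topCertified_of Sharp.Top.exitBound

/-- Step A. -/
theorem stopMain : StopMainStmt := stopMain_of topCertified

end Vale.Agent.P046.Limit
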