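import Vale.Agent.P046.Limit.CalcMain
import Vale.Agent.P046.Limit.Drift
import Vale.Agent.P046.Limit.Assembly
import Vale.Agent.P046.Limit.StopMain
import Vale.Agent.P046.Limit.A2.Main

/-! P046: `F_n / n^{3/2}` tends to `1/(2 sqrt 2)` in probability and in expectation. -/

namespace Vale.Agent.P046.Limit

theorem limit : LimitStmt :=
  limit_of_l1 (limit_of stopMain A2.stopTail A2.stopCycle (calc_of_drift drift))

end Vale.Agent.P046.Limit
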