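import Vale.Agent.P046.Limit.Runs

/-!
P046: two events which agree wherever locality holds have close probabilities.
-/

open Finset

namespace Vale.Agent.P046.Limit

open Classical in
/-- The indicator of a proposition. -/
noncomputable def ind (p : Prop) : ℝ := if p then 1 else 0

theorem ind_nonneg (p : Prop) : 0 ≤ ind p := by
  unfold ind; split_ifs <;> norm_num

theorem ind_le_one (p : Prop) : ind p ≤ 1 := by
  unfold ind; split_ifs <;> norm_num

theorem ind_le_ind {p q : Prop} (h : p → q) : ind p ≤ ind q := by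
  classical
  by_cases hp : p
  · simp [ind, hp, h hp]
  · simp only [ind, if_neg hp]; exact ind_nonneg q

theorem ind_eq (p : Prop) [Decidable p] : ind p = if p then 1 else 0 := by
  by_cases h : p <;> simp [ind, h]

theorem ind_and (p q : Prop) : ind (p ∧ q) = ind p * ind q := by
  classical
  by_cases hp : p <;> by_cases hq : q <;> simp [ind, hp, hq]

theorem ind_abs_sub_le_one (p q : Prop) : |ind p - ind q| ≤ 1 :=
  abs_le.2 ⟨by linarith [ind_nonneg p, ind_le_one q], by linarith [ind_nonneg q, ind_le_one p]⟩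

variable {ι : Type} [DecidableEq ι] [Fintype ι]
variable {V : Finset ι} {H : Finset (Finset ι)} {L r : ℕ} {Tm : Fin r → Finset (Finset ι)} {t : ℝ}

theorem qf_eq (i : ι) :
    qf V H t i = jmean (L := L) V H Tm t (fun s => ind (i ∈ s.1.1)) := by
  rw [qf, ← jmean_alive (L := L) (Tm := Tm)]
  refine congrArg (jmean V H Tm t) (funext fun s => ?_)
  by_cases h : i ∈ s.1.1 <;> simp [ind, h]

theorem cf_eq (k : Finset ι) :
    cf V H t k = jmean (L := L) V H Tm t (fun s => ind (k ⊆ s.1.1)) := by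
  rw [cf, ← jmean_alive (L := L) (Tm := Tm)]
  refine congrArg (jmean V H Tm t) (funext fun s => ?_)
  by_cases h : k ⊆ s.1.1 <;> simp [ind, h]

theorem pf_eq (k j : Finset ι) :
    pf V H t k j = jmean (L := L) V H Tm t (fun s => ind (k ⊆ s.1.1 ∧ j ⊆ s.1.1)) := by
  rw [pf, ← jmean_alive (L := L) (Tm := Tm)]
  refine congrArg (jmean V H Tm t) (funext fun s => ?_)
  by_cases h : k ⊆ s.1.1 ∧ j ⊆ s.1.1 <;> simp [ind, h]

theorem failP_eq (i : ι) :
    failP V H L t i = jmean (L := L) V H Tm t (fun s => ind (Fails H i s.1)) := by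
  rw [jmean_full (Tm := Tm) (fun f : Full ι L => ind (Fails H i f)), failP]
  rfl

theorem jmean_local (hL : LocalStmt) (hV : Lin V H) (hT : ∀ m, Tm m ⊆ H) (ht : 0 ≤ t)
    {F G : Joint ι L r → ℝ} (h : ∀ s, Agree V H Tm s → F s ≤ G s) :
    jmean V H Tm t F ≤ jmean V H Tm t G :=
  hL ι V H hV L r Tm hT t ht F G h

theorem near (hL : LocalStmt) (hV : Lin V H) (hT : ∀ m, Tm m ⊆ H) (ht : 0 ≤ t) {i : ι}
    {P Q : Joint ι L r → Prop}
    (h : ∀ s, Agree V H Tm s → ¬Fails H i s.1 → (P s ↔ Q s)) :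
    |jmean V H Tm t (fun s => ind (P s)) - jmean V H Tm t (fun s => ind (Q s))| ≤
      failP V H L t i := by
  classical
  have key : ∀ s, Agree V H Tm s → |ind (P s) - ind (Q s)| ≤ ind (Fails H i s.1) := by
    intro s hs
    by_cases hf : Fails H i s.1
    · exact (ind_abs_sub_le_one _ _).trans_eq (if_pos hf).symm
    · simp [ind, h s hs hf, hf]
  rw [failP_eq (Tm := Tm), abs_le, ← jmean_sub, neg_le_iff_add_nonneg]
  constructor
  · rw [← jmean_add]
    refine le_of_eq_of_le (jmean_const (L := L) (Tm := Tm) (V := V) (H := H) (t := t) 0).symm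
      (jmean_local hL hV hT ht fun s hs => ?_)
    linarith [(abs_le.1 (key s hs)).1]
  · exact jmean_local hL hV hT ht fun s hs => (abs_le.1 (key s hs)).2

theorem jmean_nonneg (ht : 0 ≤ t) {F : Joint ι L r → ℝ} (h : ∀ s, 0 ≤ F s) :
    0 ≤ jmean V H Tm t F :=
  le_of_eq_of_le (jmean_const (L := L) (Tm := Tm) (V := V) (H := H) (t := t) 0).symm
    (jmean_mono ht h)

end Vale.Agent.P046.Limit
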