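import Vale.Agent.P046.Limit.Defs

/-!
P046: the joint process carries the process on the blocks, the runs on the families, and the full
state; the failure of locality is rare.
-/

open Finset

namespace Vale.Agent.P046.Limit

variable {ι : Type} [DecidableEq ι]
variable {V : Finset ι} {H : Finset (Finset ι)} {L r : ℕ} {Tm : Fin r → Finset (Finset ι)} {t : ℝ}

/-- The move of a run on the family `T`. -/
def runStep (T : Finset (Finset ι)) (a A : Finset ι) : Finset ι := if a ∈ T then stepA a A else A

theorem self_mem_branch (i : ι) (j : Finset ι) : ∀ r, j ∈ branch H i j r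
  | 0 => mem_singleton_self j
  | r + 1 => mem_union_left _ (self_mem_branch i j r)

theorem branch_subset (i : ι) {j : Finset ι} (hj : j ∈ H) : ∀ r, branch H i j r ⊆ H
  | 0 => by simpa [branch] using hj
  | r + 1 => union_subset (branch_subset i hj r) (filter_subset _ _)

theorem branch_eq {i : ι} {j : Finset ι} : ∀ {r : ℕ} {a : Finset ι},
    a ∈ branch H i j r → i ∈ a → a = j
  | 0, _, ha, _ => mem_singleton.1 ha
  | r + 1, a, ha, hia => by
    rcases mem_union.1 ha with h | h
    · exact branch_eq h hia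
    · exact absurd hia (mem_filter.1 h).2.1

theorem blocksAt_subset_ball (i : ι) : ∀ r, blocksAt H i ⊆ ball H i r
  | 0 => subset_rfl
  | r + 1 => (blocksAt_subset_ball i r).trans subset_union_left

theorem ball_subset (i : ι) : ∀ r, ball H i r ⊆ H
  | 0 => filter_subset _ _
  | r + 1 => union_subset (ball_subset i r) (filter_subset _ _)

theorem branch_subset_ball {i : ι} {j : Finset ι} (hj : j ∈ blocksAt H i) :
    ∀ r, branch H i j r ⊆ ball H i r
  | 0 => by simpa [branch, ball] using hj
  | r + 1 => by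
    refine union_subset ((branch_subset_ball hj r).trans subset_union_left) fun a ha => ?_
    obtain ⟨haH, -, k, hk, hka⟩ := mem_filter.1 ha
    exact mem_union_right _ (mem_filter.2 ⟨haH, k, branch_subset_ball hj r hk, hka⟩)

theorem sum_blocks {M : Type*} [AddCommMonoid M] (hV : ∀ k ∈ H, k ⊆ V)
    (f : Finset ι → ι → M) :
    ∑ k ∈ H, ∑ i ∈ k, f k i = ∑ i ∈ V, ∑ k ∈ blocksAt H i, f k i := by
  refine Finset.sum_comm' fun k i => ?_
  simp only [blocksAt, mem_filter]
  exact ⟨fun h => ⟨h, hV k h.1 h.2⟩, fun h => h.1⟩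

/-- The cost reached at `i` in the full state. -/
def Fails (H : Finset (Finset ι)) {L : ℕ} (i : ι) (f : Full ι L) : Prop :=
  ∃ j ∈ blocksAt H i, L ≤ (f.2.2 j).val

theorem agree_apply {s : Joint ι L r} (hs : Agree V H Tm s) {i : ι} (hi : i ∈ V)
    (hf : ¬Fails H i s.1) :
    (i ∈ s.1.1 → ∀ m, Loc H L (Tm m) i →
      i ∈ s.2 m ∧ ∀ j ∈ blocksAt H i, j ∈ Tm m → (j ⊆ s.1.1 ↔ j ⊆ s.2 m)) ∧
    (i ∉ s.1.1 → ∃ j ∈ blocksAt H i, ∀ m, Loc H L (Tm m) i → j ∈ Tm m → i ∉ s.2 m) := by
  refine hs i hi fun j hj => lt_of_not_ge fun h => hf ⟨j, hj, h⟩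

variable [Fintype ι]

/-- The expectation in the joint process. -/
noncomputable def jmean (V : Finset ι) (H : Finset (Finset ι)) {L r : ℕ}
    (Tm : Fin r → Finset (Finset ι)) (t : ℝ) (F : Joint ι L r → ℝ) : ℝ :=
  flow H (jointStep Tm) t F (jointStart V H L r)

theorem jmean_mono (ht : 0 ≤ t) {F G : Joint ι L r → ℝ} (h : ∀ s, F s ≤ G s) :
    jmean V H Tm t F ≤ jmean V H Tm t G :=
  flow_mono ht h _

theorem jmean_add (F G : Joint ι L r → ℝ) :
    jmean V H Tm t (fun s => F s + G s) = jmean V H Tm t F + jmean V H Tm t G := by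
  show flow H (jointStep Tm) t (F + G) _ = _
  rw [flow_add]; rfl

theorem jmean_sub (F G : Joint ι L r → ℝ) :
    jmean V H Tm t (fun s => F s - G s) = jmean V H Tm t F - jmean V H Tm t G := by
  show flow H (jointStep Tm) t (F - G) _ = _
  rw [flow_sub]; rfl

theorem jmean_smul (c : ℝ) (F : Joint ι L r → ℝ) :
    jmean V H Tm t (fun s => c * F s) = c * jmean V H Tm t F := by
  show flow H (jointStep Tm) t (c • F) _ = _
  rw [flow_smul]; rfl

theorem jmean_const (c : ℝ) : jmean (L := L) V H Tm t (fun _ => c) = c := by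
  rw [jmean, flow_const]

theorem jmean_sum {β : Type*} (S : Finset β) (F : β → Joint ι L r → ℝ) :
    jmean V H Tm t (fun s => ∑ b ∈ S, F b s) = ∑ b ∈ S, jmean V H Tm t (F b) := by
  have e : (fun s => ∑ b ∈ S, F b s) = ∑ b ∈ S, F b := by funext s; simp
  rw [jmean, e, flow_sum]; simp [jmean]

/-- The alive set follows the process. -/
theorem jmean_alive (F : Finset ι → ℝ) :
    jmean (L := L) V H Tm t (fun s => F s.1.1) = mean V H t F := by
  have h := flow_map (step := jointStep (L := L) Tm) (H' := H) (step' := stepA)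
    (fun s : Joint ι L r => s.1.1) subset_rfl (fun _ _ _ => rfl)
    (fun _ hk hk' => absurd hk hk') t F
  exact congrFun h (jointStart V H L r)

/-- The runs on disjoint families are independent. -/
theorem jmean_mul {p q : ℕ} (α : Fin p → Fin r) (β : Fin q → Fin r)
    (hd : ∀ x y, Disjoint (Tm (α x)) (Tm (β y)))
    (F₁ : (Fin p → Finset ι) → ℝ) (F₂ : (Fin q → Finset ι) → ℝ) :
    jmean (L := L) V H Tm t (fun s => F₁ (s.2 ∘ α) * F₂ (s.2 ∘ β)) =
      jmean (L := L) V H Tm t (fun s => F₁ (s.2 ∘ α)) *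
        jmean (L := L) V H Tm t (fun s => F₂ (s.2 ∘ β)) := by
  let st₁ : Finset ι → (Fin p → Finset ι) → (Fin p → Finset ι) :=
    fun a w x => runStep (Tm (α x)) a (w x)
  let st₂ : Finset ι → (Fin q → Finset ι) → (Fin q → Finset ι) :=
    fun a w y => runStep (Tm (β y)) a (w y)
  have h := flow_mul (H := H) (step := jointStep (L := L) Tm) (step₁ := st₁) (step₂ := st₂)
    (fun s : Joint ι L r => s.2 ∘ α) (fun s => s.2 ∘ β) (fun _ _ _ => rfl) (fun _ _ _ => rfl)
    (fun a _ => ?_) t F₁ F₂
  · have h1 := congrFun (flow_map (step := jointStep (L := L) Tm) (H' := H) (step' := st₁)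
      (fun s : Joint ι L r => s.2 ∘ α) subset_rfl (fun _ _ _ => rfl)
      (fun _ hk hk' => absurd hk hk') t F₁) (jointStart V H L r)
    have h2 := congrFun (flow_map (step := jointStep (L := L) Tm) (H' := H) (step' := st₂)
      (fun s : Joint ι L r => s.2 ∘ β) subset_rfl (fun _ _ _ => rfl)
      (fun _ hk hk' => absurd hk hk') t F₂) (jointStart V H L r)
    simp only [Function.comp_def] at h h1 h2 ⊢
    simp only [jmean]
    rw [h, h1, h2]
  · by_cases hx : ∀ x, a ∉ Tm (α x)
    · exact Or.inl fun w => funext fun x => if_neg (hx x)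
    · obtain ⟨x, hx⟩ := not_forall.1 hx
      exact Or.inr fun w => funext fun y =>
        if_neg (Finset.disjoint_left.1 (hd x y) (not_not.1 hx))

open Classical in
/-- The probability of the failure at `i`. -/
noncomputable def failP (V : Finset ι) (H : Finset (Finset ι)) (L : ℕ) (t : ℝ) (i : ι) : ℝ :=
  flow H fullStep t (fun f : Full ι L => if Fails H i f then 1 else 0) (V, H, fun _ => 0)

/-- The full state follows its process. -/
theorem jmean_full (F : Full ι L → ℝ) :
    jmean (L := L) V H Tm t (fun s => F s.1) = flow H fullStep t F (V, H, fun _ => 0) := by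
  have h := flow_map (step := jointStep (L := L) Tm) (H' := H) (step' := fullStep (L := L))
    (fun s : Joint ι L r => s.1) subset_rfl (fun _ _ _ => rfl)
    (fun _ hk hk' => absurd hk hk') t F
  exact congrFun h (jointStart V H L r)

/-- The failures are rare on average. -/
theorem sum_failP_le (hL : Lin V H) (hC : CostStmt) (hL1 : 1 ≤ L) (ht : 0 ≤ t) :
    ∑ i ∈ V, failP V H L t i ≤ 3 * t * degSq V H / L := by
  classical
  have hLp : (0 : ℝ) < L := by exact_mod_cast hL1
  set c : Finset ι → ℝ := fun k =>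
    flow H fullStep t (fun f : Full ι L => ((f.2.2 k).val : ℝ)) (V, H, fun _ => 0) with hc
  have hsum : ∑ k ∈ H, c k ≤ t * degSq V H := by
    have h := hC ι V H hL L 0 Fin.elim0 t ht
    change jmean (L := L) V H Fin.elim0 t _ ≤ _ at h
    rw [jmean_full (Tm := Fin.elim0) (fun f : Full ι L => ∑ k ∈ H, ((f.2.2 k).val : ℝ))] at h
    have e : (fun f : Full ι L => ∑ k ∈ H, ((f.2.2 k).val : ℝ))
        = ∑ k ∈ H, fun f => ((f.2.2 k).val : ℝ) := by funext f; simp
    rw [e, flow_sum, Finset.sum_apply] at h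
    exact h
  have hone : ∀ i, failP V H L t i * L ≤ ∑ k ∈ blocksAt H i, c k := by
    intro i
    have h := flow_mono (H := H) (step := fullStep (L := L)) ht
      (F := (L : ℝ) • fun f : Full ι L => if Fails H i f then (1 : ℝ) else 0)
      (G := ∑ k ∈ blocksAt H i, fun f => ((f.2.2 k).val : ℝ))
      (fun f => ?_) (V, H, fun _ => 0)
    · rw [flow_smul, flow_sum] at h
      simpa [failP, hc, Finset.sum_apply, mul_comm] using h
    · simp only [Finset.sum_apply, Pi.smul_apply, smul_eq_mul]
      split_ifs with hf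
      · obtain ⟨j, hj, hjL⟩ := hf
        refine le_trans ?_ (single_le_sum (fun k _ => by positivity) hj)
        rw [mul_one]; exact_mod_cast hjL
      · rw [mul_zero]; positivity
  rw [le_div_iff₀ hLp, sum_mul]
  refine (sum_le_sum fun i _ => hone i).trans ?_
  rw [← sum_blocks hL.sub, mul_assoc]
  refine le_of_eq_of_le ?_ (mul_le_mul_of_nonneg_left hsum (by norm_num))
  rw [mul_sum]
  exact sum_congr rfl fun k hk => by simp [hL.card3 k hk]

theorem failP_nonneg (ht : 0 ≤ t) (i : ι) : 0 ≤ failP V H L t i := by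
  classical
  refine le_of_eq_of_le (congrFun (flow_const (H := H) (step := fullStep (L := L)) t 0) _).symm
    (flow_mono ht (fun f => ?_) _)
  split_ifs <;> norm_num

end Vale.Agent.P046.Limit
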