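import Mathlib

/-!
P046: continuous time.  Every block `k ∈ H` rings at rate one and moves the state by `step k`.
`flow H step t F s` is the expectation of `F` at time `t` from the state `s`; it is defined as an
exponential of the generator on the functions on the finite state space.
-/

open Finset

namespace Vale.Agent.P046.Limit

variable {σ κ : Type*} [Fintype σ]

/-- The generator of the process. -/
def gen (H : Finset κ) (step : κ → σ → σ) (F : σ → ℝ) (s : σ) : ℝ :=
  ∑ k ∈ H, (F (step k s) - F s)

/-- The sum over the moves, a positive operator. -/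
noncomputable def moveL (H : Finset κ) (step : κ → σ → σ) : (σ → ℝ) →L[ℝ] (σ → ℝ) :=
  LinearMap.toContinuousLinearMap (∑ k ∈ H, LinearMap.funLeft ℝ ℝ (step k))

/-- The generator as a continuous linear map. -/
noncomputable def genL (H : Finset κ) (step : κ → σ → σ) : (σ → ℝ) →L[ℝ] (σ → ℝ) :=
  moveL H step - (H.card : ℝ) • 1

/-- The expectation of `F` at time `t`. -/
noncomputable def flow (H : Finset κ) (step : κ → σ → σ) (t : ℝ) (F : σ → ℝ) : σ → ℝ :=
  NormedSpace.exp (t • genL H step) F

variable {H : Finset κ} {step : κ → σ → σ}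

theorem moveL_apply (F : σ → ℝ) (s : σ) : moveL H step F s = ∑ k ∈ H, F (step k s) := by
  simp [moveL, LinearMap.funLeft, Finset.sum_apply]

theorem genL_apply (F : σ → ℝ) : genL H step F = gen H step F := by
  funext s
  simp [genL, gen, moveL_apply, sum_sub_distrib, sum_const, nsmul_eq_mul]

theorem flow_zero (F : σ → ℝ) : flow H step 0 F = F := by simp [flow, NormedSpace.exp_zero]

theorem flow_add (t : ℝ) (F G : σ → ℝ) : flow H step t (F + G) = flow H step t F + flow H step t G :=
  map_add _ _ _

theorem flow_smul (t c : ℝ) (F : σ → ℝ) : flow H step t (c • F) = c • flow H step t F :=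
  map_smul _ _ _

theorem flow_sub (t : ℝ) (F G : σ → ℝ) : flow H step t (F - G) = flow H step t F - flow H step t G :=
  map_sub _ _ _

theorem flow_sum {ι : Type*} (S : Finset ι) (t : ℝ) (F : ι → σ → ℝ) :
    flow H step t (∑ i ∈ S, F i) = ∑ i ∈ S, flow H step t (F i) :=
  map_sum _ _ _

theorem flow_deriv (t : ℝ) (F : σ → ℝ) (s : σ) :
    HasDerivAt (fun u => flow H step u F s) (flow H step t (gen H step F) s) t := by
  have h := ((hasDerivAt_exp_smul_const (genL H step) t).clm_apply
    (hasDerivAt_const t F))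
  have h' := hasDerivAt_pi.1 h s
  simpa [flow, genL_apply] using h'

theorem flow_deriv' (t : ℝ) (F : σ → ℝ) (s : σ) :
    HasDerivAt (fun u => flow H step u F s) (gen H step (flow H step t F) s) t := by
  have h := ((hasDerivAt_exp_smul_const' (genL H step) t).clm_apply
    (hasDerivAt_const t F))
  have h' := hasDerivAt_pi.1 h s
  simpa [flow, ← genL_apply] using h'

/-- Uniqueness: a solution of the backward equation is the flow. -/
theorem eq_flow {F : σ → ℝ} {g : ℝ → σ → ℝ} (h0 : g 0 = F)
    (hd : ∀ t s, HasDerivAt (fun u => g u s) (gen H step (g t) s) t) (t : ℝ) :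
    g t = flow H step t F := by
  have hg : ∀ u, HasDerivAt g (genL H step (g u)) u := fun u =>
    hasDerivAt_pi.2 fun s => by rw [genL_apply]; exact hd u s
  set φ : ℝ → σ → ℝ := fun u => NormedSpace.exp ((t - u) • genL H step) (g u) with hφ
  have hd' : ∀ u, HasDerivAt φ 0 u := fun u => by
    have e1 : HasDerivAt (fun v => NormedSpace.exp ((t - v) • genL H step))
        (-(NormedSpace.exp ((t - u) • genL H step) * genL H step)) u := by
      simpa [Function.comp_def] using
        (hasDerivAt_exp_smul_const (genL H step) (t - u)).scomp u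
          ((hasDerivAt_id u).const_sub t)
    simpa using e1.clm_apply (hg u)
  have := is_const_of_deriv_eq_zero (fun u => (hd' u).differentiableAt)
    (fun u => (hd' u).deriv) t 0
  simpa [hφ, NormedSpace.exp_zero, h0, flow] using this

/-- The flow as a Poisson mixture of the moves. -/
theorem flow_eq_exp_move (t : ℝ) (F : σ → ℝ) :
    flow H step t F =
      Real.exp (-((H.card : ℝ) * t)) • NormedSpace.exp (t • moveL H step) F := by
  refine (eq_flow (g := fun u => Real.exp (-((H.card : ℝ) * u)) •
    NormedSpace.exp (u • moveL H step) F) (by simp [NormedSpace.exp_zero]) (fun u s => ?_) t).symm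
  have e1 : HasDerivAt (fun v => Real.exp (-((H.card : ℝ) * v)))
      (Real.exp (-((H.card : ℝ) * u)) * -(H.card : ℝ)) u := by
    simpa using (((hasDerivAt_id u).const_mul (H.card : ℝ)).neg).exp
  have e2 := (hasDerivAt_exp_smul_const' (moveL H step) u).clm_apply (hasDerivAt_const u F)
  have h := hasDerivAt_pi.1 (e1.smul e2) s
  refine h.congr_deriv ?_
  simp [← genL_apply, genL]
  ring

/-- Monotonicity on a closed set of states. -/
theorem flow_le_of_inv {S : σ → Prop} (hS : ∀ k ∈ H, ∀ s, S s → S (step k s)) {t : ℝ} (ht : 0 ≤ t)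
    {F G : σ → ℝ} (hFG : ∀ s, S s → F s ≤ G s) {s : σ} (hs : S s) :
    flow H step t F s ≤ flow H step t G s := by
  have key : 0 ≤ NormedSpace.exp (t • moveL H step) (G - F) s := by
    have h := NormedSpace.exp_series_hasSum_exp' (𝕂 := ℝ) (t • moveL H step)
    have h2 := (h.mapL (ContinuousLinearMap.apply ℝ (σ → ℝ) (G - F))).mapL
      (ContinuousLinearMap.proj (R := ℝ) (φ := fun _ : σ => ℝ) s)
    refine h2.nonneg fun n => ?_
    have hM : ∀ s', S s' → 0 ≤ ((moveL H step) ^ n) (G - F) s' := by
      induction n with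
      | zero => intro s' hs'; simpa using hFG s' hs'
      | succ n ih =>
        intro s' hs'
        rw [pow_succ']
        simp only [mul_apply_eq_comp, moveL_apply]
        exact sum_nonneg fun k hk => ih _ (hS k hk s' hs')
    have := hM s hs
    simp only [ContinuousLinearMap.apply_apply, ContinuousLinearMap.proj_apply, smul_pow,
      smul_apply, Pi.smul_apply, smul_eq_mul]
    positivity
  rw [flow_eq_exp_move, flow_eq_exp_move]
  simp only [map_sub, Pi.sub_apply] at key
  simp only [Pi.smul_apply, smul_eq_mul]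
  exact mul_le_mul_of_nonneg_left (by linarith) (Real.exp_nonneg _)

theorem flow_mono {t : ℝ} (ht : 0 ≤ t) {F G : σ → ℝ} (h : ∀ s, F s ≤ G s) (s : σ) :
    flow H step t F s ≤ flow H step t G s :=
  flow_le_of_inv (S := fun _ => True) (fun _ _ _ _ => trivial) ht (fun s _ => h s) trivial

theorem flow_const (t c : ℝ) : flow H step t (fun _ => c) = fun _ => c := by
  refine (eq_flow (g := fun _ _ => c) rfl (fun u s => ?_) t).symm
  simpa [gen] using hasDerivAt_const u c

theorem flow_abs_le {t : ℝ} (ht : 0 ≤ t) (F : σ → ℝ) (s : σ) :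
    |flow H step t F s| ≤ flow H step t (fun x => |F x|) s := by
  refine abs_le.2 ⟨?_, flow_mono ht (fun x => le_abs_self _) s⟩
  have := flow_mono (H := H) (step := step) ht (F := -(fun x => |F x|)) (G := F)
    (fun x => by simpa using neg_abs_le (F x)) s
  simpa [flow] using this

/-- A function with nonpositive generator on a closed set decreases in expectation. -/
theorem flow_le_of_gen_nonpos {S : σ → Prop} (hS : ∀ k ∈ H, ∀ s, S s → S (step k s))
    {t : ℝ} (ht : 0 ≤ t) {F : σ → ℝ} (hF : ∀ s, S s → gen H step F s ≤ 0) {s : σ} (hs : S s) :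
    flow H step t F s ≤ F s := by
  have h : AntitoneOn (fun u => flow H step u F s) (Set.Ici 0) := by
    refine antitoneOn_of_deriv_nonpos (convex_Ici 0)
      (fun u _ => (flow_deriv u F s).continuousAt.continuousWithinAt)
      (fun u _ => (flow_deriv u F s).differentiableAt.differentiableWithinAt) fun u hu => ?_
    rw [interior_Ici, Set.mem_Ioi] at hu
    rw [(flow_deriv u F s).deriv]
    refine (flow_le_of_inv hS hu.le (G := fun _ => (0 : ℝ)) hF hs).trans_eq ?_
    rw [flow_const]
  have h' := h Set.self_mem_Ici (Set.mem_Ici.2 ht) ht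
  simpa [flow_zero] using h'

/-- A function which is invariant in expectation. -/
theorem flow_eq_of_gen_zero {F : σ → ℝ} (hF : ∀ s, gen H step F s = 0) (t : ℝ) :
    flow H step t F = F :=
  (eq_flow (g := fun _ => F) rfl (fun u s => by simpa [hF s] using hasDerivAt_const u (F s)) t).symm

/-- A projection of the states which commutes with the moves carries the flow. -/
theorem flow_map {τ : Type*} [Fintype τ] {H' : Finset κ} {step' : κ → τ → τ} (φ : σ → τ)
    (hsub : H' ⊆ H) (h1 : ∀ k ∈ H', ∀ s, φ (step k s) = step' k (φ s))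
    (h2 : ∀ k ∈ H, k ∉ H' → ∀ s, φ (step k s) = φ s) (t : ℝ) (F : τ → ℝ) :
    flow H step t (F ∘ φ) = flow H' step' t F ∘ φ := by
  classical
  refine (eq_flow (g := fun u => flow H' step' u F ∘ φ) (by rw [flow_zero]) (fun u s => ?_) t).symm
  refine (flow_deriv' u F (φ s)).congr_deriv ?_
  simp only [gen, Function.comp]
  rw [← sum_sdiff hsub, sum_eq_zero (s := H \ H') (fun k hk => by
    rw [h2 k (mem_sdiff.1 hk).1 (mem_sdiff.1 hk).2, sub_self]), zero_add]
  exact sum_congr rfl fun k hk => by rw [h1 k hk s]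

/-- Projections moved by disjoint families of blocks are independent. -/
theorem flow_mul {τ₁ τ₂ : Type*} [Fintype τ₁] [Fintype τ₂] {step₁ : κ → τ₁ → τ₁}
    {step₂ : κ → τ₂ → τ₂} (φ₁ : σ → τ₁) (φ₂ : σ → τ₂)
    (h1 : ∀ k ∈ H, ∀ s, φ₁ (step k s) = step₁ k (φ₁ s))
    (h2 : ∀ k ∈ H, ∀ s, φ₂ (step k s) = step₂ k (φ₂ s))
    (hor : ∀ k ∈ H, (∀ x, step₁ k x = x) ∨ (∀ x, step₂ k x = x))
    (t : ℝ) (F₁ : τ₁ → ℝ) (F₂ : τ₂ → ℝ) :
    flow H step t (fun s => F₁ (φ₁ s) * F₂ (φ₂ s))
      = fun s => flow H step₁ t F₁ (φ₁ s) * flow H step₂ t F₂ (φ₂ s) := by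
  refine (eq_flow (g := fun u s => flow H step₁ u F₁ (φ₁ s) * flow H step₂ u F₂ (φ₂ s))
    (by simp [flow_zero]) (fun u s => ?_) t).symm
  refine ((flow_deriv' u F₁ (φ₁ s)).mul (flow_deriv' u F₂ (φ₂ s))).congr_deriv ?_
  simp only [gen, sum_mul, mul_sum, ← sum_add_distrib]
  refine sum_congr rfl fun k hk => ?_
  rw [h1 k hk s, h2 k hk s]
  rcases hor k hk with h | h <;> rw [h] <;> ring

end Vale.Agent.P046.Limit
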