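import Vale.Agent.P046.Limit.Defs
import Vale.Agent.P046.Sharp.Basic

/-!
P046, the limit constant: the process stopped at the scale `D`, and what the top part of the proof
must deliver about the stopped state.
-/

open Finset Filter

namespace Vale.Agent.P046.Limit

variable {α : Type*} [DecidableEq α] [Fintype α]

/-- The triangles as blocks of edges. -/
def blocks (G : Finset (Finset α)) : Finset (Finset (Finset α)) := (tri G).image sides

/-- The process goes on. -/
def Go (D : ℝ) (G : Finset (Finset α)) (Y : ℝ) : Prop :=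
  D < Y ∧ (G.card : ℝ) * Y / 2 ≤ 3 * Sharp.triNum G ∧ (tri G).Nonempty

open Classical in
/-- The expectation of `F` at the first state at which the process does not go on. -/
noncomputable def stopE (D : ℝ)
    (F : Finset (Finset α) → Finset (Finset α) → ℝ → (Finset α → ℝ) → ℝ)
    (G B : Finset (Finset α)) (Y : ℝ) (w : Finset α → ℝ) : ℝ :=
  if Go D G Y then
    (∑ t ∈ (tri G).attach, stopE D F (G \ sides t.1) (Sharp.nextB G B Y t.1) (Sharp.nextY G Y)
      (Sharp.nextW G B Y w t.1)) / ((tri G).card : ℝ)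
  else F G B Y w
termination_by G.card
decreasing_by exact card_removed_lt t.2

variable {D : ℝ} {F F' : Finset (Finset α) → Finset (Finset α) → ℝ → (Finset α → ℝ) → ℝ}

theorem stopE_stop {G B : Finset (Finset α)} {Y : ℝ} {w : Finset α → ℝ} (h : ¬Go D G Y) :
    stopE D F G B Y w = F G B Y w := by
  rw [stopE, if_neg h]

theorem stopE_go {G B : Finset (Finset α)} {Y : ℝ} {w : Finset α → ℝ} (h : Go D G Y) :
    stopE D F G B Y w = (∑ t ∈ tri G, stopE D F (G \ sides t) (Sharp.nextB G B Y t)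
      (Sharp.nextY G Y) (Sharp.nextW G B Y w t)) / Sharp.triNum G := by
  rw [stopE, if_pos h, sum_attach (tri G) fun t => stopE D F (G \ sides t) (Sharp.nextB G B Y t)
    (Sharp.nextY G Y) (Sharp.nextW G B Y w t)]
  rfl

/-- A supersolution on an invariant set of states bounds the stopped expectation. -/
theorem stopE_le_of_step
    {I : Finset (Finset α) → Finset (Finset α) → ℝ → (Finset α → ℝ) → Prop}
    {S : Finset (Finset α) → Finset (Finset α) → ℝ → (Finset α → ℝ) → ℝ}
    (hI : ∀ G B Y w, I G B Y w → Go D G Y → ∀ t ∈ tri G,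
      I (G \ sides t) (Sharp.nextB G B Y t) (Sharp.nextY G Y) (Sharp.nextW G B Y w t))
    (hgo : ∀ G B Y w, I G B Y w → Go D G Y →
      ∑ t ∈ tri G, S (G \ sides t) (Sharp.nextB G B Y t) (Sharp.nextY G Y)
        (Sharp.nextW G B Y w t) ≤ Sharp.triNum G * S G B Y w)
    (hstop : ∀ G B Y w, I G B Y w → ¬Go D G Y → F G B Y w ≤ S G B Y w) :
    ∀ G B Y w, I G B Y w → stopE D F G B Y w ≤ S G B Y w := by
  intro G
  induction h : G.card using Nat.strong_induction_on generalizing G with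
  | _ m ih =>
    intro B Y w hG
    by_cases hg : Go D G Y
    · have hQ : (0 : ℝ) < Sharp.triNum G := by
        rw [Sharp.triNum]; exact_mod_cast hg.2.2.card_pos
      rw [stopE_go hg, div_le_iff₀' hQ]
      refine le_trans (sum_le_sum fun t ht => ?_) (hgo G B Y w hG hg)
      exact ih _ (h ▸ card_removed_lt ht) _ rfl _ _ _ (hI G B Y w hG hg t ht)
    · rw [stopE_stop hg]; exact hstop G B Y w hG hg

theorem stopE_mono
    {I : Finset (Finset α) → Finset (Finset α) → ℝ → (Finset α → ℝ) → Prop}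
    (hI : ∀ G B Y w, I G B Y w → Go D G Y → ∀ t ∈ tri G,
      I (G \ sides t) (Sharp.nextB G B Y t) (Sharp.nextY G Y) (Sharp.nextW G B Y w t))
    (h : ∀ G B Y w, I G B Y w → ¬Go D G Y → F G B Y w ≤ F' G B Y w) :
    ∀ G B Y w, I G B Y w → stopE D F G B Y w ≤ stopE D F' G B Y w := by
  refine stopE_le_of_step hI (fun G B Y w _ hg => ?_) fun G B Y w hG hg => ?_
  · have hQ : (Sharp.triNum G) ≠ 0 := by
      rw [Sharp.triNum]; exact_mod_cast hg.2.2.card_pos.ne'
    rw [stopE_go hg, mul_div_cancel₀ _ hQ]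
  · rw [stopE_stop hg]; exact h G B Y w hG hg

theorem stopE_affine (a b c : ℝ) : ∀ G B Y (w : Finset α → ℝ),
    stopE D (fun G B Y w => a * F G B Y w + b * F' G B Y w + c) G B Y w
      = a * stopE D F G B Y w + b * stopE D F' G B Y w + c := by
  intro G
  induction h : G.card using Nat.strong_induction_on generalizing G with
  | _ m ih =>
    intro B Y w
    by_cases hg : Go D G Y
    · have hQ : (Sharp.triNum G) ≠ 0 := by
        rw [Sharp.triNum]; exact_mod_cast hg.2.2.card_pos.ne'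
      rw [stopE_go hg, stopE_go hg, stopE_go hg,
        sum_congr rfl fun t ht => ih _ (h ▸ card_removed_lt ht) _ rfl _ _ _]
      simp only [sum_add_distrib, ← mul_sum, sum_const, nsmul_eq_mul]
      rw [← Sharp.triNum]
      field_simp
    · rw [stopE_stop hg, stopE_stop hg, stopE_stop hg]

/-- The states that occur. -/
def Inv (n : ℕ) (D : ℝ) (G B : Finset (Finset (Fin n))) (Y : ℝ) (w : Finset (Fin n) → ℝ) : Prop :=
  Sharp.Good G B Y w ∧ G ⊆ complete n ∧ D / 2 ≤ Y ∧ Y ≤ n

theorem Inv.next {n : ℕ} {D : ℝ} {G B : Finset (Finset (Fin n))} {Y : ℝ}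
    {w : Finset (Fin n) → ℝ} (hD : 10 ^ 9 ≤ D) (hc : Sharp.cap D ≤ 1 / 1000)
    (h : Inv n D G B Y w) (hg : Go D G Y) {t : Finset (Fin n)} (ht : t ∈ tri G) :
    Inv n D (G \ sides t) (Sharp.nextB G B Y t) (Sharp.nextY G Y) (Sharp.nextW G B Y w t) := by
  obtain ⟨hG, hsub, -, hYn⟩ := h
  have hd : Sharp.Dense G B Y w :=
    ⟨hG, by linarith [hg.1], (Sharp.cap_anti (by linarith) hg.1.le).trans hc, hg.2.1, hg.2.2⟩
  have h0 := hd.drop_nonneg
  have h1 := hd.drop_small
  refine ⟨hd.next_good ht, sdiff_subset.trans hsub, ?_, ?_⟩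
  · rw [Sharp.nextY, le_div_iff₀ (by linarith)]
    nlinarith [hg.1, hd.pos]
  · exact (div_le_self hd.pos.le (by linarith)).trans hYn

/-- The main error at the stopped state. -/
noncomputable def errTop (n : ℕ) (D : ℝ) (G _B : Finset (Finset (Fin n))) (Y : ℝ)
    (w : Finset (Fin n) → ℝ) : ℝ :=
  if Y ≤ D then
    seed G (blocks G) Y w
      + |(G.card : ℝ) / Real.sqrt (2 * Y) - (n : ℝ) * Real.sqrt n / (2 * Real.sqrt 2)|
  else (G.card : ℝ) + (n : ℝ) * Real.sqrt n

/-- The sum of the squared degrees above `M`. -/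
noncomputable def degTail (M : ℝ) {n : ℕ} (D : ℝ) (G _B : Finset (Finset (Fin n))) (Y : ℝ)
    (_w : Finset (Fin n) → ℝ) : ℝ :=
  if Y ≤ D then ∑ e ∈ G, if M < dg (blocks G) e then dg (blocks G) e ^ 2 else 0 else 0

open Classical in
/-- The number of edges on a short cycle of triangles. -/
noncomputable def badCount (L : ℕ) {n : ℕ} (D : ℝ) (G _B : Finset (Finset (Fin n))) (Y : ℝ)
    (_w : Finset (Fin n) → ℝ) : ℝ :=
  if Y ≤ D then ((G.filter fun e => ¬GoodAt (blocks G) L e).card : ℝ) else 0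

/-- The expectation of `F` at the stopped state, from the complete graph. -/
noncomputable def fromTop (n : ℕ) (D : ℝ)
    (F : Finset (Finset (Fin n)) → Finset (Finset (Fin n)) → ℝ → (Finset (Fin n) → ℝ) → ℝ) : ℝ :=
  stopE D F (complete n) ∅ ((n : ℝ) - 2) (fun _ => 0)

/-- Step A: the drift potentials and the edge count at the scale `D` (module Top). -/
def StopMainStmt : Prop :=
  ∀ δ : ℝ, 0 < δ → ∃ D₀ : ℝ, ∀ D : ℝ, D₀ ≤ D → ∀ᶠ n : ℕ in atTop,
    fromTop n D (errTop n D) ≤ δ * ((n : ℝ) * Real.sqrt n)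

/-- Step A2, first part: the degrees at the scale `D` have a uniform tail (module Tail). -/
def StopTailStmt : Prop :=
  ∃ D₀ : ℝ, ∀ D : ℝ, D₀ ≤ D → ∀ δ : ℝ, 0 < δ → ∃ M : ℝ, 0 ≤ M ∧ ∀ᶠ n : ℕ in atTop,
    fromTop n D (degTail M D) ≤ δ * ((n : ℝ) * Real.sqrt n)

/-- Step A2, second part: few short cycles at the scale `D` (module Short). -/
def StopCycleStmt : Prop :=
  ∃ D₀ : ℝ, ∀ D : ℝ, D₀ ≤ D → ∀ L : ℕ, ∀ δ : ℝ, 0 < δ → ∀ᶠ n : ℕ in atTop,
    fromTop n D (badCount L D) ≤ δ * ((n : ℝ) * Real.sqrt n)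

end Vale.Agent.P046.Limit
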