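import Vale.Agent.P046.Limit.Stop

/-!
P046, the limit constant: the target.  `leaveExp f G` is the expectation of `f` of the number of
edges left, by the same recursion as `leave`.
-/

open Finset Filter Topology

namespace Vale.Agent.P046.Limit

variable {α : Type*} [DecidableEq α] [Fintype α]

/-- The expectation of `f (number of edges left)`. -/
noncomputable def leaveExp (f : ℕ → ℝ) (G : Finset (Finset α)) : ℝ :=
  if (tri G).Nonempty then
    (∑ t ∈ (tri G).attach, leaveExp f (G \ sides t.1)) / ((tri G).card : ℝ)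
  else f G.card
termination_by G.card
decreasing_by exact card_removed_lt t.2

/-- The predicted constant. -/
noncomputable def target : ℝ := 1 / (2 * Real.sqrt 2)

/-- The mean distance of `F_n` from the prediction is `o(n^{3/2})`. -/
def LimitL1Stmt : Prop :=
  ∀ ε : ℝ, 0 < ε → ∀ᶠ n : ℕ in atTop,
    leaveExp (fun m : ℕ => |(m : ℝ) - target * ((n : ℝ) * Real.sqrt n)|) (complete n) ≤
      ε * ((n : ℝ) * Real.sqrt n)

open Classical in
/-- `F_n / n^{3/2}` tends to `1/(2 sqrt 2)` in probability and in expectation. -/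
def LimitStmt : Prop :=
  (∀ ε : ℝ, 0 < ε → Tendsto (fun n : ℕ => leaveExp (fun m : ℕ =>
      if ε ≤ |(m : ℝ) / ((n : ℝ) * Real.sqrt n) - target| then (1 : ℝ) else 0) (complete n))
    atTop (𝓝 0)) ∧
  Tendsto (fun n : ℕ => leave (complete n) / ((n : ℝ) * Real.sqrt n)) atTop (𝓝 target)

end Vale.Agent.P046.Limit
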