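import Vale.Agent.P046.Limit.Stop
import Vale.Agent.P046.Sharp.Top.Statement

/-!
P046, the limit constant, module Top: the seeds and the edge count at the scale `D`.
With `r = m / (√Y u₀)` and `h = 1 + A (cap(D/2) - cap Y)` the supersolution is
`10 u₀ ((1 + |r - 1|) h - 1) + θ ξ + ℓ ξ_top + const`.
-/

open Finset Filter

namespace Vale.Agent.P046.Limit

open Vale.Agent.P046.Sharp (cap drop nextY nextB nextW Good psi sq taint tq xx phiSum pen)

variable {α : Type*} [DecidableEq α] [Fintype α] {G B : Finset (Finset α)} {Y : ℝ}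
  {w : Finset α → ℝ}

theorem sides_injOn (G : Finset (Finset α)) : Set.InjOn (sides (α := α)) (tri G) := by
  intro k hk t ht he
  by_contra hne
  have h := card_inter_sides hk ht hne
  rw [he, inter_self, card_sides ht] at h
  omega

theorem blocksAt_blocks (G : Finset (Finset α)) (e : Finset α) :
    blocksAt (blocks G) e = ((tri G).filter (e ∈ sides ·)).image sides := by
  rw [blocksAt, blocks, filter_image]

theorem dg_blocks (G : Finset (Finset α)) (e : Finset α) : dg (blocks G) e = deg G e := by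
  rw [dg, blocksAt_blocks, card_image_of_injOn ((sides_injOn G).mono
    (coe_subset.2 (filter_subset _ _))), deg]

theorem psi0_blocks (G : Finset (Finset α)) (Y : ℝ) (w : Finset α → ℝ) :
    psi0 G (blocks G) Y w = psi G Y w :=
  sum_congr rfl fun e _ => by rw [dg_blocks]; rfl

theorem tq0_blocks (G : Finset (Finset α)) (Y : ℝ) (w : Finset α → ℝ) :
    tq0 G (blocks G) Y w = ∑ e ∈ G, phi (xx G Y w e) := by
  refine sum_congr rfl fun e _ => ?_
  rw [blocksAt_blocks, sum_image ((sides_injOn G).mono (coe_subset.2 (filter_subset _ _)))]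
  rfl

theorem phi_le_sq (z : ℝ) : phi z ≤ z ^ 2 := by
  unfold phi
  split_ifs with h1 h2
  · exact div_le_self (sq_nonneg z) (by linarith)
  · exact le_rfl
  · nlinarith

/-- The neighbour potential is controlled by the certificate's potentials. -/
theorem sum_phi_xx_le (hY : 0 < Y) (hG : Good G B Y w) :
    ∑ e ∈ G, phi (xx G Y w e) ≤
      tq G B Y w + 64 * cap Y ^ 2 * ((G ∩ B).card : ℝ) + 16 * cap Y * phiSum G Y := by
  have hc := Sharp.cap_pos hY
  have hx : ∀ e, |xx G Y w e| ≤ 4 * cap Y * zeta G Y e := fun e => by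
    rw [xx, abs_div, abs_of_pos hY, zeta, mul_div_assoc']
    refine div_le_div_of_nonneg_right ?_ hY.le
    refine (abs_sum_le_sum_abs _ _).trans ?_
    rw [deg, mul_comm, ← nsmul_eq_mul, ← sum_const]
    refine sum_le_sum fun k hk => ?_
    obtain ⟨hk, he⟩ := mem_filter.1 hk
    refine (abs_sum_le_sum_abs _ _).trans ((sum_le_sum fun f _ => hG.small f).trans ?_)
    rw [sum_const, card_erase_of_mem he, card_sides hk, nsmul_eq_mul]
    norm_num
    linarith
  have hB : ∀ e, phi (xx G Y w e) ≤ 64 * cap Y ^ 2 + 16 * cap Y * phi (zeta G Y e - 1) := by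
    intro e
    have hp := phi_nonneg (zeta G Y e - 1)
    have h0 : 0 ≤ zeta G Y e := Sharp.zeta_nonneg' hY e
    rcases le_or_gt (zeta G Y e) 2 with h | h
    · refine (phi_le_sq _).trans ?_
      have h1 : |xx G Y w e| ≤ 8 * cap Y :=
        (hx e).trans (by linarith [mul_le_mul_of_nonneg_left h (show 0 ≤ 4 * cap Y by linarith)])
      have h2 := pow_le_pow_left₀ (abs_nonneg _) h1 2
      rw [sq_abs] at h2
      have : 0 ≤ 16 * cap Y * phi (zeta G Y e - 1) := by positivity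
      linarith
    · refine (Sharp.phi_le_abs _).trans ((hx e).trans ?_)
      have h1 := Sharp.le_two_phi (show 1 < zeta G Y e - 1 by linarith)
      have h2 : zeta G Y e ≤ 4 * phi (zeta G Y e - 1) := by linarith
      have := mul_le_mul_of_nonneg_left h2 (show 0 ≤ 4 * cap Y by linarith)
      have : 0 ≤ 64 * cap Y ^ 2 := by positivity
      linarith
  rw [← sum_sdiff (inter_subset_left : G ∩ B ⊆ G), sdiff_inter_self_left]
  have h1 : ∑ e ∈ G \ B, phi (xx G Y w e) ≤ tq G B Y w := sum_le_sum fun e _ => phi_le_sq _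
  have h2 : ∑ e ∈ G ∩ B, phi (xx G Y w e) ≤
      64 * cap Y ^ 2 * ((G ∩ B).card : ℝ) + 16 * cap Y * phiSum G Y := by
    refine (sum_le_sum fun e _ => hB e).trans ?_
    rw [sum_add_distrib, sum_const, nsmul_eq_mul, mul_comm ((_ : ℕ) : ℝ), ← mul_sum]
    refine add_le_add le_rfl (mul_le_mul_of_nonneg_left ?_ (by positivity))
    exact sum_le_sum_of_subset_of_nonneg inter_subset_left fun e _ _ => phi_nonneg _
  linarith

/-- The seeds are below a multiple of the penalty. -/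
theorem seed_le {N D : ℝ} (hG : Good G B Y w) (hN : 0 < N) (hD : 0 < D) (hY1 : D / 2 ≤ Y)
    (hY2 : Y ≤ D) (hYN : Y ≤ N) (hp : cap Y ≤ 1 / 10 ^ 30) :
    seed G (blocks G) Y w ≤
      2000 / (cap D ^ (1 / 16 : ℝ)) ^ 14 * pen N G B Y w
        + 2 * cap D ^ (1 / 16 : ℝ) * ((G.card : ℝ) / √Y) := by
  have hY : 0 < Y := by linarith
  have hy : 0 ≤ √Y := Real.sqrt_nonneg Y
  have hcY := Sharp.cap_pos hY
  have hcD := Sharp.cap_pos hD
  have hDY : cap D ≤ cap Y := Sharp.cap_anti hY hY2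
  have hY2D : cap Y ≤ 2 * cap D := by
    refine (Sharp.cap_anti (by linarith) hY1).trans ?_
    rw [cap, cap, Real.div_rpow hD.le (by norm_num), div_le_iff₀ (by positivity)]
    have : (1 : ℝ) / 2 ≤ (2 : ℝ) ^ (-(1/50) : ℝ) := by
      calc (1 / 2 : ℝ) = (2 : ℝ) ^ (-1 : ℝ) := by rw [Real.rpow_neg_one]; norm_num
        _ ≤ _ := Real.rpow_le_rpow_of_exponent_le (by norm_num) (by norm_num)
    have := mul_le_mul_of_nonneg_left this (show 0 ≤ 2 * D ^ (-(1/50) : ℝ) by positivity)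
    linarith
  set a := cap D ^ (1 / 16 : ℝ) with ha
  have ha0 : 0 < a := Real.rpow_pos_of_pos hcD _
  have ha16 : a ^ 16 = cap D := by
    rw [ha, ← Real.rpow_natCast, ← Real.rpow_mul hcD.le]; norm_num
  have haY : a ≤ cap Y ^ (1 / 16 : ℝ) := Real.rpow_le_rpow hcD.le hDY (by norm_num)
  have n1 : cap Y ^ (-(1/8) : ℝ) ≤ 1 / a ^ 2 := by
    rw [Real.rpow_neg hcY.le, one_div (a ^ 2)]
    refine inv_anti₀ (by positivity) ?_
    rw [ha, ← Real.rpow_natCast, ← Real.rpow_mul hcD.le]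
    norm_num
    exact Real.rpow_le_rpow hcD.le hDY (by norm_num)
  have n2 : cap Y ^ (-(3/4) : ℝ) ≤ 1 / a ^ 12 := by
    rw [Real.rpow_neg hcY.le, one_div (a ^ 12)]
    refine inv_anti₀ (by positivity) ?_
    rw [ha, ← Real.rpow_natCast, ← Real.rpow_mul hcD.le]
    norm_num
    exact Real.rpow_le_rpow hcD.le hDY (by norm_num)
  have n3 : cap Y ^ (1/4 : ℝ) ≤ 2 * a ^ 4 := by
    have e : a ^ 4 = cap D ^ (1/4 : ℝ) := by
      rw [ha, ← Real.rpow_natCast, ← Real.rpow_mul hcD.le]; norm_num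
    rw [e]
    refine (Real.rpow_le_rpow hcY.le hY2D (by norm_num)).trans ?_
    rw [Real.mul_rpow (by norm_num) hcD.le]
    refine mul_le_mul_of_nonneg_right ?_ (by positivity)
    exact Real.rpow_le_self_of_one_le (by norm_num) (by norm_num)
  have n4 : cap Y ^ (1/16 : ℝ) ≤ 2 * a := by
    refine (Real.rpow_le_rpow hcY.le hY2D (by norm_num)).trans ?_
    rw [Real.mul_rpow (by norm_num) hcD.le, ← ha]
    exact mul_le_mul_of_nonneg_right (Real.rpow_le_self_of_one_le (by norm_num) (by norm_num))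
      ha0.le
  have hψ := Sharp.psi_nonneg G Y w
  have hq := Sharp.sq_nonneg' G w
  have hΓ := Sharp.taint_nonneg G B Y
  have hT : 0 ≤ tq G B Y w := sum_nonneg fun _ _ => sq_nonneg _
  obtain ⟨b1, -⟩ := Sharp.beta_range hN hY hYN hp
  have he := Sharp.eps_pos hN hY
  have he1 : Sharp.eps N Y ≤ 1 := by
    have := Sharp.rho_le_one hY hYN
    unfold Sharp.eps
    linarith
  -- what the penalty dominates
  have q1 : √Y * psi G Y w + √Y * tq G B Y w + cap D * (√Y * sq G w) * 10 ^ 27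
      + cap D * (√Y * taint G B Y) * 10 ^ 17 ≤ pen N G B Y w := by
    have k1 : √Y * psi G Y w ≤ Sharp.beta N Y * (√Y * psi G Y w) :=
      le_mul_of_one_le_left (by positivity) (by linarith)
    have k2 : √Y * tq G B Y w ≤ 4 / Sharp.eps N Y * (√Y * tq G B Y w) :=
      le_mul_of_one_le_left (by positivity) (by rw [le_div_iff₀ he]; linarith)
    have k3 := mul_le_mul_of_nonneg_right hDY
      (show 0 ≤ √Y * (10 ^ 27 * sq G w + 10 ^ 17 * taint G B Y) by positivity)
    have k4 : 0 ≤ 10 ^ 17 * Sharp.inv7 Y / Sharp.eps N Y * ((Sharp.cycles G B).card : ℝ) := by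
      unfold Sharp.inv7; positivity
    unfold pen
    linarith
  have hxx := sum_phi_xx_le hY hG
  have hphi := Sharp.phiSum_le (G := G) (w := w) hY fun e => (hG.small e).trans (by linarith)
  have hB := Sharp.card_tainted_le G B Y
  have hc2 : cap Y ^ 2 ≤ 4 * cap D * cap D := by
    have := pow_le_pow_left₀ hcY.le hY2D 2
    linarith
  have m1 : ∑ e ∈ G, phi (xx G Y w e) ≤ tq G B Y w + 256 * (cap D * cap D) * taint G B Y
      + 32 * cap D * (5 * psi G Y w + 24 * sq G w) := by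
    have k1 := mul_le_mul (show 64 * cap Y ^ 2 ≤ 256 * (cap D * cap D) by linarith) hB
      (Nat.cast_nonneg _) (by positivity)
    have k2 := mul_le_mul (show 16 * cap Y ≤ 32 * cap D by linarith) hphi
      (Sharp.phiSum_nonneg G Y) (by positivity)
    linarith
  have hcD1 : cap D ≤ 1 := by linarith
  have ha1 : a ≤ 1 := Real.rpow_le_one hcD.le hcD1 (by norm_num)
  unfold seed
  rw [psi0_blocks, tq0_blocks, show (∑ e ∈ G, w e ^ 2) = sq G w from rfl]
  refine add_le_add ?_ ?_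
  · calc cap Y ^ (-(1/8) : ℝ) * √Y * (psi G Y w + cap Y ^ (-(3/4) : ℝ) *
          ∑ e ∈ G, phi (xx G Y w e) + cap Y ^ (1/4 : ℝ) * sq G w)
        ≤ 1 / a ^ 2 * √Y * (psi G Y w + 1 / a ^ 12 * (tq G B Y w
          + 256 * (cap D * cap D) * taint G B Y + 32 * cap D * (5 * psi G Y w + 24 * sq G w))
          + 2 * a ^ 4 * sq G w) := by
          have : 0 ≤ ∑ e ∈ G, phi (xx G Y w e) := sum_nonneg fun _ _ => phi_nonneg _
          gcongr
      _ = (a ^ 12 * (√Y * psi G Y w) + √Y * tq G B Y w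
          + 256 * cap D * (cap D * (√Y * taint G B Y)) + 160 * cap D * (√Y * psi G Y w)
          + 768 * (cap D * (√Y * sq G w)) + 2 * (cap D * (√Y * sq G w))) / a ^ 14 := by
          field_simp
          rw [← ha16]
          ring
      _ ≤ 2000 * pen N G B Y w / a ^ 14 := by
          refine div_le_div_of_nonneg_right ?_ (by positivity)
          have p1 : 0 ≤ √Y * psi G Y w := by positivity
          have p2 : 0 ≤ cap D * (√Y * taint G B Y) := by positivity
          have p3 : 0 ≤ cap D * (√Y * sq G w) := by positivity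
          have p4 : 0 ≤ √Y * tq G B Y w := by positivity
          have k1 := mul_le_mul_of_nonneg_right (pow_le_one₀ (n := 12) ha0.le ha1) p1
          have k2 := mul_le_mul_of_nonneg_right hcD1 p2
          have k3 := mul_le_mul_of_nonneg_right hcD1 p1
          linarith
      _ = _ := by ring
  · exact mul_le_mul_of_nonneg_right n4 (div_nonneg (Nat.cast_nonneg _) hy)

/-- The move of the scaled edge count in one dense step. -/
theorem ratio_move {Y T m c P : ℝ} (hY : 1 ≤ Y) (hT : 0 < T) (hc : 0 < c) (hm : 6 ≤ c * m)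
    (hc1 : c ≤ 1 / 10) (hmY : m * Y / 2 ≤ 3 * T) (hP : 0 ≤ P)
    (hex : 3 * T - m * Y ≤ Y * (c * m + 2 / c * P))
    (hde : m * Y - 3 * T ≤ Y * (c * m + P / c)) :
    |(m - 3) * √(1 + 2 * (Y / T)) - m| ≤ Y / T * (2 * c * m + 2 / c * P) := by
  obtain ⟨d, hd⟩ : ∃ d, d = Y / T := ⟨_, rfl⟩
  rw [← hd]
  have hd0 : 0 < d := hd ▸ div_pos (by linarith) hT
  have hdm : d * m ≤ 6 := by
    rw [hd, div_mul_eq_mul_div, div_le_iff₀ hT]; linarith
  have hm60 : 60 ≤ m := by nlinarith
  have hd1 : 2 * d ≤ 1 := by nlinarith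
  have hq : √(1 + 2 * d) ≤ 1 + d :=
    (Lower.sqrt_one_add_le (show 0 ≤ 2 * d by linarith)).trans_eq (by ring)
  have hql : 1 + d - d ^ 2 / 2 ≤ √(1 + 2 * d) := by
    refine le_trans (le_of_eq ?_) (Lower.le_sqrt_one_add (show 0 ≤ 2 * d by linarith) hd1)
    ring
  have hex' : 3 - m * d ≤ d * (10 * c / 10 * m + 20 / (10 * c) * P) := by
    rw [show 10 * c / 10 = c by ring, show 20 / (10 * c) = 2 / c by field_simp; norm_num, hd,
      ← sub_nonneg]
    have : 0 ≤ (Y * (c * m + 2 / c * P) - (3 * T - m * Y)) / T := div_nonneg (by linarith) hT.le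
    refine this.trans_eq ?_
    field_simp
    try ring
  have hde' : m * d - 3 ≤ d * (c * m + P / c) := by
    rw [hd, ← sub_nonneg]
    have : 0 ≤ (Y * (c * m + P / c) - (m * Y - 3 * T)) / T := div_nonneg (by linarith) hT.le
    refine this.trans_eq ?_
    field_simp
    try ring
  have low := Lower.step_main hd0 hdm (by linarith) hex' hql
  rw [show 10 * c / 10 = c by ring, show 20 / (10 * c) = 2 / c by field_simp; norm_num] at low
  have up := mul_le_mul_of_nonneg_left hq (show 0 ≤ m - 3 by linarith)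
  have h6 := mul_le_mul_of_nonneg_left hm hd0.le
  have e1 : P / c = 1 / 2 * (2 / c * P) := by ring
  have p1 : 0 ≤ d * (2 / c * P) := by positivity
  have p2 : 0 ≤ d * (c * m) := by have : 0 ≤ m := by linarith
                                  positivity
  rw [e1] at hde'
  rw [abs_le]
  constructor <;> linarith

/-- The scaled edge count. -/
noncomputable def ratio (u0 : ℝ) (G : Finset (Finset α)) (Y : ℝ) : ℝ := (G.card : ℝ) / (√Y * u0)

/-- The time factor. -/
noncomputable def hf (A D Y : ℝ) : ℝ := 1 + A * (cap (D / 2) - cap Y)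

/-- The supersolution. -/
noncomputable def topSup (xiC xiT : Finset (Finset α) → Finset (Finset α) → ℝ → (Finset α → ℝ) → ℝ)
    (u0 A D θ ℓ κ : ℝ) (G B : Finset (Finset α)) (Y : ℝ) (w : Finset α → ℝ) : ℝ :=
  10 * u0 * ((1 + |ratio u0 G Y - 1|) * hf A D Y - 1) + θ * xiC G B Y w + ℓ * xiT G B Y w + κ

variable {N K C K' C' Y1 u0 A D θ ℓ : ℝ}
variable {xiC xiT : Finset (Finset α) → Finset (Finset α) → ℝ → (Finset α → ℝ) → ℝ}

/-- The conditions on the constants. -/
structure TParams (K C K' C' u0 A D θ ℓ : ℝ) : Prop where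
  hD : 10 ^ 9 ≤ D / 2
  hK : K ≤ D / 2
  hK' : K' ≤ D / 2
  hC : 1 ≤ C
  hC' : 1 ≤ C'
  hu : 0 < u0
  hθ : 0 < θ
  hℓ : 0 < ℓ
  hA : 75 * (6 + θ * C + ℓ * C') ≤ A
  small : A * cap (D / 2) ≤ 1
  cap30 : cap (D / 2) ≤ 1 / 10 ^ 30
  base : 12000 * C ≤ θ * (√(D / 2) * cap (D / 2))

theorem TParams.facts (hP : TParams K C K' C' u0 A D θ ℓ) {Y : ℝ} (hY : D / 2 ≤ Y) :
    0 < cap Y ∧ cap Y ≤ 1 / 10 ^ 30 ∧ 1 ≤ hf A D Y ∧ hf A D Y ≤ 2 ∧
      12000 * C ≤ θ * (√Y * cap Y) := by
  obtain ⟨hD, -, -, hC, hC', hu, hθ, hℓ, hA, small, cap30, base⟩ := hP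
  have hc := Sharp.cap_pos (show 0 < Y by linarith)
  have h1 := Sharp.cap_anti (show 0 < D / 2 by linarith) hY
  have hA0 : 0 ≤ A := by
    have : 0 ≤ θ * C := by positivity
    have : 0 ≤ ℓ * C' := by positivity
    linarith
  refine ⟨hc, h1.trans cap30, ?_, ?_,
    base.trans (mul_le_mul_of_nonneg_left (Sharp.sqrt_cap_mono (by linarith) hY) hθ.le)⟩
  · have := mul_nonneg hA0 (sub_nonneg.2 h1); unfold hf; linarith
  · have := mul_nonneg hA0 hc.le; unfold hf; linarith

/-- One step of the time factor times the distance of the ratio from one. -/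
theorem factor_step {x x' h h' d c A e r : ℝ} (hx : 0 ≤ x) (hx' : 0 ≤ x') (hd : 0 ≤ d)
    (hd1 : d ≤ 1) (hc : 0 ≤ c) (hA : 0 ≤ A) (hAc : A * c ≤ 1) (he : 0 ≤ e) (hrx : r ≤ 1 + x)
    (hstep : x' ≤ x + 2 * c * d * r + e) (h1 : 1 ≤ h) (h2 : h ≤ 2)
    (hgain : h' + A * c * d / 75 ≤ h) :
    (1 + x') * h' ≤ (1 + x) * h - (A / 75 - 4) * (c * d) * (1 + x) + 2 * e := by
  have hcd : 0 ≤ c * d := mul_nonneg hc hd
  have a0 : A * c * d ≤ 1 * 1 := mul_le_mul hAc hd1 hd zero_le_one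
  rcases le_or_gt h' 0 with hneg | hpos
  · have a1 : (1 + x') * h' ≤ 0 := mul_nonpos_of_nonneg_of_nonpos (by linarith) hneg
    have a3 := mul_le_mul_of_nonneg_right h1 (show 0 ≤ 1 + x by linarith)
    have a5 := mul_le_mul_of_nonneg_right (show (A / 75 - 4) * (c * d) ≤ 1 by linarith)
      (show 0 ≤ 1 + x by linarith)
    linarith
  · have a1 : (1 + x') * h' ≤ (1 + x + 2 * c * d * r + e) * h' :=
      mul_le_mul_of_nonneg_right (by linarith) hpos.le
    have h'2 : h' ≤ 2 := by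
      have : 0 ≤ A * c * d / 75 := by positivity
      linarith
    have a2 := mul_le_mul_of_nonneg_left h'2 he
    have a3 : 2 * c * d * r * h' ≤ 2 * c * d * (1 + x) * 2 :=
      mul_le_mul (mul_le_mul_of_nonneg_left hrx (by positivity)) h'2 hpos.le (by positivity)
    have a4 := mul_le_mul_of_nonneg_left hgain (show 0 ≤ 1 + x by linarith)
    linarith

/-- The combination of the three steps. -/
theorem combine_step {Q u0 κ F F' XC XT SC ST M S R Z e θ ℓ C C' d : ℝ} (hQ : 0 ≤ Q) (hu : 0 ≤ u0)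
    (hθ : 0 ≤ θ) (hℓ : 0 ≤ ℓ) (h1 : F' ≤ F - R + 2 * e)
    (sC : SC + Q * (2 * d * S) ≤ Q * (XC + C * (2 * d) * M))
    (sT : ST ≤ Q * (XT + C' * (2 * d) * M))
    (k2 : (θ * C + ℓ * C') * (2 * d * M) ≤ Z) (k10 : Z ≤ 10 * u0 * R)
    (k3 : 20 * u0 * e ≤ θ * (2 * d * S)) :
    Q * (10 * u0 * (F' - 1) + κ) + θ * SC + ℓ * ST
      ≤ Q * (10 * u0 * (F - 1) + θ * XC + ℓ * XT + κ) := by
  have a1 := mul_le_mul_of_nonneg_left h1 (mul_nonneg hQ (show 0 ≤ 10 * u0 by linarith))
  have a2 := mul_le_mul_of_nonneg_left sC hθ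
  have a3 := mul_le_mul_of_nonneg_left sT hℓ
  have a4 := mul_le_mul_of_nonneg_left (k2.trans k10) hQ
  have a5 := mul_le_mul_of_nonneg_left k3 hQ
  linarith

/-- The error term of the move is paid by the certificate. -/
theorem err_le {u0 y c d θ C P S : ℝ} (hu : 0 < u0) (hy : 0 < y) (hc : 0 < c) (hd : 0 ≤ d)
    (hθ : 0 ≤ θ) (hC : 1 ≤ C) (hbig : 12000 * C ≤ θ * (y * c)) (hyc : 1 ≤ y * c)
    (hS : 0 ≤ S) (hP : P ≤ 24 * S) :
    20 * u0 * (d * (2 / c * P) / (y * u0)) ≤ θ * (2 * d * (y * c) * S) := by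
  rw [show 20 * u0 * (d * (2 / c * P) / (y * u0)) = d * (40 * P) / (c * y) by field_simp; ring,
    div_le_iff₀ (mul_pos hc hy)]
  have k4 : 480 ≤ θ * (y * c) * (y * c) :=
    le_trans (show (480 : ℝ) ≤ θ * (y * c) by linarith) (le_mul_of_one_le_right (by positivity) hyc)
  calc d * (40 * P) ≤ d * (40 * (24 * S)) :=
        mul_le_mul_of_nonneg_left (by linarith) hd
    _ = 480 * (2 * (d * S)) := by ring
    _ ≤ θ * (y * c) * (y * c) * (2 * (d * S)) := mul_le_mul_of_nonneg_right k4 (by positivity)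
    _ = _ := by ring

/-- One dense step of the supersolution. -/
theorem topSup_step (hC : Sharp.Penalty α N K C xiC) (hT : Sharp.Top.TopPenalty α N K' C' Y1 xiT)
    (hP : TParams K C K' C' u0 A D θ ℓ) (κ : ℝ) (hG : Good G B Y w) (hY : D / 2 ≤ Y) (hYN : Y ≤ N)
    (hg : Go D G Y) :
    ∑ t ∈ tri G, topSup xiC xiT u0 A D θ ℓ κ (G \ sides t) (nextB G B Y t) (nextY G Y)
        (nextW G B Y w t) ≤
      Sharp.triNum G * topSup xiC xiT u0 A D θ ℓ κ G B Y w := by
  obtain ⟨hc, hc30, h1, h2, hbig⟩ := hP.facts hY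
  obtain ⟨hD, hK, hK', hC1, hC1', hu, hθ, hℓ, hA, small, cap30, -⟩ := hP
  obtain ⟨-, hmY, hne⟩ := hg
  have hd : Sharp.Dense G B Y w := ⟨hG, by linarith, hc30.trans (by norm_num), hmY, hne⟩
  have hY0 := hd.pos
  have hy : 0 < √Y := Real.sqrt_pos.2 hY0
  have hQ := hd.triNum_pos
  have hs := hd.drop_nonneg
  have hs1 := hd.drop_small
  have hQT : ((tri G).card : ℝ) = Sharp.triNum G := rfl
  set m := (G.card : ℝ) with hm
  set Q := Sharp.triNum G with hQdef
  have hdrop : drop G Y = 2 * (Y / Q) := by rw [drop, ← hQdef]; ring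
  set d := Y / Q with hdd
  have hd0 : 0 ≤ d := by rw [hdd]; positivity
  have hm6 : 6 ≤ cap Y * m := by
    have k1 := hd.sq_le
    have k2 := hd.four_div_le_cap
    have k3 := mul_le_mul k2 (show Y ^ 2 / 16 ≤ m by rw [hm]; linarith) (by positivity) hc.le
    have e : 4 / Y * (Y ^ 2 / 16) = Y / 4 := by field_simp; ring
    linarith [hd.large]
  set P := Lower.shape G Y with hPdef
  have hP0 := Lower.shape_nonneg G Y
  have hψ := Sharp.psi_nonneg G Y w
  have hsq := Sharp.sq_nonneg' G w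
  have hPS : P ≤ 24 * (psi G Y w + sq G w) := by
    have := Sharp.shape_le_split hY0 (hc30.trans (by norm_num)) hG
    linarith
  have hmove := ratio_move (Y := Y) (T := Q) (m := m) (c := cap Y) (P := P) (by linarith [hd.large])
    hQ hc hm6 (by linarith) hmY hP0
    (Lower.tri_excess_le G hY0 hc (by linarith))
    (Sharp.deficit_le G hY0 hc (by linarith))
  rw [← hdd] at hmove
  have hden : 0 < √Y * u0 := mul_pos hy hu
  set r := ratio u0 G Y with hr
  set x := |r - 1| with hx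
  have hx0 : 0 ≤ x := abs_nonneg _
  have hr0 : 0 ≤ r := div_nonneg (Nat.cast_nonneg _) hden.le
  have hrx : r ≤ 1 + x := by linarith [le_abs_self (r - 1)]
  -- the new ratio is the same for every triangle
  set r' := (m - 3) * √(1 + 2 * d) / (√Y * u0) with hr'
  have hnext : ∀ t ∈ tri G, ratio u0 (G \ sides t) (nextY G Y) = r' := fun t ht => by
    have hcd := congrArg (fun n : ℕ => (n : ℝ)) (Lower.card_sdiff_sides (G := G) ht)
    push_cast at hcd
    rw [ratio, show ((G \ sides t).card : ℝ) = m - 3 by rw [hm]; linarith, nextY, hdrop,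
      Real.sqrt_div hY0.le, hr']
    field_simp
  set e := d * (2 / cap Y * P) / (√Y * u0) with he
  have hstep : |r' - 1| ≤ x + 2 * cap Y * d * r + e := by
    have k : |r' - r| ≤ 2 * cap Y * d * r + e := by
      rw [hr', hr, ratio, ← hm, ← sub_div, abs_div, abs_of_pos hden]
      refine (div_le_div_of_nonneg_right hmove hden.le).trans (le_of_eq ?_)
      rw [he]; ring
    linarith [abs_sub_le r' r 1]
  set h' := hf A D (nextY G Y) with hh'
  have hA0 : 0 ≤ A := by
    have : 0 ≤ θ * C := by positivity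
    have : 0 ≤ ℓ * C' := by positivity
    linarith
  have hgain : h' + A * cap Y * d / 75 ≤ hf A D Y := by
    have k := mul_le_mul_of_nonneg_left (Sharp.cap_next hY0 hs (by linarith)) hA0
    rw [hh', nextY, hdrop] at *
    unfold hf
    linarith
  -- the penalties
  have sC := hC.step G B Y w hG (hK.trans hY) hYN hmY
  have sT := (le_add_of_nonneg_right (mul_nonneg hQ.le (mul_nonneg (mul_nonneg hs
    (mul_nonneg hy.le hc.le)) (add_nonneg hψ hsq)))).trans (hT.step G B Y w hG (hK'.trans hY) hYN hmY)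
  rw [← hQdef, hdrop] at sC sT
  have hcd : 0 ≤ cap Y * d := mul_nonneg hc.le hd0
  have he0 : 0 ≤ e := by rw [he]; positivity
  have k1 : (1 + |r' - 1|) * h' ≤
      (1 + x) * hf A D Y - (A / 75 - 4) * (cap Y * d) * (1 + x) + 2 * e :=
    factor_step hx0 (abs_nonneg _) hd0 (by linarith) hc.le hA0
      ((mul_le_mul_of_nonneg_left (Sharp.cap_anti (by linarith) hY) hA0).trans small) he0 hrx hstep
      h1 h2 hgain
  have k2 : (θ * C + ℓ * C') * (2 * d * (m * cap Y / √Y)) ≤
      (θ * C + ℓ * C') * (2 * (cap Y * d) * ((1 + x) * u0)) := by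
    refine mul_le_mul_of_nonneg_left ?_ (by positivity)
    have e1 : m / √Y = r * u0 := by rw [hr, ratio, ← hm]; field_simp
    calc 2 * d * (m * cap Y / √Y) = 2 * (cap Y * d) * (m / √Y) := by ring
      _ ≤ _ := mul_le_mul_of_nonneg_left (e1 ▸ mul_le_mul_of_nonneg_right hrx hu.le) (by positivity)
  have k3 : 20 * u0 * e ≤ θ * (2 * d * (√Y * cap Y) * (psi G Y w + sq G w)) := by
    have hyc : 1 ≤ √Y * cap Y := by
      rw [Sharp.sqrt_cap_eq hY0]
      exact Real.one_le_rpow (by linarith [hd.large]) (by norm_num)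
    exact err_le hu hy hc hd0 hθ.le hC1 hbig hyc (by linarith) hPS
  have k10 : (θ * C + ℓ * C') * (2 * (cap Y * d) * ((1 + x) * u0)) ≤
      10 * u0 * ((A / 75 - 4) * (cap Y * d) * (1 + x)) := by
    rw [show 10 * u0 * ((A / 75 - 4) * (cap Y * d) * (1 + x)) =
      10 * (A / 75 - 4) * ((cap Y * d) * ((1 + x) * u0)) by ring,
      show (θ * C + ℓ * C') * (2 * (cap Y * d) * ((1 + x) * u0)) =
      2 * (θ * C + ℓ * C') * ((cap Y * d) * ((1 + x) * u0)) by ring]
    refine mul_le_mul_of_nonneg_right ?_ (by positivity)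
    have : 0 ≤ θ * C + ℓ * C' := by positivity
    linarith
  have esum : ∑ t ∈ tri G, topSup xiC xiT u0 A D θ ℓ κ (G \ sides t) (nextB G B Y t) (nextY G Y)
        (nextW G B Y w t) = Q * (10 * u0 * ((1 + |r' - 1|) * h' - 1) + κ)
      + θ * ∑ t ∈ tri G, xiC (G \ sides t) (nextB G B Y t) (nextY G Y) (nextW G B Y w t)
      + ℓ * ∑ t ∈ tri G, xiT (G \ sides t) (nextB G B Y t) (nextY G Y) (nextW G B Y w t) := by
    rw [mul_sum, mul_sum, hQdef, Sharp.triNum, ← nsmul_eq_mul, ← sum_const, ← sum_add_distrib,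
      ← sum_add_distrib]
    refine sum_congr rfl fun t ht => ?_
    rw [topSup, hnext t ht, hh']
    ring
  rw [esum]
  refine (combine_step hQ.le hu.le hθ.le hℓ.le k1 ?_ ?_ k2 k10 (e := e) (XC := xiC G B Y w)
    (XT := xiT G B Y w)
    (S := √Y * cap Y * (psi G Y w + sq G w)) ?_).trans (le_of_eq ?_)
  · exact le_trans (le_of_eq (by ring)) (sC.trans (le_of_eq (by ring)))
  · exact sT.trans (le_of_eq (by ring))
  · exact k3.trans (le_of_eq (by ring))
  · rw [topSup, ← hr, ← hx]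

/-- A stopped sparse state costs less than the supersolution. -/
theorem sparse_cost {n : ℝ} (hC : Sharp.Penalty α N K C xiC)
    (hT : Sharp.Top.TopPenalty α N K' C' Y1 xiT)
    (hP : TParams K C K' C' u0 A D θ ℓ) {κ : ℝ} (hκ : 0 ≤ κ) (hG : Good G B Y w) (hY : D < Y)
    (hYN : Y ≤ N) (hg : ¬Go D G Y) (hu : n * √n ≤ 4 * u0) :
    (G.card : ℝ) + n * √n ≤ topSup xiC xiT u0 A D θ ℓ κ G B Y w := by
  have hYh : D / 2 ≤ Y := by have := hP.hD; linarith
  obtain ⟨hc, hc30, h1, -, hbig⟩ := hP.facts hYh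
  obtain ⟨hD, hK, hK', hC1, -, hu0, hθ, hℓ, -, -, -, -⟩ := hP
  have hY0 : 0 < Y := by linarith
  have hy : 2 * 8 ≤ √Y := by
    calc (2 * 8 : ℝ) = √(16 ^ 2) := by rw [Real.sqrt_sq] <;> norm_num
      _ ≤ _ := Real.sqrt_le_sqrt (by linarith)
  have hX := hT.nonneg G B Y w hG (hK'.trans hYh) hYN
  have hψ := Sharp.psi_nonneg G Y w
  have hsq := Sharp.sq_nonneg' G w
  have hm0 : (0 : ℝ) ≤ G.card := Nat.cast_nonneg _
  have hsm : (G.card : ℝ) ≤ 25 * Lower.shape G Y := by
    have hle : 3 * ((tri G).card : ℝ) ≤ G.card * Y / 2 := by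
      by_contra hh
      push Not at hh
      refine hg ⟨hY, hh.le, card_pos.1 (Nat.cast_pos (α := ℝ).1 ?_)⟩
      have : 0 ≤ (G.card : ℝ) * Y := by positivity
      linarith
    have := Sharp.deficit_le G hY0 (ε := 1 / 10) (by norm_num) le_rfl
    nlinarith
  have hge := hC.ge G B Y w hG (hK.trans hYh) hYN
  have hsh := Sharp.shape_le_split hY0 (hc30.trans (by norm_num)) hG
  have k1 : 2 * (G.card : ℝ) ≤ θ * xiC G B Y w := by
    refine le_of_mul_le_mul_right ?_ (show 0 < C by linarith)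
    have a1 : √Y * cap Y * psi G Y w ≤ √Y * psi G Y w :=
      mul_le_mul_of_nonneg_right
        (mul_le_of_le_one_right (Real.sqrt_nonneg _) (hc30.trans (by norm_num))) hψ
    have a2 := mul_le_mul_of_nonneg_left
      (show √Y * cap Y * (psi G Y w + sq G w) ≤ C * xiC G B Y w by linarith) hθ.le
    have a3 := mul_le_mul_of_nonneg_right hbig (add_nonneg hψ hsq)
    have a4 := mul_le_mul_of_nonneg_left (hsm.trans (mul_le_mul_of_nonneg_left hsh (by norm_num)))
      (show 0 ≤ 2 * C by linarith)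
    have : 0 ≤ C * psi G Y w := by positivity
    have : 0 ≤ C * sq G w := by positivity
    linarith
  set r := ratio u0 G Y with hr
  have hx := abs_nonneg (r - 1)
  have k2 : |r - 1| ≤ (1 + |r - 1|) * hf A D Y - 1 := by
    linarith [le_mul_of_one_le_right (show 0 ≤ 1 + |r - 1| by linarith) h1]
  have k3 := mul_le_mul_of_nonneg_left k2 (show 0 ≤ 10 * u0 by linarith)
  have k4 : 0 ≤ ℓ * xiT G B Y w := mul_nonneg hℓ.le hX
  have k5 : n * √n ≤ 10 * u0 * |r - 1| + G.card := by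
    rcases le_or_gt r (1 / 2) with h | h
    · have : 1 / 2 ≤ |r - 1| := by rw [abs_sub_comm]; linarith [le_abs_self (1 - r)]
      have := mul_le_mul_of_nonneg_left this (show 0 ≤ 10 * u0 by linarith)
      linarith
    · rw [hr, ratio, lt_div_iff₀ (mul_pos (by linarith) hu0)] at h
      have := mul_le_mul_of_nonneg_right hy hu0.le
      have : 0 ≤ 10 * u0 * |r - 1| := by positivity
      linarith
  unfold topSup
  rw [← hr]
  linarith

/-- The scaled edge count of the complete graph. -/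
noncomputable def startScale (n : ℝ) : ℝ := (n * (n - 1) / 2) / √(n - 2)

/-- The scaled edge count of the complete graph is close to `n √n / 2`. -/
theorem start_facts {n : ℝ} (hn : 16 ≤ n) :
    0 < startScale n ∧ n * √n ≤ 4 * startScale n ∧ startScale n ≤ n * √n ∧
      |startScale n - n * √n / 2| ≤ 2 * √n := by
  have hY0 : 0 < n - 2 := by linarith
  have hy0 : 0 < √(n - 2) := Real.sqrt_pos.2 hY0
  have hnn : √n * √n = n := Real.mul_self_sqrt (by linarith)
  have hYn : √(n - 2) ≤ √n := Real.sqrt_le_sqrt (by linarith)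
  unfold startScale
  refine ⟨div_pos (by nlinarith) hy0, ?_, ?_, ?_⟩
  · rw [mul_div_assoc', le_div_iff₀ hy0]
    calc n * √n * √(n - 2) ≤ n * √n * √n := mul_le_mul_of_nonneg_left hYn (by positivity)
      _ = n * n := by rw [mul_assoc, hnn]
      _ ≤ _ := by nlinarith
  · rw [div_le_iff₀ hy0]
    have k1 : √n / 2 ≤ √(n - 2) := by
      rw [Real.le_sqrt (by positivity) hY0.le, div_pow, Real.sq_sqrt (by linarith)]
      linarith
    calc n * (n - 1) / 2 ≤ n * √n * (√n / 2) := by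
          rw [mul_div_assoc', mul_assoc, hnn]; nlinarith
      _ ≤ _ := mul_le_mul_of_nonneg_left k1 (by positivity)
  · rw [abs_le]
    constructor
    · rw [le_sub_iff_add_le, le_div_iff₀ hy0]
      calc (-(2 * √n) + n * √n / 2) * √(n - 2) ≤ (-(2 * √n) + n * √n / 2) * √n := by
            refine mul_le_mul_of_nonneg_left hYn ?_
            nlinarith [Real.sqrt_nonneg n]
        _ = -2 * n + n * n / 2 := by
            rw [add_mul, neg_mul, mul_assoc 2, hnn, div_mul_eq_mul_div, mul_assoc n, hnn]; ring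
        _ ≤ _ := by nlinarith
    · rw [sub_le_iff_le_add, div_le_iff₀ hy0]
      have k1 : n - 2 ≤ √n * √(n - 2) := by
        calc n - 2 = √(n - 2) * √(n - 2) := (Real.mul_self_sqrt hY0.le).symm
          _ ≤ _ := mul_le_mul_of_nonneg_right hYn hy0.le
      calc n * (n - 1) / 2 ≤ (2 + n / 2) * (n - 2) := by nlinarith
        _ ≤ (2 + n / 2) * (√n * √(n - 2)) := mul_le_mul_of_nonneg_left k1 (by linarith)
        _ = _ := by ring

/-- A stopped dense state costs less than the supersolution. -/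
theorem dense_cost {n Y2 : ℝ} (hC : Sharp.Penalty α n K C xiC)
    (hT : Sharp.Top.TopPenalty α n K' C' Y2 xiT)
    (hP : TParams K C K' C' u0 A D θ ℓ) (hℓa : ℓ = 2000 / (cap D ^ (1 / 16 : ℝ)) ^ 14)
    (ha : cap D ^ (1 / 16 : ℝ) ≤ 1) (hG : Good G B Y w) (hY1 : D / 2 ≤ Y) (hY : Y ≤ D)
    (hY2 : Y ≤ Y2) (hYn : Y ≤ n) (hdiff : |u0 - n * √n / 2| ≤ 2 * √n) :
    seed G (blocks G) Y w + |(G.card : ℝ) / √(2 * Y) - n * √n / (2 * √2)| ≤
      topSup xiC xiT u0 A D θ ℓ (4 * cap D ^ (1 / 16 : ℝ) * u0 + 2 * √n) G B Y w := by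
  obtain ⟨hc, hc30, h1, -, -⟩ := hP.facts hY1
  obtain ⟨hD, hK, -, hC1, -, hu, hθ, -, -, -, -, -⟩ := hP
  have hY0 : 0 < Y := by linarith
  have hy : 0 < √Y := Real.sqrt_pos.2 hY0
  have hseed := seed_le (N := n) hG (by linarith) (by linarith) hY1 hY hYn hc30
  rw [← hℓa, ← hT.below G B Y w hY2] at hseed
  set a := cap D ^ (1 / 16 : ℝ) with had
  have ha0 : 0 ≤ a := Real.rpow_nonneg (Sharp.cap_pos (by linarith)).le _
  set r := ratio u0 G Y with hr
  have er : (G.card : ℝ) / √Y = r * u0 := by rw [hr, ratio]; field_simp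
  have hx := abs_nonneg (r - 1)
  have k1 : |(G.card : ℝ) / √(2 * Y) - n * √n / (2 * √2)| ≤ u0 * |r - 1| + 2 * √n := by
    have h2 : 1 ≤ √(2 : ℝ) := Real.one_le_sqrt.2 (by norm_num)
    rw [Real.sqrt_mul (by norm_num), show (G.card : ℝ) / (√2 * √Y) - n * √n / (2 * √2) =
      ((G.card : ℝ) / √Y - n * √n / 2) / √2 by field_simp, abs_div,
      abs_of_pos (show (0 : ℝ) < √2 by linarith), er]
    refine (div_le_self (abs_nonneg _) h2).trans ((abs_sub_le _ u0 _).trans ?_)
    rw [show r * u0 - u0 = (r - 1) * u0 by ring, abs_mul, abs_of_pos hu, mul_comm |r - 1|]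
    linarith
  have k2 : |r - 1| ≤ (1 + |r - 1|) * hf A D Y - 1 := by
    linarith [le_mul_of_one_le_right (show 0 ≤ 1 + |r - 1| by linarith) h1]
  have k3 := mul_le_mul_of_nonneg_left k2 (show 0 ≤ 10 * u0 by linarith)
  have hX0 : 0 ≤ xiC G B Y w := by
    refine nonneg_of_mul_nonneg_right (le_trans ?_ (hC.ge G B Y w hG (hK.trans hY1) hYn))
      (by linarith)
    have := Sharp.psi_nonneg G Y w
    have := Sharp.sq_nonneg' G w
    positivity
  have k4 : 0 ≤ θ * xiC G B Y w := mul_nonneg hθ.le hX0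
  have k5 : 2 * a * ((G.card : ℝ) / √Y) ≤ 2 * a * u0 + 2 * (u0 * |r - 1|) := by
    rw [er]
    calc 2 * a * (r * u0) ≤ 2 * a * ((1 + |r - 1|) * u0) := by
          refine mul_le_mul_of_nonneg_left (mul_le_mul_of_nonneg_right ?_ hu.le) (by linarith)
          linarith [le_abs_self (r - 1)]
      _ = 2 * a * u0 + 2 * a * (u0 * |r - 1|) := by ring
      _ ≤ _ := by
          have := mul_le_mul_of_nonneg_right (show 2 * a ≤ 2 by linarith)
            (show 0 ≤ u0 * |r - 1| by positivity)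
          linarith
  have k6 : 0 ≤ a * u0 := by positivity
  have k7 : 0 ≤ u0 * |r - 1| := by positivity
  unfold topSup
  rw [← hr]
  linarith

/-- The constants exist. -/
theorem choose_params {K C K' C' δ : ℝ} (hC : 1 ≤ C) (hC' : 1 ≤ C') (hδ : 0 < δ) :
    ∀ᶠ D : ℝ in atTop, ∃ A θ ℓ : ℝ, ℓ = 2000 / (cap D ^ (1 / 16 : ℝ)) ^ 14 ∧
      (∀ u0, 0 < u0 → TParams K C K' C' u0 A D θ ℓ) ∧ θ * C ≤ δ / 10 ∧
      A * cap (D / 2) ≤ δ / 100 ∧ cap D ^ (1 / 16 : ℝ) ≤ 1 ∧
      4 * cap D ^ (1 / 16 : ℝ) ≤ δ / 10 ∧ cap D ≤ 1 / 1000 := by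
  have t1 : Tendsto (fun D : ℝ => cap D ^ (1 / 16 : ℝ)) atTop (nhds 0) := by
    have := (tendsto_rpow_neg_atTop (show (0 : ℝ) < 1 / 50 by norm_num)).rpow_const
      (Or.inr (show (0 : ℝ) ≤ 1 / 16 by norm_num))
    simpa [cap] using this
  have e1 : ∀ᶠ D : ℝ in atTop, cap D ^ (1 / 16 : ℝ) ≤ 1 / 10 ^ 31 ∧
      cap D ^ (1 / 16 : ℝ) * (10 ^ 8 * (C + C')) ≤ min (δ / 10) 1 := by
    refine (t1.eventually_le_const (by norm_num)).and ?_
    have := t1.mul_const (10 ^ 8 * (C + C'))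
    rw [zero_mul] at this
    exact this.eventually_le_const (lt_min (by linarith) one_pos)
  have e2 : ∀ᶠ D : ℝ in atTop, 12000 * C * (1 + 10 * C / δ) ≤ √(D / 2) * cap (D / 2) := by
    filter_upwards [((tendsto_rpow_atTop (show (0 : ℝ) < 12 / 25 by norm_num)).comp
      (tendsto_id.atTop_div_const (show (0:ℝ) < 2 by norm_num))).eventually_ge_atTop
      (12000 * C * (1 + 10 * C / δ)), eventually_gt_atTop 0] with x hx h0
    rwa [Sharp.sqrt_cap_eq (by linarith)]
  filter_upwards [e1, e2, eventually_ge_atTop (2 * (10 ^ 9 + |K| + |K'|))] with D he1 hG0 hDbig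
  obtain ⟨ha31, had'⟩ := he1
  have had := had'.trans (min_le_left _ _)
  have had1 := had'.trans (min_le_right _ _)
  set a := cap D ^ (1 / 16 : ℝ) with ha
  have hKa := le_abs_self K
  have hKa' := le_abs_self K'
  have hK0 := abs_nonneg K
  have hK0' := abs_nonneg K'
  have hD0 : 0 < D := by linarith
  have hcD := Sharp.cap_pos hD0
  have ha0 : 0 < a := Real.rpow_pos_of_pos hcD _
  have ha1 : a ≤ 1 := ha31.trans (by norm_num)
  have ha16 : a ^ 16 = cap D := by
    rw [ha, ← Real.rpow_natCast, ← Real.rpow_mul hcD.le]; norm_num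
  have hcap2 : cap (D / 2) ≤ 2 * a ^ 16 := by
    rw [ha16, cap, cap, Real.div_rpow hD0.le (by norm_num), div_le_iff₀ (by positivity)]
    have : (1 : ℝ) / 2 ≤ (2 : ℝ) ^ (-(1/50) : ℝ) := by
      calc (1 / 2 : ℝ) = (2 : ℝ) ^ (-1 : ℝ) := by rw [Real.rpow_neg_one]; norm_num
        _ ≤ _ := Real.rpow_le_rpow_of_exponent_le (by norm_num) (by norm_num)
    linarith [mul_le_mul_of_nonneg_left this (show 0 ≤ 2 * D ^ (-(1/50) : ℝ) by positivity)]
  have hG00 : 0 < √(D / 2) * cap (D / 2) :=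
    mul_pos (Real.sqrt_pos.2 (by linarith)) (Sharp.cap_pos (by linarith))
  obtain ⟨θ, hθ⟩ : ∃ θ, θ = 12000 * C / (√(D / 2) * cap (D / 2)) := ⟨_, rfl⟩
  have h10 : 0 ≤ 10 * C / δ := by positivity
  have hθC : θ * C ≤ δ / 10 := by
    rw [hθ, div_mul_eq_mul_div, div_le_iff₀ hG00]
    refine le_trans ?_ (mul_le_mul_of_nonneg_left hG0 (by linarith))
    have e : δ / 10 * (12000 * C * (1 + 10 * C / δ)) = 12000 * C * C + 1200 * C * δ := by
      field_simp; ring
    rw [e]
    linarith [mul_pos (show 0 < C by linarith) hδ]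
  have hθ1 : θ ≤ 1 := by
    rw [hθ, div_le_one hG00]
    exact le_trans (le_mul_of_one_le_right (by positivity) (by linarith)) hG0
  have hθ0 : 0 < θ := by rw [hθ]; positivity
  have hb : a * (302000 * (C + C')) ≤ a * (10 ^ 8 * (C + C')) :=
    mul_le_mul_of_nonneg_left (by linarith) ha0.le
  obtain ⟨A, hA⟩ : ∃ A, A = 75 * (6 + θ * C + 2000 / a ^ 14 * C') := ⟨_, rfl⟩
  have hAle : A ≤ 151000 * (C + C') / a ^ 14 := by
    rw [hA, le_div_iff₀ (by positivity)]
    have k1 : 75 * (6 + θ * C) * a ^ 14 ≤ 75 * (6 + C) * 1 := by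
      refine mul_le_mul ?_ (pow_le_one₀ ha0.le ha1) (by positivity) (by positivity)
      linarith [mul_le_mul_of_nonneg_right hθ1 (show 0 ≤ C by linarith)]
    have e : 75 * (6 + θ * C + 2000 / a ^ 14 * C') * a ^ 14 =
        75 * (6 + θ * C) * a ^ 14 + 150000 * C' := by field_simp; ring
    linarith
  have hAcap : A * cap (D / 2) ≤ a * (302000 * (C + C')) := by
    calc A * cap (D / 2) ≤ 151000 * (C + C') / a ^ 14 * (2 * a ^ 16) :=
          mul_le_mul hAle hcap2 (Sharp.cap_pos (by linarith)).le (by positivity)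
      _ = a ^ 2 * (302000 * (C + C')) := by field_simp; ring
      _ ≤ _ := by
          refine mul_le_mul_of_nonneg_right ?_ (by positivity)
          rw [pow_two]; exact mul_le_of_le_one_left ha0.le ha1
  have h16 := pow_le_of_le_one ha0.le ha1 (show (16 : ℕ) ≠ 0 by norm_num)
  refine ⟨A, θ, 2000 / a ^ 14, rfl, fun u0 hu => ⟨by linarith, by linarith, by linarith, hC, hC',
    hu, hθ0, by positivity, hA.ge, hAcap.trans (hb.trans had1), by linarith,
    by rw [hθ, div_mul_cancel₀ _ hG00.ne']⟩, hθC, ?_, ha1, ?_, by linarith⟩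
  · have k : a * (302000 * (C + C')) ≤ a * (10 ^ 8 * (C + C')) / 100 := by
      rw [mul_div_assoc]
      exact mul_le_mul_of_nonneg_left (by linarith) ha0.le
    linarith
  · refine le_trans ?_ had
    rw [mul_comm 4 a]
    exact mul_le_mul_of_nonneg_left (by linarith) ha0.le

/-- Step A from the window certificate. -/
theorem stopMain_of (hcert : Sharp.Top.TopCertified) : StopMainStmt := by
  obtain ⟨K, C, hC, hev⟩ := Sharp.certified
  obtain ⟨K', C', hC', htop⟩ := hcert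
  intro δ hδ
  obtain ⟨D₀, hD₀⟩ := eventually_atTop.1 (choose_params (K := K) (K' := K') hC hC' hδ)
  refine ⟨D₀, fun D hD => ?_⟩
  obtain ⟨A, θ, ℓ, hℓ, hPu, hθC, hAδ, ha1, ha4, hcD⟩ := hD₀ D hD
  have hP1 := hPu 1 one_pos
  have hℓ0 := hP1.hℓ
  have hD9 := hP1.hD
  obtain ⟨ω, hω, hω'⟩ := htop (δ / 10 / ℓ) (div_pos (by linarith) hℓ0)
  filter_upwards [hev, hω', eventually_ge_atTop (⌈ω * (D + 2)⌉₊ + ⌈40 / δ⌉₊ + 16)]
    with n ⟨xiC, hXC, hXC0⟩ ⟨xiT, hXT, hXT0⟩ hn
  have hn' : ω * (D + 2) + 40 / δ + 16 ≤ (n : ℝ) := by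
    have h1 : ((⌈ω * (D + 2)⌉₊ + ⌈40 / δ⌉₊ + 16 : ℕ) : ℝ) ≤ n := by exact_mod_cast hn
    push_cast at h1
    linarith [Nat.le_ceil (ω * (D + 2)), Nat.le_ceil (40 / δ)]
  have hδ40 : 0 ≤ 40 / δ := by positivity
  have hωD : D + 2 ≤ ω * (D + 2) := le_mul_of_one_le_left (by linarith) hω
  obtain ⟨hu0, hunn, hule, hdiff⟩ := start_facts (show 16 ≤ (n : ℝ) by linarith)
  set u0 := startScale n with hu0d
  have hP := hPu u0 hu0
  set κ := 4 * cap D ^ (1 / 16 : ℝ) * u0 + 2 * √(n : ℝ) with hκ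
  have hκ0 : 0 ≤ κ := by
    have := Real.rpow_nonneg (Sharp.cap_pos (show 0 < D by linarith)).le (1 / 16 : ℝ)
    positivity
  have hstop : ∀ G B Y w, Inv n D G B Y w → ¬Go D G Y →
      errTop n D G B Y w ≤ topSup xiC xiT u0 A D θ ℓ κ G B Y w := by
    intro G B Y w hI hg
    unfold errTop
    by_cases hYle : Y ≤ D
    · rw [if_pos hYle]
      refine dense_cost hXC hXT hP hℓ ha1 hI.1 hI.2.2.1 hYle ?_ hI.2.2.2 hdiff
      rw [le_div_iff₀ (by linarith)]
      calc Y * ω ≤ (D + 2) * ω := mul_le_mul_of_nonneg_right (by linarith) (by linarith)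
        _ ≤ _ := by linarith [mul_comm (D + 2) ω]
    · rw [if_neg hYle]
      exact sparse_cost hXC hXT hP hκ0 hI.1 (not_le.1 hYle) hI.2.2.2 hg hunn
  have hY0 : 0 < (n : ℝ) - 2 := by linarith
  have hI0 : Inv n D (complete n) ∅ ((n : ℝ) - 2) (fun _ => 0) := by
    refine ⟨⟨fun e he _ => ?_, fun e => ?_⟩, subset_rfl, by linarith, by linarith⟩
    · rw [zeta, deg_complete he, Nat.cast_sub (by omega), Nat.cast_ofNat,
        div_self hY0.ne', sub_self, abs_zero]
      norm_num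
    · rw [abs_zero]; exact mul_nonneg (by norm_num) (Sharp.cap_pos hY0).le
  have key := stopE_le_of_step (S := topSup xiC xiT u0 A D θ ℓ κ)
    (fun G B Y w h hg t ht => Inv.next (n := n) (D := D) (by linarith) hcD h hg (t := t) ht)
    (fun G B Y w h hg => topSup_step hXC hXT hP κ h.1 h.2.2.1 h.2.2.2 hg) hstop
    (complete n) ∅ ((n : ℝ) - 2) (fun _ => 0) hI0
  refine key.trans ?_
  have hcard : ((complete n).card : ℝ) = n * ((n : ℝ) - 1) / 2 := by
    rw [complete, card_powersetCard, card_univ, Fintype.card_fin, Nat.cast_choose_two]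
  have hr1 : ratio u0 (complete n) ((n : ℝ) - 2) = 1 := by
    rw [ratio, hcard, hu0d, startScale, mul_div_cancel₀ _ (Real.sqrt_pos.2 hY0).ne',
      div_self (by nlinarith)]
  have hA0 : 0 ≤ A := le_trans (by have := hP.hθ; positivity) hP.hA
  have hh : hf A D ((n : ℝ) - 2) - 1 ≤ δ / 100 := by
    have : 0 ≤ A * cap ((n : ℝ) - 2) := mul_nonneg hA0 (Sharp.cap_pos hY0).le
    unfold hf; linarith
  have k1 := mul_le_mul_of_nonneg_left hh (show 0 ≤ 10 * u0 by linarith)
  have k1' := mul_le_mul_of_nonneg_left hule (show 0 ≤ δ / 10 by linarith)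
  have k2 : θ * xiC (complete n) ∅ ((n : ℝ) - 2) (fun _ => 0) ≤ δ / 10 * ((n : ℝ) * √n) := by
    refine (mul_le_mul_of_nonneg_left hXC0 hP.hθ.le).trans ?_
    rw [← mul_assoc]
    exact mul_le_mul_of_nonneg_right hθC (by positivity)
  have k3 : ℓ * xiT (complete n) ∅ ((n : ℝ) - 2) (fun _ => 0) ≤ δ / 10 * ((n : ℝ) * √n) := by
    refine (mul_le_mul_of_nonneg_left hXT0 hP.hℓ.le).trans (le_of_eq ?_)
    field_simp
  have k4 := mul_le_mul ha4 hule hu0.le (by linarith)
  have k5 : 2 * √(n : ℝ) ≤ δ / 10 * ((n : ℝ) * √n) := by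
    rw [← mul_assoc]
    refine mul_le_mul_of_nonneg_right ?_ (Real.sqrt_nonneg _)
    have : 40 / δ * δ = 40 := div_mul_cancel₀ _ hδ.ne'
    have k := mul_le_mul_of_nonneg_left (show 40 / δ ≤ (n : ℝ) by linarith) hδ.le
    linarith
  have : 0 ≤ δ * ((n : ℝ) * √n) := by positivity
  unfold topSup
  rw [hr1, sub_self, abs_zero, add_zero, one_mul, hκ]
  linarith

end Vale.Agent.P046.Limit
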